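import Mathlib

set_option linter.all false

open MeasureTheory Set
open scoped ENNReal NNReal Topology

namespace Vale.Agent.P262.H493

/-- Log-concavity of an `ℝ≥0∞`-valued function. -/
def LogConc {E : Type*} [AddCommGroup E] [Module ℝ E] (b : E → ℝ≥0∞) : Prop :=
  ∀ x y : E, ∀ s t : ℝ, 0 < s → 0 < t → s + t = 1 → b x ^ s * b y ^ t ≤ b (s • x + t • y)

theorem rpow_mul_rpow_self {x : ℝ≥0∞} {s t : ℝ} (hs : 0 < s) (ht : 0 < t) (hst : s + t = 1) :
    x ^ s * x ^ t = x := by
  rw [← ENNReal.rpow_add_of_nonneg _ _ hs.le ht.le, hst, ENNReal.rpow_one]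

theorem LogConc.min_le {b : ℝ → ℝ≥0∞} (h : LogConc b) {x y z : ℝ} (hz : z ∈ Icc x y) :
    min (b x) (b y) ≤ b z := by
  rcases eq_or_lt_of_le hz.1 with h1 | h1
  · rw [← h1]; exact min_le_left _ _
  rcases eq_or_lt_of_le hz.2 with h2 | h2
  · rw [h2]; exact min_le_right _ _
  have hxy : 0 < y - x := by linarith
  have hs : 0 < (y - z) / (y - x) := div_pos (by linarith) hxy
  have ht : 0 < (z - x) / (y - x) := div_pos (by linarith) hxy
  have hst : (y - z) / (y - x) + (z - x) / (y - x) = 1 := by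
    field_simp; ring
  have hzz : ((y - z) / (y - x)) • x + ((z - x) / (y - x)) • y = z := by
    simp only [smul_eq_mul]
    field_simp; ring
  calc min (b x) (b y)
      = min (b x) (b y) ^ ((y - z) / (y - x)) * min (b x) (b y) ^ ((z - x) / (y - x)) :=
        (rpow_mul_rpow_self hs ht hst).symm
    _ ≤ b x ^ ((y - z) / (y - x)) * b y ^ ((z - x) / (y - x)) := by
        gcongr
        · exact min_le_left _ _
        · exact min_le_right _ _
    _ ≤ b z := by
        have := h x y _ _ hs ht hst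
        rwa [hzz] at this

theorem LogConc.convex_pos {b : ℝ → ℝ≥0∞} (h : LogConc b) : Convex ℝ {x | 0 < b x} := by
  rw [convex_iff_ordConnected]
  refine ⟨fun x hx y hy z hz => ?_⟩
  exact lt_of_lt_of_le (lt_min hx hy) (h.min_le hz)

theorem LogConc.continuousOn {b : ℝ → ℝ≥0∞} (h : LogConc b) (hfin : ∀ x, b x ≠ ⊤) :
    ContinuousOn b (interior {x | 0 < b x}) := by
  have hc : ConcaveOn ℝ {x | 0 < b x} (fun x => Real.log (b x).toReal) := by
    rw [concaveOn_iff_forall_pos]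
    refine ⟨h.convex_pos, ?_⟩
    intro x hx y hy s t hs ht hst
    have hx' : 0 < (b x).toReal := ENNReal.toReal_pos (ne_of_gt hx) (hfin x)
    have hy' : 0 < (b y).toReal := ENNReal.toReal_pos (ne_of_gt hy) (hfin y)
    have h1 := h x y s t hs ht hst
    have h2 : (b x).toReal ^ s * (b y).toReal ^ t ≤ (b (s • x + t • y)).toReal := by
      rw [ENNReal.toReal_rpow, ENNReal.toReal_rpow, ← ENNReal.toReal_mul]
      exact ENNReal.toReal_mono (hfin _) h1
    have h3 := Real.log_le_log (by positivity) h2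
    rw [Real.log_mul (by positivity) (by positivity), Real.log_rpow hx', Real.log_rpow hy'] at h3
    simpa [smul_eq_mul] using h3
  have hcont := hc.continuousOn_interior
  have h4 : ContinuousOn (fun x => ENNReal.ofReal (Real.exp (Real.log (b x).toReal)))
      (interior {x | 0 < b x}) :=
    ENNReal.continuous_ofReal.comp_continuousOn (Real.continuous_exp.comp_continuousOn hcont)
  refine h4.congr fun x hx => ?_
  have hx0 : x ∈ {x | 0 < b x} := interior_subset hx
  have hx' : 0 < (b x).toReal := ENNReal.toReal_pos (ne_of_gt hx0) (hfin x)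
  simp only [Real.exp_log hx', ENNReal.ofReal_toReal (hfin x)]

/-- The set where `c < σ b` is open inside the interior of the support of `b`. -/
theorem isOpen_low {b c : ℝ → ℝ≥0∞} (h : LogConc b) (hfin : ∀ x, b x ≠ ⊤)
    (hc : UpperSemicontinuous c) {σ : ℝ≥0∞} (hσ : σ ≠ ⊤) :
    IsOpen ({x | c x < σ * b x} ∩ interior {x | 0 < b x}) := by
  rw [isOpen_iff_mem_nhds]
  rintro x ⟨hx1, hx2⟩
  obtain ⟨r, hr1, hr2⟩ := exists_between (show c x < σ * b x from hx1)
  have hU : interior {x | 0 < b x} ∈ 𝓝 x := isOpen_interior.mem_nhds hx2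
  have hbc : ContinuousAt b x := (h.continuousOn hfin).continuousAt hU
  have hbs : ContinuousAt (fun x => σ * b x) x :=
    ENNReal.Tendsto.const_mul hbc (Or.inr hσ)
  have e1 : ∀ᶠ y in 𝓝 x, r < σ * b y := hbs.eventually (lt_mem_nhds hr2)
  have e2 : ∀ᶠ y in 𝓝 x, c y < r := hc x r hr1
  filter_upwards [e1, e2, hU] with y h1 h2 h3
  exact ⟨h2.trans h1, h3⟩

/-- Transport towards a fat point, right hand side. -/
theorem right_side {b q c : ℝ → ℝ≥0∞} (hfin : ∀ x, b x ≠ ⊤) (hb : LogConc b)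
    {Θ : ℝ} (hΘ : 0 < Θ) (hΘ1 : Θ < 1)
    (hmix : ∀ x y, b x ^ (1 - Θ) * c y ^ Θ ≤ q ((1 - Θ) * x + Θ * y))
    {σ η : ℝ≥0∞} (hσ : σ ≠ ⊤) (hη : η ≤ 1) {a0 : ℝ}
    (haU : a0 ∈ interior {x | 0 < b x}) (haT : σ * b a0 ≤ c a0)
    (haη : ∀ x, η * b x ≤ b a0)
    (hS : IsOpen ({x | c x < σ * b x} ∩ interior {x | 0 < b x})) :
    ENNReal.ofReal (1 - Θ) * (σ * η) ^ Θ *
      ∫⁻ x in ({x | c x < σ * b x} ∩ interior {x | 0 < b x}) ∩ Ioi a0, b x ≤
      ∫⁻ x in ({x | c x < σ * b x} ∩ interior {x | 0 < b x}) ∩ Ioi a0, q x := by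
  set U := interior {x | 0 < b x} with hUdef
  set S := {x | c x < σ * b x} with hSdef
  set P := (S ∩ U) ∩ Ioi a0 with hP
  have hPopen : IsOpen P := hS.inter isOpen_Ioi
  have hUc : Convex ℝ U := hb.convex_pos.interior
  have hUo : OrdConnected U := hUc.ordConnected
  set A : ℝ → ℝ := fun s => sSup (Sᶜ ∩ Icc a0 s) with hA
  -- the set is closed and nonempty
  have hAmem : ∀ s ∈ P, A s ∈ Sᶜ ∩ Icc a0 s := by
    intro s hs
    have has : a0 ≤ s := le_of_lt hs.2
    have hsub : Icc a0 s ⊆ U := hUo.out haU hs.1.2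
    have hcl : IsClosed (Sᶜ ∩ Icc a0 s) := by
      have : Sᶜ ∩ Icc a0 s = Icc a0 s \ (S ∩ U) := by
        ext x
        simp only [mem_inter_iff, mem_compl_iff, mem_diff, not_and]
        constructor
        · rintro ⟨h1, h2⟩
          exact ⟨h2, fun h => absurd h h1⟩
        · rintro ⟨h1, h2⟩
          exact ⟨fun h => h2 h (hsub h1), h1⟩
      rw [this]
      exact isClosed_Icc.sdiff hS
    have hcomp : IsCompact (Sᶜ ∩ Icc a0 s) :=
      isCompact_Icc.of_isClosed_subset hcl inter_subset_right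
    have hne : (Sᶜ ∩ Icc a0 s).Nonempty := by
      refine ⟨a0, ?_, left_mem_Icc.mpr has⟩
      simp only [hSdef, mem_compl_iff, mem_setOf_eq, not_lt]
      exact haT
    exact hcomp.sSup_mem hne
  have hbdd : ∀ s, BddAbove (Sᶜ ∩ Icc a0 s) := fun s => ⟨s, fun x hx => hx.2.2⟩
  have hAlt : ∀ s ∈ P, A s < s := by
    intro s hs
    refine lt_of_le_of_ne (hAmem s hs).2.2 ?_
    intro h
    have h1 : A s ∈ Sᶜ := (hAmem s hs).1
    rw [h] at h1
    exact h1 hs.1.1
  have hAmono : ∀ s ∈ P, ∀ s' ∈ P, s ≤ s' → A s ≤ A s' := by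
    intro s hs s' hs' hss
    have h1 := hAmem s hs
    exact le_csSup (hbdd s') ⟨h1.1, h1.2.1, h1.2.2.trans hss⟩
  -- everything strictly between A s and s is in P
  have hbetween : ∀ s ∈ P, ∀ z, A s < z → z ≤ s → z ∈ P := by
    intro s hs z h1 h2
    have h3 : a0 ≤ A s := (hAmem s hs).2.1
    have h4 : z ∈ S := by
      by_contra hz
      have : z ≤ A s := le_csSup (hbdd s) ⟨hz, (h3.trans h1.le), h2⟩
      linarith
    exact ⟨⟨h4, hUo.out haU hs.1.2 ⟨h3.trans h1.le, h2⟩⟩, lt_of_le_of_lt h3 h1⟩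
  set φ : ℝ → ℝ := fun s => (1 - Θ) * s + Θ * A s with hφ
  have h1Θ : 0 < 1 - Θ := by linarith
  have hφlt : ∀ s ∈ P, A s < φ s ∧ φ s < s := by
    intro s hs
    have := hAlt s hs
    constructor
    · simp only [hφ]; nlinarith
    · simp only [hφ]; nlinarith
  have hφP : ∀ s ∈ P, φ s ∈ P := fun s hs =>
    hbetween s hs _ (hφlt s hs).1 (hφlt s hs).2.le
  have hφinj : InjOn φ P := by
    have hmono : StrictMonoOn φ P := by
      intro s hs s' hs' hss
      have h1 := hAmono s hs s' hs' hss.le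
      simp only [hφ]
      nlinarith
    exact hmono.injOn
  have hφd : ∀ s ∈ P, HasDerivWithinAt φ (1 - Θ) P s := by
    intro s hs
    apply HasDerivAt.hasDerivWithinAt
    -- A is locally constant
    have hloc : ∀ᶠ y in 𝓝 s, A y = A s := by
      obtain ⟨ε, hε, hball⟩ := Metric.isOpen_iff.mp hPopen s hs
      filter_upwards [Metric.ball_mem_nhds s hε] with y hy
      have hyP : y ∈ P := hball hy
      rcases le_total s y with hsy | hys
      · refine le_antisymm ?_ (hAmono s hs y hyP hsy)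
        by_contra hcon
        push Not at hcon
        have h1 := hAmem y hyP
        have h2 : A y ≤ s := by
          by_contra h3
          push Not at h3
          have h4 : A y ∈ P := by
            apply hball
            rw [Metric.mem_ball, Real.dist_eq] at hy ⊢
            rw [abs_of_nonneg (by linarith)] at hy ⊢
            have := h1.2.2
            linarith
          exact h1.1 h4.1.1
        have h5 : A y ≤ A s := le_csSup (hbdd s) ⟨h1.1, h1.2.1, h2⟩
        linarith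
      · refine le_antisymm (hAmono y hyP s hs hys) ?_
        have h1 := hAmem s hs
        have h2 : A s ≤ y := by
          by_contra h3
          push Not at h3
          have h4 : A s ∈ P := by
            apply hball
            rw [Metric.mem_ball, Real.dist_eq] at hy ⊢
            rw [abs_of_nonpos (by linarith)] at hy
            rw [abs_of_nonpos (by linarith [h1.2.2])]
            linarith
          exact h1.1 h4.1.1
        exact le_csSup (hbdd y) ⟨h1.1, h1.2.1, h2⟩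
    have hd1 : HasDerivAt (fun y => (1 - Θ) * y + Θ * A s) (1 - Θ) s := by
      have := ((hasDerivAt_id s).const_mul (1 - Θ)).add_const (Θ * A s)
      simpa using this
    refine hd1.congr_of_eventuallyEq ?_
    filter_upwards [hloc] with y hy
    simp only [hφ, hy]
  have hPm : MeasurableSet P := hPopen.measurableSet
  calc ENNReal.ofReal (1 - Θ) * (σ * η) ^ Θ * ∫⁻ x in P, b x
      = ∫⁻ x in P, ENNReal.ofReal (1 - Θ) * (σ * η) ^ Θ * b x := by
        rw [lintegral_const_mul']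
        refine ENNReal.mul_ne_top ENNReal.ofReal_ne_top ?_
        refine ENNReal.rpow_ne_top_of_nonneg hΘ.le ?_
        exact ENNReal.mul_ne_top hσ (ne_top_of_le_ne_top ENNReal.one_ne_top hη)
    _ ≤ ∫⁻ x in P, ENNReal.ofReal |1 - Θ| * q (φ x) := by
        refine setLIntegral_mono' hPm ?_
        intro s hs
        rw [abs_of_pos h1Θ, mul_assoc]
        gcongr
        have hAs := hAmem s hs
        have hbA : η * b s ≤ b (A s) := by
          have h1 : min (b a0) (b s) ≤ b (A s) := hb.min_le hAs.2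
          refine le_trans (le_min (haη s) ?_) h1
          calc η * b s ≤ 1 * b s := by gcongr
            _ = b s := one_mul _
        have hcA : σ * b (A s) ≤ c (A s) := by
          have := hAs.1
          simpa only [hSdef, mem_compl_iff, mem_setOf_eq, not_lt] using this
        calc (σ * η) ^ Θ * b s = b s ^ (1 - Θ) * (σ * η * b s) ^ Θ := by
              rw [ENNReal.mul_rpow_of_nonneg _ (b s) hΘ.le]
              conv_lhs => rw [← rpow_mul_rpow_self (x := b s) h1Θ hΘ (by ring)]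
              ring
          _ ≤ b s ^ (1 - Θ) * c (A s) ^ Θ := by
              gcongr
              calc σ * η * b s = σ * (η * b s) := mul_assoc _ _ _
                _ ≤ σ * b (A s) := by gcongr
                _ ≤ c (A s) := hcA
          _ ≤ q (φ s) := hmix _ _
    _ = ∫⁻ x in φ '' P, q x :=
        (lintegral_image_eq_lintegral_abs_deriv_mul hPm hφd hφinj q).symm
    _ ≤ ∫⁻ x in P, q x := lintegral_mono_set (by rintro _ ⟨s, hs, rfl⟩; exact hφP s hs)

/-- Transport towards a fat point, left hand side. -/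
theorem left_side {b q c : ℝ → ℝ≥0∞} (hfin : ∀ x, b x ≠ ⊤) (hb : LogConc b)
    {Θ : ℝ} (hΘ : 0 < Θ) (hΘ1 : Θ < 1)
    (hmix : ∀ x y, b x ^ (1 - Θ) * c y ^ Θ ≤ q ((1 - Θ) * x + Θ * y))
    {σ η : ℝ≥0∞} (hσ : σ ≠ ⊤) (hη : η ≤ 1) {a0 : ℝ}
    (haU : a0 ∈ interior {x | 0 < b x}) (haT : σ * b a0 ≤ c a0)
    (haη : ∀ x, η * b x ≤ b a0)
    (hS : IsOpen ({x | c x < σ * b x} ∩ interior {x | 0 < b x})) :
    ENNReal.ofReal (1 - Θ) * (σ * η) ^ Θ *
      ∫⁻ x in ({x | c x < σ * b x} ∩ interior {x | 0 < b x}) ∩ Iio a0, b x ≤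
      ∫⁻ x in ({x | c x < σ * b x} ∩ interior {x | 0 < b x}) ∩ Iio a0, q x := by
  have hint : (fun x : ℝ => -x) ⁻¹' (interior {x | 0 < b x}) =
      interior {x | 0 < b (-x)} := by
    have := (Homeomorph.neg ℝ).preimage_interior {x | 0 < b x}
    simpa using this
  have key := right_side (b := fun x => b (-x)) (q := fun x => q (-x)) (c := fun x => c (-x))
    (fun x => hfin _) (fun x y s t hs ht hst => by
      have := hb (-x) (-y) s t hs ht hst
      have e : s • (-x) + t • (-y) = -(s • x + t • y) := by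
        simp only [smul_eq_mul]; ring
      rwa [e] at this) hΘ hΘ1
    (fun x y => by
      have := hmix (-x) (-y)
      have e : (1 - Θ) * -x + Θ * -y = -((1 - Θ) * x + Θ * y) := by ring
      rwa [e] at this) hσ hη (a0 := -a0) (by rw [← hint]; simpa using haU) (by simpa using haT)
    (fun x => by simpa using haη (-x)) (by
      have h1 := hS.preimage (continuous_neg (G := ℝ))
      rw [preimage_inter, hint] at h1
      exact h1)
  have hset : ({x | c (-x) < σ * b (-x)} ∩ interior {x | 0 < b (-x)}) ∩ Ioi (-a0) =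
      (fun x : ℝ => -x) ⁻¹' (({x | c x < σ * b x} ∩ interior {x | 0 < b x}) ∩ Iio a0) := by
    rw [preimage_inter, preimage_inter, hint]
    congr 1
    ext x
    simp only [mem_Ioi, mem_preimage, mem_Iio]
    constructor <;> intro h <;> linarith
  rw [hset] at key
  have hPm : MeasurableSet (({x | c x < σ * b x} ∩ interior {x | 0 < b x}) ∩ Iio a0) :=
    (hS.inter isOpen_Iio).measurableSet
  have hmp : MeasurePreserving (fun x : ℝ => -x) volume volume :=
    Measure.measurePreserving_neg volume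
  have hme : MeasurableEmbedding (fun x : ℝ => -x) := (MeasurableEquiv.neg ℝ).measurableEmbedding
  rw [hmp.setLIntegral_comp_preimage_emb hme b, hmp.setLIntegral_comp_preimage_emb hme q] at key
  exact key

/-- Mass far below the maximum. -/
theorem tail_small {b : ℝ → ℝ≥0∞} (hbm : Measurable b) (hb : LogConc b) (m : ℝ) {η : ℝ} (hη : 0 < η) :
    ∫⁻ x in {x | b x < ENNReal.ofReal η * b m}, b x ≤
      ENNReal.ofReal (2 * Real.sqrt η) * ∫⁻ x, b x := by
  have hcv : ∫⁻ x, b x = ∫⁻ x, ENNReal.ofReal (1 / 2) * b ((m + x) / 2) := by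
    have h1 := lintegral_image_eq_lintegral_abs_deriv_mul (s := univ) (f := fun x : ℝ => (m + x) / 2)
      (f' := fun _ => 1 / 2) MeasurableSet.univ (fun x _ => by
        have := ((hasDerivAt_id x).const_add m).div_const 2
        exact this.hasDerivWithinAt) (by
        intro x _ y _ hxy
        simp only at hxy
        linarith) b
    have h2 : (fun x : ℝ => (m + x) / 2) '' univ = univ := by
      rw [image_univ, range_eq_univ]
      intro y
      exact ⟨2 * y - m, by ring⟩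
    rw [h2] at h1
    simp only [Measure.restrict_univ] at h1
    rw [h1]
    congr 1
    ext x
    rw [abs_of_pos (by norm_num)]
  have hpt : ∀ x ∈ {x | b x < ENNReal.ofReal η * b m},
      b x ≤ ENNReal.ofReal (Real.sqrt η) * b ((m + x) / 2) := by
    intro x hx
    have h1 := hb m x (1 / 2) (1 / 2) (by norm_num) (by norm_num) (by norm_num)
    have e : (1 / 2 : ℝ) • m + (1 / 2 : ℝ) • x = (m + x) / 2 := by
      simp only [smul_eq_mul]; ring
    rw [e] at h1
    calc b x = b x ^ (1 / 2 : ℝ) * b x ^ (1 / 2 : ℝ) :=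
          (rpow_mul_rpow_self (by norm_num) (by norm_num) (by norm_num)).symm
      _ ≤ (ENNReal.ofReal η * b m) ^ (1 / 2 : ℝ) * b x ^ (1 / 2 : ℝ) := by
          gcongr
          exact le_of_lt hx
      _ = ENNReal.ofReal (Real.sqrt η) * (b m ^ (1 / 2 : ℝ) * b x ^ (1 / 2 : ℝ)) := by
          rw [ENNReal.mul_rpow_of_nonneg _ _ (by norm_num : (0 : ℝ) ≤ 1 / 2),
            ENNReal.ofReal_rpow_of_pos hη, Real.sqrt_eq_rpow, mul_assoc]
      _ ≤ ENNReal.ofReal (Real.sqrt η) * b ((m + x) / 2) := by gcongr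
  have hs2 : ENNReal.ofReal (2 * Real.sqrt η) = 2 * ENNReal.ofReal (Real.sqrt η) := by
    rw [ENNReal.ofReal_mul (by norm_num)]
    norm_num
  calc ∫⁻ x in {x | b x < ENNReal.ofReal η * b m}, b x
      ≤ ∫⁻ x in {x | b x < ENNReal.ofReal η * b m},
          ENNReal.ofReal (Real.sqrt η) * b ((m + x) / 2) :=
        setLIntegral_mono' (measurableSet_lt hbm measurable_const) hpt
    _ ≤ ∫⁻ x, ENNReal.ofReal (Real.sqrt η) * b ((m + x) / 2) := setLIntegral_le_lintegral _ _
    _ = ENNReal.ofReal (Real.sqrt η) * ∫⁻ x, b ((m + x) / 2) := by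
        rw [lintegral_const_mul' _ _ ENNReal.ofReal_ne_top]
    _ = ENNReal.ofReal (2 * Real.sqrt η) * ∫⁻ x, b x := by
        rw [hcv, lintegral_const_mul' _ _ ENNReal.ofReal_ne_top, hs2, ← mul_assoc]
        congr 1
        have : ENNReal.ofReal (1 / 2) = 2⁻¹ := by
          rw [ENNReal.ofReal_div_of_pos (by norm_num)]
          norm_num
        rw [this, mul_assoc, mul_comm, mul_assoc]
        rw [ENNReal.inv_mul_cancel (by norm_num) (by norm_num), mul_one]

/-- existence of a fat point -/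
theorem exists_fat {b c : ℝ → ℝ≥0∞} (hbm : Measurable b) (hcm : Measurable c)
    (hb : LogConc b) {M : ℝ≥0∞} (hM : M ≠ ⊤) (hbM : ∀ x, b x ≤ M) (hint : ∫⁻ x, b x ≠ ⊤)
    (hint0 : ∫⁻ x, b x ≠ 0) (hcb : ∀ x, c x ≤ b x) {τ : ℝ} (hτ : 0 < τ) (hτ1 : τ ≤ 1)
    (hmass : ENNReal.ofReal τ * ∫⁻ x, b x ≤ ∫⁻ x, c x) :
    ∃ a0 ∈ interior {x | 0 < b x}, ENNReal.ofReal (τ / 2) * b a0 ≤ c a0 ∧
      ∀ x, ENNReal.ofReal (τ ^ 2 / 128) * b x ≤ b a0 := by
  have hfin : ∀ x, b x ≠ ⊤ := fun x => ne_top_of_le_ne_top hM (hbM x)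
  set σ := ENNReal.ofReal (τ / 2) with hσ
  -- the supremum
  set B := ⨆ x, b x with hB
  have hBM : B ≤ M := iSup_le hbM
  have hBtop : B ≠ ⊤ := ne_top_of_le_ne_top hM hBM
  have hB0 : B ≠ 0 := by
    intro h
    apply hint0
    have : ∀ x, b x = 0 := by
      intro x
      have := le_iSup b x
      rw [← hB, h] at this
      exact le_antisymm this bot_le
    simp [this]
  obtain ⟨m, hm⟩ : ∃ m, B / 2 < b m := by
    apply exists_lt_of_lt_ciSup
    exact ENNReal.half_lt_self hB0 hBtop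
  set η : ℝ := τ ^ 2 / 64 with hη
  have hηpos : 0 < η := by positivity
  have hsq : Real.sqrt η = τ / 8 := by
    rw [hη, show τ ^ 2 / 64 = (τ / 8) ^ 2 by ring, Real.sqrt_sq (by positivity)]
  have htail := tail_small hbm hb m hηpos
  rw [hsq] at htail
  -- the sets
  set T := {x | σ * b x ≤ c x} with hT
  have hTm : MeasurableSet T := measurableSet_le (hbm.const_mul _) hcm
  have hTmass : σ * ∫⁻ x, b x ≤ ∫⁻ x in T, b x := by
    have h1 : ∫⁻ x, c x ≤ (∫⁻ x in T, b x) + σ * ∫⁻ x, b x := by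
      rw [← lintegral_add_compl c hTm]
      refine add_le_add ?_ ?_
      · exact lintegral_mono hcb
      · calc ∫⁻ x in Tᶜ, c x ≤ ∫⁻ x in Tᶜ, σ * b x := by
              refine setLIntegral_mono' hTm.compl ?_
              intro x hx
              simp only [hT, mem_compl_iff, mem_setOf_eq, not_le] at hx
              exact hx.le
          _ ≤ ∫⁻ x, σ * b x := setLIntegral_le_lintegral _ _
          _ = σ * ∫⁻ x, b x := lintegral_const_mul' _ _ ENNReal.ofReal_ne_top
    have h2 : ENNReal.ofReal τ = σ + σ := by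
      rw [hσ, ← ENNReal.ofReal_add (by positivity) (by positivity)]
      congr 1; ring
    have h3 : (σ * ∫⁻ x, b x) + σ * ∫⁻ x, b x ≤ (∫⁻ x in T, b x) + σ * ∫⁻ x, b x := by
      rw [← add_mul, ← h2]
      exact hmass.trans h1
    exact (ENNReal.add_le_add_iff_right (ENNReal.mul_ne_top ENNReal.ofReal_ne_top hint)).mp h3
  set F := {x | b x < ENNReal.ofReal η * b m} with hF
  have hFm : MeasurableSet F := measurableSet_lt hbm measurable_const
  -- positivity of the mass of T \ F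
  have hpos : ∫⁻ x in T \ F, b x ≠ 0 := by
    intro h0
    have h1 : ∫⁻ x in T, b x ≤ ∫⁻ x in F, b x := by
      calc ∫⁻ x in T, b x ≤ ∫⁻ x in (T \ F) ∪ F, b x := lintegral_mono_set (by
              intro x hx
              by_cases h : x ∈ F
              · exact Or.inr h
              · exact Or.inl ⟨hx, h⟩)
        _ ≤ (∫⁻ x in T \ F, b x) + ∫⁻ x in F, b x := lintegral_union_le _ _ _
        _ = ∫⁻ x in F, b x := by rw [h0, zero_add]
    have h2 : σ * ∫⁻ x, b x ≤ ENNReal.ofReal (2 * (τ / 8)) * ∫⁻ x, b x :=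
      (hTmass.trans h1).trans htail
    have h3 : σ ≤ ENNReal.ofReal (2 * (τ / 8)) :=
      (ENNReal.mul_le_mul_iff_left hint0 hint).mp h2
    rw [hσ, ENNReal.ofReal_le_ofReal_iff (by positivity)] at h3
    linarith
  -- find the point
  have hex : ∃ x ∈ (T \ F), x ∈ interior {x | 0 < b x} := by
    by_contra hcon
    push Not at hcon
    apply hpos
    have hfr : volume (frontier {x | 0 < b x}) = 0 := (hb.convex_pos).addHaar_frontier volume
    have hz : ∀ᵐ x ∂(volume.restrict (T \ F)), b x = 0 := by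
      rw [ae_restrict_iff' (hTm.diff hFm)]
      have : ∀ᵐ x : ℝ, x ∉ frontier {x | 0 < b x} := measure_eq_zero_iff_ae_notMem.mp hfr
      filter_upwards [this] with x hx hxTF
      by_contra hbx
      have hx1 : x ∈ {x | 0 < b x} := pos_iff_ne_zero.mpr hbx
      apply hx
      exact ⟨subset_closure hx1, hcon x hxTF⟩
    rw [lintegral_congr_ae hz, lintegral_zero]
  obtain ⟨a0, ⟨ha1, ha2⟩, ha3⟩ := hex
  refine ⟨a0, ha3, ha1, ?_⟩
  intro x
  simp only [hF, mem_setOf_eq, not_lt] at ha2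
  refine le_trans ?_ ha2
  have h1 : b x ≤ 2 * b m := by
    calc b x ≤ B := le_iSup b x
      _ = 2 * (B / 2) := by
        rw [ENNReal.mul_div_cancel (by norm_num) (by norm_num)]
      _ ≤ 2 * b m := by gcongr
  calc ENNReal.ofReal (τ ^ 2 / 128) * b x ≤ ENNReal.ofReal (τ ^ 2 / 128) * (2 * b m) := by gcongr
    _ = ENNReal.ofReal η * b m := by
      rw [← mul_assoc]
      congr 1
      rw [show (2 : ℝ≥0∞) = ENNReal.ofReal 2 by norm_num, ← ENNReal.ofReal_mul (by positivity)]
      congr 1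
      rw [hη]; ring

theorem numeric_rho {Θ τ : ℝ} (hΘ : 0 < Θ) (hΘ1 : Θ < 1) (hτ : 0 < τ) (hτ1 : τ ≤ 1) :
    1 ≤ ENNReal.ofReal (1 - Θ) * (ENNReal.ofReal (τ / 2) * ENNReal.ofReal (τ ^ 2 / 128)) ^ Θ
      + ENNReal.ofReal (Θ * (1 + Real.log (256 / τ ^ 3))) := by
  have hpos : 0 < τ ^ 3 / 256 := by positivity
  have hle1 : τ ^ 3 / 256 ≤ 1 := by
    have : τ ^ 3 ≤ 1 := pow_le_one₀ hτ.le hτ1
    linarith
  have e1 : ENNReal.ofReal (τ / 2) * ENNReal.ofReal (τ ^ 2 / 128) = ENNReal.ofReal (τ ^ 3 / 256) := by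
    rw [← ENNReal.ofReal_mul (by positivity)]
    congr 1; ring
  have hlog : Real.log (256 / τ ^ 3) = - Real.log (τ ^ 3 / 256) := by
    rw [← Real.log_inv]; congr 1; field_simp
  have hL : 0 ≤ Real.log (256 / τ ^ 3) := by
    rw [hlog]
    have := Real.log_nonpos hpos.le hle1
    linarith
  have hx : 1 - Θ * Real.log (256 / τ ^ 3) ≤ (τ ^ 3 / 256) ^ Θ := by
    rw [Real.rpow_def_of_pos hpos, hlog]
    have := Real.add_one_le_exp (Real.log (τ ^ 3 / 256) * Θ)
    linarith
  have hx1 : (τ ^ 3 / 256) ^ Θ ≤ 1 := Real.rpow_le_one hpos.le hle1 hΘ.le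
  have hx0 : 0 ≤ (τ ^ 3 / 256) ^ Θ := Real.rpow_nonneg hpos.le _
  rw [e1, ENNReal.ofReal_rpow_of_pos hpos, ← ENNReal.ofReal_mul (by linarith),
    ← ENNReal.ofReal_add (by nlinarith) (by positivity), ← ENNReal.ofReal_one]
  apply ENNReal.ofReal_le_ofReal
  nlinarith

/-- **Lemma 1D.** -/
theorem oneD {b q c : ℝ → ℝ≥0∞} (hbm : Measurable b) (hqm : Measurable q) (hcm : Measurable c)
    (hb : LogConc b) {M : ℝ≥0∞} (hM : M ≠ ⊤) (hbM : ∀ x, b x ≤ M) (hint : ∫⁻ x, b x ≠ ⊤)
    (hcb : ∀ x, c x ≤ b x) (hcu : UpperSemicontinuous c)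
    {Θ : ℝ} (hΘ : 0 < Θ) (hΘ1 : Θ < 1)
    (hmix : ∀ x y, b x ^ (1 - Θ) * c y ^ Θ ≤ q ((1 - Θ) * x + Θ * y))
    {τ : ℝ} (hτ : 0 < τ) (hτ1 : τ ≤ 1)
    (hmass : ENNReal.ofReal τ * ∫⁻ x, b x ≤ ∫⁻ x, c x) :
    ∫⁻ x in {x | c x < ENNReal.ofReal τ * b x}, b x ≤
      (∫⁻ x in {x | c x < ENNReal.ofReal τ * b x}, q x) +
      ENNReal.ofReal (Θ * (1 + Real.log (256 / τ ^ 3))) *
        ∫⁻ x in {x | c x < ENNReal.ofReal τ * b x}, b x := by
  have hfin : ∀ x, b x ≠ ⊤ := fun x => ne_top_of_le_ne_top hM (hbM x)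
  by_cases hint0 : ∫⁻ x, b x = 0
  · have : ∫⁻ x in {x | c x < ENNReal.ofReal τ * b x}, b x = 0 :=
      le_antisymm ((setLIntegral_le_lintegral _ _).trans hint0.le) bot_le
    rw [this]; exact bot_le
  obtain ⟨a0, ha0U, ha0T, ha0η⟩ := exists_fat hbm hcm hb hM hbM hint hint0 hcb hτ hτ1 hmass
  set σ := ENNReal.ofReal (τ / 2) with hσ
  set η := ENNReal.ofReal (τ ^ 2 / 128) with hη
  set R := {x | c x < ENNReal.ofReal τ * b x} with hR
  set S := {x | c x < σ * b x} with hS
  set U := interior {x | 0 < b x} with hU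
  have hη1 : η ≤ 1 := by
    rw [hη]
    apply ENNReal.ofReal_le_one.mpr
    have : τ ^ 2 ≤ 1 := pow_le_one₀ hτ.le hτ1
    linarith
  have hopen : IsOpen (S ∩ U) := isOpen_low hb hfin hcu ENNReal.ofReal_ne_top
  have hr := right_side hfin hb hΘ hΘ1 hmix (σ := σ) ENNReal.ofReal_ne_top hη1 ha0U ha0T ha0η hopen
  have hl := left_side hfin hb hΘ hΘ1 hmix (σ := σ) ENNReal.ofReal_ne_top hη1 ha0U ha0T ha0η hopen
  set ρ := ENNReal.ofReal (1 - Θ) * (σ * η) ^ Θ with hρ
  have hρtop : ρ ≠ ⊤ := by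
    refine ENNReal.mul_ne_top ENNReal.ofReal_ne_top ?_
    exact ENNReal.rpow_ne_top_of_nonneg hΘ.le
      (ENNReal.mul_ne_top ENNReal.ofReal_ne_top ENNReal.ofReal_ne_top)
  have hSm : MeasurableSet S := measurableSet_lt hcm (hbm.const_mul _)
  have hRm : MeasurableSet R := measurableSet_lt hcm (hbm.const_mul _)
  have hSR : S ⊆ R := by
    intro x hx
    simp only [hS, hR, mem_setOf_eq] at hx ⊢
    refine lt_of_lt_of_le hx ?_
    gcongr
    rw [hσ]
    exact ENNReal.ofReal_le_ofReal (by linarith)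
  -- on R \ S
  have hRS : ρ * ∫⁻ x in R \ S, b x ≤ ∫⁻ x in R \ S, q x := by
    rw [← lintegral_const_mul' _ _ hρtop]
    refine setLIntegral_mono' (hRm.diff hSm) ?_
    intro x hx
    have hxS : σ * b x ≤ c x := by
      have := hx.2
      simpa only [hS, mem_setOf_eq, not_lt] using this
    have h1 := hmix x x
    have e : (1 - Θ) * x + Θ * x = x := by ring
    rw [e] at h1
    refine le_trans ?_ h1
    calc ρ * b x ≤ (σ * 1) ^ Θ * b x := by
          rw [hρ]
          gcongr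
          calc ENNReal.ofReal (1 - Θ) * (σ * η) ^ Θ ≤ 1 * (σ * 1) ^ Θ := by
                gcongr
                exact ENNReal.ofReal_le_one.mpr (by linarith)
            _ = (σ * 1) ^ Θ := one_mul _
      _ = b x ^ (1 - Θ) * (σ * b x) ^ Θ := by
          rw [mul_one, ENNReal.mul_rpow_of_nonneg _ (b x) hΘ.le]
          conv_lhs => rw [← rpow_mul_rpow_self (x := b x) (by linarith : 0 < 1 - Θ) hΘ (by ring)]
          ring
      _ ≤ b x ^ (1 - Θ) * c x ^ Θ := by gcongr
  set Pp := (S ∩ U) ∩ Ioi a0 with hPp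
  set Pm := (S ∩ U) ∩ Iio a0 with hPm
  have hPpm : MeasurableSet Pp := (hopen.inter isOpen_Ioi).measurableSet
  have hPmm : MeasurableSet Pm := (hopen.inter isOpen_Iio).measurableSet
  -- null part
  have hfr : volume (frontier {x | 0 < b x}) = 0 := (hb.convex_pos).addHaar_frontier volume
  have hSb : ∫⁻ x in S, b x ≤ (∫⁻ x in Pp, b x) + ∫⁻ x in Pm, b x := by
    have h1 : ∫⁻ x in S, b x ≤ (∫⁻ x in S ∩ (Pp ∪ Pm), b x) + ∫⁻ x in S \ (Pp ∪ Pm), b x := by
      rw [← lintegral_inter_add_diff b S (hPpm.union hPmm)]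
    have h2 : ∫⁻ x in S \ (Pp ∪ Pm), b x = 0 := by
      have hz : ∀ᵐ x ∂(volume.restrict (S \ (Pp ∪ Pm))), b x = 0 := by
        rw [ae_restrict_iff' (hSm.diff (hPpm.union hPmm))]
        have h3 : ∀ᵐ x : ℝ, x ∉ frontier {x | 0 < b x} := measure_eq_zero_iff_ae_notMem.mp hfr
        have h4 : ∀ᵐ x : ℝ, x ∉ ({a0} : Set ℝ) :=
          measure_eq_zero_iff_ae_notMem.mp (by simp)
        filter_upwards [h3, h4] with x hx hxa hxS
        by_contra hbx
        have hx1 : x ∈ {x | 0 < b x} := pos_iff_ne_zero.mpr hbx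
        apply hx
        refine ⟨subset_closure hx1, fun hxU => ?_⟩
        apply hxS.2
        rcases lt_trichotomy x a0 with h | h | h
        · exact Or.inr ⟨⟨hxS.1, hxU⟩, h⟩
        · exact absurd h hxa
        · exact Or.inl ⟨⟨hxS.1, hxU⟩, h⟩
      rw [lintegral_congr_ae hz, lintegral_zero]
    calc ∫⁻ x in S, b x ≤ (∫⁻ x in S ∩ (Pp ∪ Pm), b x) + ∫⁻ x in S \ (Pp ∪ Pm), b x := h1
      _ = ∫⁻ x in S ∩ (Pp ∪ Pm), b x := by rw [h2, add_zero]
      _ ≤ ∫⁻ x in Pp ∪ Pm, b x := lintegral_mono_set inter_subset_right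
      _ ≤ _ := lintegral_union_le _ _ _
  have hmain : ρ * ∫⁻ x in R, b x ≤ ∫⁻ x in R, q x := by
    have h1 : ∫⁻ x in R, b x = (∫⁻ x in S, b x) + ∫⁻ x in R \ S, b x := by
      rw [← lintegral_inter_add_diff b R hSm, inter_eq_right.mpr hSR]
    have h2 : ∫⁻ x in R, q x = (∫⁻ x in S, q x) + ∫⁻ x in R \ S, q x := by
      rw [← lintegral_inter_add_diff q R hSm, inter_eq_right.mpr hSR]
    have h3 : (∫⁻ x in Pp, q x) + ∫⁻ x in Pm, q x ≤ ∫⁻ x in S, q x := by
      rw [← lintegral_union hPmm]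
      · apply lintegral_mono_set
        rintro x (hx | hx)
        · exact hx.1.1
        · exact hx.1.1
      · rw [Set.disjoint_left]
        rintro x hx1 hx2
        exact lt_asymm (show a0 < x from hx1.2) (show x < a0 from hx2.2)
    calc ρ * ∫⁻ x in R, b x = ρ * (∫⁻ x in S, b x) + ρ * ∫⁻ x in R \ S, b x := by
          rw [h1, mul_add]
      _ ≤ ρ * ((∫⁻ x in Pp, b x) + ∫⁻ x in Pm, b x) + ∫⁻ x in R \ S, q x := by
          gcongr
      _ ≤ ((∫⁻ x in Pp, q x) + ∫⁻ x in Pm, q x) + ∫⁻ x in R \ S, q x := by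
          rw [mul_add]
          gcongr
      _ ≤ (∫⁻ x in S, q x) + ∫⁻ x in R \ S, q x := by gcongr
      _ = ∫⁻ x in R, q x := h2.symm
  calc ∫⁻ x in R, b x = 1 * ∫⁻ x in R, b x := (one_mul _).symm
    _ ≤ (ρ + ENNReal.ofReal (Θ * (1 + Real.log (256 / τ ^ 3)))) * ∫⁻ x in R, b x := by
        gcongr
        exact numeric_rho hΘ hΘ1 hτ hτ1
    _ = ρ * (∫⁻ x in R, b x) + ENNReal.ofReal (Θ * (1 + Real.log (256 / τ ^ 3))) *
          ∫⁻ x in R, b x := add_mul _ _ _
    _ ≤ _ := by gcongr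

end Vale.Agent.P262.H493
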