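import Mathlib
import Vale.Agent.P271.F507.PL
import Vale.Agent.P262.H493.OneD

set_option linter.all false

open MeasureTheory Set Filter
open scoped ENNReal NNReal Topology

namespace Vale.Agent.P262.H493

/-- section at the first coordinate -/
def sl {n : ℕ} (g : (Fin (n + 1) → ℝ) → ℝ≥0∞) (s : ℝ) : (Fin n → ℝ) → ℝ≥0∞ :=
  fun x => g (Fin.cons s x)

theorem measurable_cons {n : ℕ} :
    Measurable fun p : ℝ × (Fin n → ℝ) => (Fin.cons p.1 p.2 : Fin (n + 1) → ℝ) := by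
  refine measurable_pi_lambda _ fun i => ?_
  refine Fin.cases ?_ (fun j => ?_) i
  · simpa using measurable_fst
  · simp only [Fin.cons_succ]
    exact (measurable_pi_apply j).comp measurable_snd

theorem continuous_cons {n : ℕ} (s : ℝ) :
    Continuous fun x : Fin n → ℝ => (Fin.cons s x : Fin (n + 1) → ℝ) := by
  refine continuous_pi fun i => ?_
  refine Fin.cases ?_ (fun j => ?_) i
  · simpa using continuous_const
  · simpa using continuous_apply j

theorem lintegral_cons {n : ℕ} (g : (Fin (n + 1) → ℝ) → ℝ≥0∞) (hg : Measurable g) :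
    ∫⁻ x, g x = ∫⁻ s : ℝ, ∫⁻ x : Fin n → ℝ, sl g s x := by
  set e := MeasurableEquiv.piFinSuccAbove (fun _ : Fin (n + 1) => ℝ) 0 with he
  have hvp : MeasurePreserving e volume volume :=
    volume_preserving_piFinSuccAbove (fun _ : Fin (n + 1) => ℝ) 0
  rw [← hvp.symm.lintegral_comp hg]
  refine (lintegral_prod _ (hg.comp e.symm.measurable).aemeasurable).trans ?_
  refine lintegral_congr fun s => lintegral_congr fun x => ?_
  have : e.symm (s, x) = (Fin.cons s x : Fin (n + 1) → ℝ) := by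
    funext i
    refine Fin.cases ?_ (fun j => ?_) i
    · simp [he, MeasurableEquiv.piFinSuccAbove]
    · simp [he, MeasurableEquiv.piFinSuccAbove]
  simp only [sl, Function.comp]
  rw [this]

theorem lintegral_cons_set {n : ℕ} (g : (Fin (n + 1) → ℝ) → ℝ≥0∞) (hg : Measurable g)
    {A : Set (Fin (n + 1) → ℝ)} (hA : MeasurableSet A) :
    ∫⁻ x in A, g x = ∫⁻ s : ℝ, ∫⁻ x in {x : Fin n → ℝ | (Fin.cons s x : Fin (n + 1) → ℝ) ∈ A},
      sl g s x := by
  rw [← lintegral_indicator hA, lintegral_cons _ (hg.indicator hA)]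
  refine lintegral_congr fun s => ?_
  have hm : MeasurableSet {x : Fin n → ℝ | (Fin.cons s x : Fin (n + 1) → ℝ) ∈ A} :=
    (continuous_cons s).measurable hA
  rw [← lintegral_indicator hm]
  refine lintegral_congr fun x => ?_
  by_cases hx : (Fin.cons s x : Fin (n + 1) → ℝ) ∈ A
  · rw [indicator_of_mem (show x ∈ {x : Fin n → ℝ | (Fin.cons s x : Fin (n + 1) → ℝ) ∈ A} from hx)]
    simp only [sl]
    rw [indicator_of_mem hx]
  · rw [indicator_of_notMem
      (show x ∉ {x : Fin n → ℝ | (Fin.cons s x : Fin (n + 1) → ℝ) ∈ A} from hx)]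
    simp only [sl]
    rw [indicator_of_notMem hx]

theorem measurable_lintegral_cons_set {n : ℕ} (g : (Fin (n + 1) → ℝ) → ℝ≥0∞) (hg : Measurable g)
    {A : Set (Fin (n + 1) → ℝ)} (hA : MeasurableSet A) :
    Measurable fun s : ℝ => ∫⁻ x in {x : Fin n → ℝ | (Fin.cons s x : Fin (n + 1) → ℝ) ∈ A},
      sl g s x := by
  have h1 : (fun s : ℝ => ∫⁻ x in {x : Fin n → ℝ | (Fin.cons s x : Fin (n + 1) → ℝ) ∈ A},
      sl g s x) = fun s : ℝ => ∫⁻ x : Fin n → ℝ, A.indicator g (Fin.cons s x) := by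
    funext s
    have hm : MeasurableSet {x : Fin n → ℝ | (Fin.cons s x : Fin (n + 1) → ℝ) ∈ A} :=
      (continuous_cons s).measurable hA
    rw [← lintegral_indicator hm]
    refine lintegral_congr fun x => ?_
    by_cases hx : (Fin.cons s x : Fin (n + 1) → ℝ) ∈ A
    · rw [indicator_of_mem
        (show x ∈ {x : Fin n → ℝ | (Fin.cons s x : Fin (n + 1) → ℝ) ∈ A} from hx)]
      simp only [sl]
      rw [indicator_of_mem hx]
    · rw [indicator_of_notMem
        (show x ∉ {x : Fin n → ℝ | (Fin.cons s x : Fin (n + 1) → ℝ) ∈ A} from hx)]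
      rw [indicator_of_notMem hx]
  rw [h1]
  exact ((hg.indicator hA).comp measurable_cons).lintegral_prod_right'

theorem measurable_lintegral_sl {n : ℕ} (g : (Fin (n + 1) → ℝ) → ℝ≥0∞) (hg : Measurable g) :
    Measurable fun s : ℝ => ∫⁻ x : Fin n → ℝ, sl g s x :=
  (hg.comp measurable_cons).lintegral_prod_right'

theorem measurable_sl {n : ℕ} (g : (Fin (n + 1) → ℝ) → ℝ≥0∞) (hg : Measurable g) (s : ℝ) :
    Measurable (sl g s) := hg.comp (continuous_cons s).measurable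

/-- fibre mass over the first `i+1` coordinates -/
noncomputable def mg : (n : ℕ) → ((Fin n → ℝ) → ℝ≥0∞) → Fin n → (Fin n → ℝ) → ℝ≥0∞
  | 0, _, i, _ => Fin.elim0 i
  | (n + 1), g, i, x =>
    Fin.cases (∫⁻ z : Fin n → ℝ, sl g (x 0) z) (fun j => mg n (sl g (x 0)) j (Fin.tail x)) i

@[simp] theorem mg_zero {n : ℕ} (g : (Fin (n + 1) → ℝ) → ℝ≥0∞) (s : ℝ) (x : Fin n → ℝ) :
    mg (n + 1) g 0 (Fin.cons s x) = ∫⁻ z, sl g s z := by
  simp [mg]

@[simp] theorem mg_succ {n : ℕ} (g : (Fin (n + 1) → ℝ) → ℝ≥0∞) (i : Fin n) (s : ℝ)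
    (x : Fin n → ℝ) :
    mg (n + 1) g i.succ (Fin.cons s x) = mg n (sl g s) i x := by
  simp [mg]

theorem measurable_mg_aux : ∀ (n : ℕ) {α : Type} [MeasurableSpace α]
    (g : α → (Fin n → ℝ) → ℝ≥0∞), Measurable (Function.uncurry g) → ∀ i : Fin n,
    Measurable fun p : α × (Fin n → ℝ) => mg n (g p.1) i p.2 := by
  intro n
  induction n with
  | zero => intro α _ g hg i; exact Fin.elim0 i
  | succ n ih =>
    intro α _ g hg i
    refine Fin.cases ?_ (fun j => ?_) i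
    · simp only [mg, Fin.cases_zero]
      have h1 : Measurable fun q : (α × (Fin (n + 1) → ℝ)) × (Fin n → ℝ) =>
          Function.uncurry g (q.1.1, (Fin.cons (q.1.2 0) q.2 : Fin (n + 1) → ℝ)) := by
        refine hg.comp (Measurable.prodMk (measurable_fst.comp measurable_fst) ?_)
        exact measurable_cons.comp (Measurable.prodMk
          ((measurable_pi_apply 0).comp (measurable_snd.comp measurable_fst)) measurable_snd)
      exact h1.lintegral_prod_right'
    · simp only [mg, Fin.cases_succ]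
      have h1 := ih (α := α × ℝ) (fun a => sl (g a.1) a.2) (by
        have : (Function.uncurry fun a : α × ℝ => sl (g a.1) a.2) =
            fun q : (α × ℝ) × (Fin n → ℝ) =>
              Function.uncurry g (q.1.1, (Fin.cons q.1.2 q.2 : Fin (n + 1) → ℝ)) := by
          funext q
          rfl
        rw [this]
        refine hg.comp (Measurable.prodMk (measurable_fst.comp measurable_fst) ?_)
        exact measurable_cons.comp (Measurable.prodMk
          (measurable_snd.comp measurable_fst) measurable_snd)) j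
      have h2 : Measurable fun p : α × (Fin (n + 1) → ℝ) => ((p.1, p.2 0), Fin.tail p.2) := by
        refine Measurable.prodMk (Measurable.prodMk measurable_fst
          ((measurable_pi_apply 0).comp measurable_snd)) ?_
        refine measurable_pi_lambda _ fun k => ?_
        exact (measurable_pi_apply k.succ).comp measurable_snd
      exact h1.comp h2

theorem measurable_mg {n : ℕ} (g : (Fin n → ℝ) → ℝ≥0∞) (hg : Measurable g) (i : Fin n) :
    Measurable (mg n g i) := by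
  have h := measurable_mg_aux n (α := Unit) (fun _ => g) (hg.comp measurable_snd) i
  exact h.comp (measurable_const.prodMk measurable_id : Measurable fun x : Fin n → ℝ => ((), x))

/-- nowhere long -/
def Low (n : ℕ) (τ : ℝ≥0∞) (g0 g1 : (Fin n → ℝ) → ℝ≥0∞) : Set (Fin n → ℝ) :=
  {x | ∀ i, mg n g1 i x < τ * mg n g0 i x}

theorem measurableSet_Low {n : ℕ} {τ : ℝ≥0∞} {g0 g1 : (Fin n → ℝ) → ℝ≥0∞} (h0 : Measurable g0)
    (h1 : Measurable g1) : MeasurableSet (Low n τ g0 g1) := by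
  have : Low n τ g0 g1 = ⋂ i, {x | mg n g1 i x < τ * mg n g0 i x} := by
    ext x; simp [Low]
  rw [this]
  exact MeasurableSet.iInter fun i =>
    measurableSet_lt (measurable_mg g1 h1 i) ((measurable_mg g0 h0 i).const_mul _)

theorem Low_slice_lt {n : ℕ} {τ : ℝ≥0∞} {g0 g1 : (Fin (n + 1) → ℝ) → ℝ≥0∞} {s : ℝ}
    (h : ∫⁻ z, sl g1 s z < τ * ∫⁻ z, sl g0 s z) :
    {x : Fin n → ℝ | (Fin.cons s x : Fin (n + 1) → ℝ) ∈ Low (n + 1) τ g0 g1} =
      Low n τ (sl g0 s) (sl g1 s) := by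
  ext x
  simp only [Low, mem_setOf_eq, Fin.forall_fin_succ, mg_zero, mg_succ]
  constructor
  · exact fun h' => h'.2
  · exact fun h' => ⟨h, h'⟩

theorem Low_slice_ge {n : ℕ} {τ : ℝ≥0∞} {g0 g1 : (Fin (n + 1) → ℝ) → ℝ≥0∞} {s : ℝ}
    (h : ¬ ∫⁻ z, sl g1 s z < τ * ∫⁻ z, sl g0 s z) :
    {x : Fin n → ℝ | (Fin.cons s x : Fin (n + 1) → ℝ) ∈ Low (n + 1) τ g0 g1} = ∅ := by
  ext x
  simp only [Low, mem_setOf_eq, Fin.forall_fin_succ, mg_zero, mg_succ, mem_empty_iff_false,
    iff_false, not_and]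
  exact fun h' => absurd h' h

/-- maximal inequality -/
theorem maximal : ∀ (n : ℕ) {τ : ℝ≥0∞} {g0 g1 : (Fin n → ℝ) → ℝ≥0∞} (hτ : τ ≠ ⊤)
    (h0 : Measurable g0) (h1 : Measurable g1),
    τ * ∫⁻ x in (Low n τ g0 g1)ᶜ, g0 x ≤ ∫⁻ x, g1 x := by
  intro n
  induction n with
  | zero =>
    intro τ g0 g1 hτ h0 h1
    have : (Low 0 τ g0 g1)ᶜ = ∅ := by
      ext x
      simp [Low]
    rw [this]
    simp
  | succ n ih =>
    intro τ g0 g1 hτ h0 h1
    have hLm := (measurableSet_Low (τ := τ) h0 h1).compl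
    rw [lintegral_cons_set g0 h0 hLm, lintegral_cons g1 h1, ← lintegral_const_mul' _ _ hτ]
    refine lintegral_mono fun s => ?_
    have hset : {x : Fin n → ℝ | (Fin.cons s x : Fin (n + 1) → ℝ) ∈ (Low (n + 1) τ g0 g1)ᶜ} =
        {x : Fin n → ℝ | (Fin.cons s x : Fin (n + 1) → ℝ) ∈ (Low (n + 1) τ g0 g1)}ᶜ := rfl
    simp only [hset]
    by_cases h : ∫⁻ z, sl g1 s z < τ * ∫⁻ z, sl g0 s z
    · rw [Low_slice_lt h]
      exact ih hτ (measurable_sl g0 h0 s) (measurable_sl g1 h1 s)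
    · rw [Low_slice_ge h, compl_empty, Measure.restrict_univ]
      exact not_lt.mp h

/-- regular triples -/
structure Reg {n : ℕ} (Θ : ℝ) (g0 gT g1 : (Fin n → ℝ) → ℝ≥0∞) : Prop where
  m0 : Measurable g0
  mT : Measurable gT
  m1 : Measurable g1
  le1 : ∀ x, g1 x ≤ gT x
  leT : ∀ x, gT x ≤ g0 x
  lc : LogConc g0
  mix : ∀ x y, g0 x ^ (1 - Θ) * g1 y ^ Θ ≤ gT ((1 - Θ) • x + Θ • y)
  usc : UpperSemicontinuous g1
  dom : ∃ (M B : ℝ≥0∞) (ψ : ℝ → ℝ≥0∞), M ≠ ⊤ ∧ B ≠ ⊤ ∧ Measurable ψ ∧ (∀ s, ψ s ≤ B) ∧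
    ∫⁻ s, ψ s ≠ ⊤ ∧ ∀ x, g0 x ≤ M * ∏ i, ψ (x i)

theorem smul_cons_add {n : ℕ} (s t a b : ℝ) (x y : Fin n → ℝ) :
    s • (Fin.cons a x : Fin (n + 1) → ℝ) + t • (Fin.cons b y : Fin (n + 1) → ℝ) =
      (Fin.cons (s * a + t * b) (s • x + t • y) : Fin (n + 1) → ℝ) := by
  funext i
  refine Fin.cases ?_ (fun j => ?_) i
  · simp
  · simp

theorem lintegral_prod_psi {ψ : ℝ → ℝ≥0∞} (hψ : Measurable ψ) : ∀ n : ℕ,
    ∫⁻ x : Fin n → ℝ, ∏ i, ψ (x i) = (∫⁻ s, ψ s) ^ n := by
  intro n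
  induction n with
  | zero =>
    have hv : (volume : Measure (Fin 0 → ℝ)) univ = 1 := by simp [volume_pi]
    simp [hv]
  | succ n ih =>
    rw [lintegral_cons _ (by fun_prop)]
    simp only [sl, Fin.prod_univ_succ, Fin.cons_zero, Fin.cons_succ]
    have : ∀ s, ∫⁻ x : Fin n → ℝ, ψ s * ∏ i, ψ (x i) = ψ s * (∫⁻ s, ψ s) ^ n := by
      intro s
      rw [lintegral_const_mul _ (by fun_prop), ih]
    simp only [this]
    rw [lintegral_mul_const _ hψ, pow_succ, mul_comm]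

namespace Reg

variable {n : ℕ} {Θ : ℝ}

theorem slice {g0 gT g1 : (Fin (n + 1) → ℝ) → ℝ≥0∞} (h : Reg Θ g0 gT g1) (s : ℝ) :
    Reg Θ (sl g0 s) (sl gT s) (sl g1 s) where
  m0 := measurable_sl g0 h.m0 s
  mT := measurable_sl gT h.mT s
  m1 := measurable_sl g1 h.m1 s
  le1 := fun x => h.le1 _
  leT := fun x => h.leT _
  lc := by
    intro x y a b ha hb hab
    have := h.lc (Fin.cons s x) (Fin.cons s y) a b ha hb hab
    rw [smul_cons_add] at this
    have e : a * s + b * s = s := by rw [← add_mul, hab, one_mul]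
    rw [e] at this
    exact this
  mix := by
    intro x y
    have := h.mix (Fin.cons s x) (Fin.cons s y)
    rw [smul_cons_add] at this
    have e : (1 - Θ) * s + Θ * s = s := by ring
    rw [e] at this
    exact this
  usc := by
    intro x r hr
    exact ((continuous_cons s).tendsto x).eventually (h.usc (Fin.cons s x) r hr)
  dom := by
    obtain ⟨M, B, ψ, hM, hB, hψm, hψB, hψi, hd⟩ := h.dom
    refine ⟨M * ψ s, B, ψ, ENNReal.mul_ne_top hM (ne_top_of_le_ne_top hB (hψB s)), hB, hψm, hψB,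
      hψi, fun x => ?_⟩
    have := hd (Fin.cons s x)
    rw [Fin.prod_univ_succ] at this
    simp only [Fin.cons_zero, Fin.cons_succ] at this
    rw [mul_assoc]
    exact this

theorem int0 {g0 gT g1 : (Fin n → ℝ) → ℝ≥0∞} (h : Reg Θ g0 gT g1) : ∫⁻ x, g0 x ≠ ⊤ := by
  obtain ⟨M, B, ψ, hM, hB, hψm, hψB, hψi, hd⟩ := h.dom
  have : ∫⁻ x, g0 x ≤ M * (∫⁻ s, ψ s) ^ n := by
    calc ∫⁻ x, g0 x ≤ ∫⁻ x : Fin n → ℝ, M * ∏ i, ψ (x i) := lintegral_mono hd
      _ = M * (∫⁻ s, ψ s) ^ n := by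
        rw [lintegral_const_mul' _ _ hM, lintegral_prod_psi hψm]
  exact ne_top_of_le_ne_top (ENNReal.mul_ne_top hM (ENNReal.pow_ne_top hψi)) this

theorem bdd_marg {g0 gT g1 : (Fin (n + 1) → ℝ) → ℝ≥0∞} (h : Reg Θ g0 gT g1) :
    ∃ M' : ℝ≥0∞, M' ≠ ⊤ ∧ ∀ s, ∫⁻ x, sl g0 s x ≤ M' := by
  obtain ⟨M, B, ψ, hM, hB, hψm, hψB, hψi, hd⟩ := h.dom
  refine ⟨M * B * (∫⁻ s, ψ s) ^ n, ENNReal.mul_ne_top (ENNReal.mul_ne_top hM hB)
    (ENNReal.pow_ne_top hψi), fun s => ?_⟩
  calc ∫⁻ x, sl g0 s x ≤ ∫⁻ x : Fin n → ℝ, M * B * ∏ i, ψ (x i) := by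
        refine lintegral_mono fun x => ?_
        have := hd (Fin.cons s x)
        rw [Fin.prod_univ_succ] at this
        simp only [Fin.cons_zero, Fin.cons_succ] at this
        refine this.trans ?_
        rw [mul_assoc]
        gcongr
        exact hψB s
    _ = M * B * (∫⁻ s, ψ s) ^ n := by
        rw [lintegral_const_mul' _ _ (ENNReal.mul_ne_top hM hB), lintegral_prod_psi hψm]

theorem marg_lc {g0 gT g1 : (Fin (n + 1) → ℝ) → ℝ≥0∞} (h : Reg Θ g0 gT g1) :
    LogConc fun s : ℝ => ∫⁻ x, sl g0 s x := by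
  intro x y s t hs ht hst
  refine Vale.Agent.P271.F507.pl_pi hs ht hst n _ _ _ (measurable_sl g0 h.m0 x)
    (measurable_sl g0 h.m0 y) (measurable_sl g0 h.m0 _) ?_
  intro u v
  have := h.lc (Fin.cons x u) (Fin.cons y v) s t hs ht hst
  rw [smul_cons_add] at this
  exact this

theorem marg_mix {g0 gT g1 : (Fin (n + 1) → ℝ) → ℝ≥0∞} (h : Reg Θ g0 gT g1) (hΘ : 0 < Θ)
    (hΘ1 : Θ < 1) (x y : ℝ) :
    (∫⁻ z, sl g0 x z) ^ (1 - Θ) * (∫⁻ z, sl g1 y z) ^ Θ ≤
      ∫⁻ z, sl gT ((1 - Θ) * x + Θ * y) z := by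
  refine Vale.Agent.P271.F507.pl_pi (by linarith) hΘ (by ring) n _ _ _ (measurable_sl g0 h.m0 x)
    (measurable_sl g1 h.m1 y) (measurable_sl gT h.mT _) ?_
  intro u v
  have := h.mix (Fin.cons x u) (Fin.cons y v)
  rw [smul_cons_add] at this
  exact this

theorem marg_usc {g0 gT g1 : (Fin (n + 1) → ℝ) → ℝ≥0∞} (h : Reg Θ g0 gT g1) :
    UpperSemicontinuous fun s : ℝ => ∫⁻ x, sl g1 s x := by
  obtain ⟨M, B, ψ, hM, hB, hψm, hψB, hψi, hd⟩ := h.dom
  intro s r hr
  by_contra hcon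
  rw [Filter.not_eventually] at hcon
  obtain ⟨u, hu, hur⟩ := exists_seq_forall_of_frequently hcon
  have hur' : ∀ k, r ≤ ∫⁻ x, sl g1 (u k) x := fun k => not_lt.mp (hur k)
  have hF := limsup_lintegral_le (μ := (volume : Measure (Fin n → ℝ)))
    (f := fun k x => sl g1 (u k) x) (fun x : Fin n → ℝ => M * B * ∏ i, ψ (x i))
    (fun k => measurable_sl g1 h.m1 (u k)) (fun k => by
      refine Eventually.of_forall fun x => ?_
      have := hd (Fin.cons (u k) x)
      rw [Fin.prod_univ_succ] at this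
      simp only [Fin.cons_zero, Fin.cons_succ] at this
      refine (h.le1 _).trans ((h.leT _).trans (this.trans ?_))
      show M * (ψ (u k) * ∏ i, ψ (x i)) ≤ M * B * ∏ i, ψ (x i)
      rw [mul_assoc]
      gcongr
      exact hψB _) (by
      rw [lintegral_const_mul' _ _ (ENNReal.mul_ne_top hM hB), lintegral_prod_psi hψm]
      exact ENNReal.mul_ne_top (ENNReal.mul_ne_top hM hB) (ENNReal.pow_ne_top hψi))
  have h1 : r ≤ limsup (fun k => ∫⁻ x, sl g1 (u k) x) atTop :=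
    le_limsup_of_frequently_le (Frequently.of_forall hur')
  have h2 : ∫⁻ x, limsup (fun k => sl g1 (u k) x) atTop ≤ ∫⁻ x, sl g1 s x := by
    refine lintegral_mono fun x => ?_
    refine le_of_forall_gt fun a ha => ?_
    obtain ⟨a', ha1, ha2⟩ := exists_between ha
    refine lt_of_le_of_lt ?_ ha2
    refine limsup_le_of_le (h := ?_)
    have hcont : Tendsto (fun k => (Fin.cons (u k) x : Fin (n + 1) → ℝ)) atTop
        (𝓝 (Fin.cons s x)) := by
      rw [tendsto_pi_nhds]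
      intro i
      refine Fin.cases ?_ (fun j => ?_) i
      · simpa using hu
      · simpa using tendsto_const_nhds
    have := hcont.eventually (h.usc (Fin.cons s x) a' ha1)
    filter_upwards [this] with k hk
    exact hk.le
  exact absurd (h1.trans (hF.trans h2)) (not_le.mpr hr)

end Reg

end Vale.Agent.P262.H493
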