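import Mathlib
import Vale.Agent.P262.H493.StarN

set_option linter.all false

open MeasureTheory Set Filter ProbabilityTheory
open scoped ENNReal NNReal Topology

namespace Vale.Agent.P262.H493

/-- points: base coordinates and the coordinate in the direction of the step -/
abbrev Pt (n : ℕ) := (Fin n → ℝ) × ℝ

/-- Banaszczyk's operation `K * v` for `v = δ e_last`. -/
def bstar {n : ℕ} (K : Set (Pt n)) (δ : ℝ) : Set (Pt n) :=
  {p | ∃ l r : ℝ, (p.1, l) ∈ K ∧ (p.1, r) ∈ K ∧ 2 * δ ≤ r - l ∧ l - δ ≤ p.2 ∧ p.2 ≤ r + δ}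

/-- standard Gaussian measure on the base -/
noncomputable def gB (n : ℕ) : Measure (Fin n → ℝ) := Measure.pi fun _ => gaussianReal 0 1

/-- standard Gaussian measure -/
noncomputable def gam (n : ℕ) : Measure (Pt n) := (gB n).prod (gaussianReal 0 1)

instance (n : ℕ) : IsProbabilityMeasure (gB n) := by unfold gB; infer_instance
instance (n : ℕ) : IsProbabilityMeasure (gam n) := by unfold gam; infer_instance

/-- replace the coordinates after `i` by those of `z` -/
def merge {n : ℕ} (i : Fin n) (x z : Fin n → ℝ) : Fin n → ℝ := fun j => if j ≤ i then x j else z j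

/-- conditional Gaussian measure of `A` given the first `i+1` coordinates -/
noncomputable def fib {n : ℕ} (i : Fin n) (A : Set (Pt n)) (x : Fin n → ℝ) : ℝ≥0∞ :=
  gam n {z | (merge i x z.1, z.2) ∈ A}

/-- Gaussian density on the base (real valued) -/
noncomputable def pr {n : ℕ} (y : Fin n → ℝ) : ℝ := ∏ i, gaussianPDFReal 0 1 (y i)

/-- Gaussian density on the base -/
noncomputable def PP {n : ℕ} (y : Fin n → ℝ) : ℝ≥0∞ := ENNReal.ofReal (pr y)

theorem pr_pos {n : ℕ} (y : Fin n → ℝ) : 0 < pr y :=
  Finset.prod_pos fun i _ => gaussianPDFReal_pos 0 1 _ one_ne_zero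

theorem continuous_gpdf : Continuous (gaussianPDFReal 0 1) := by
  unfold gaussianPDFReal
  fun_prop

theorem continuous_pr {n : ℕ} : Continuous (pr (n := n)) := by
  unfold pr
  exact continuous_finset_prod _ fun i _ => continuous_gpdf.comp (continuous_apply i)

theorem measurable_PP {n : ℕ} : Measurable (PP (n := n)) :=
  ENNReal.measurable_ofReal.comp continuous_pr.measurable

theorem mPP {n : ℕ} {f : (Fin n → ℝ) → ℝ≥0∞} (hf : Measurable f) :
    Measurable fun y => PP y * f y := measurable_PP.mul hf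

theorem mcons {n : ℕ} {f : (Fin (n + 1) → ℝ) → ℝ≥0∞} (hf : Measurable f) (s : ℝ) :
    Measurable fun x : Fin n → ℝ => f (Fin.cons s x) := hf.comp (continuous_cons s).measurable

theorem PP_cons {n : ℕ} (s : ℝ) (x : Fin n → ℝ) :
    PP (Fin.cons s x : Fin (n + 1) → ℝ) = gaussianPDF 0 1 s * PP x := by
  unfold PP pr gaussianPDF
  rw [Fin.prod_univ_succ, ENNReal.ofReal_mul (gaussianPDFReal_nonneg _ _ _)]
  simp

theorem gauss_lintegral (f : ℝ → ℝ≥0∞) (hf : Measurable f) :
    ∫⁻ s, f s ∂(gaussianReal 0 1) = ∫⁻ s, gaussianPDF 0 1 s * f s := by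
  rw [gaussianReal_of_var_ne_zero _ one_ne_zero,
    lintegral_withDensity_eq_lintegral_mul _ (measurable_gaussianPDF 0 1) hf]
  rfl

theorem gB_cons {n : ℕ} (f : (Fin (n + 1) → ℝ) → ℝ≥0∞) (hf : Measurable f) :
    ∫⁻ x, f x ∂(gB (n + 1)) =
      ∫⁻ s, ∫⁻ x, f (Fin.cons s x) ∂(gB n) ∂(gaussianReal 0 1) := by
  have hvp := measurePreserving_piFinSuccAbove (fun _ : Fin (n + 1) => gaussianReal 0 1) 0
  set e := MeasurableEquiv.piFinSuccAbove (fun _ : Fin (n + 1) => ℝ) 0 with he
  have h1 : ∫⁻ x, f x ∂(gB (n + 1)) =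
      ∫⁻ p, f (e.symm p) ∂((gaussianReal 0 1).prod (gB n)) := by
    have := hvp.symm.lintegral_comp hf
    rw [gB, ← this]
    rfl
  rw [h1, lintegral_prod (fun p => f (e.symm p)) (hf.comp e.symm.measurable).aemeasurable]
  refine lintegral_congr fun s => lintegral_congr fun x => ?_
  have : e.symm (s, x) = (Fin.cons s x : Fin (n + 1) → ℝ) := by
    funext i
    refine Fin.cases ?_ (fun j => ?_) i
    · simp [he, MeasurableEquiv.piFinSuccAbove]
    · simp [he, MeasurableEquiv.piFinSuccAbove]
  rw [this]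

theorem gB_lintegral : ∀ (n : ℕ) (f : (Fin n → ℝ) → ℝ≥0∞), Measurable f →
    ∫⁻ x, f x ∂(gB n) = ∫⁻ x, PP x * f x := by
  intro n
  induction n with
  | zero =>
    intro f hf
    have h1 : (gB 0) univ = 1 := measure_univ
    rw [lintegral_unique, h1, mul_one, lintegral_fin_zero]
    have : PP (default : Fin 0 → ℝ) = 1 := by simp [PP, pr]
    rw [this, one_mul]
    exact congrArg f (Subsingleton.elim _ _)
  | succ n ih =>
    intro f hf
    have hs : ∀ s, Measurable fun x : Fin n → ℝ => f (Fin.cons s x) := fun s =>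
      hf.comp (continuous_cons s).measurable
    rw [gB_cons f hf, lintegral_cons _ (mPP hf), gauss_lintegral]
    · refine lintegral_congr fun s => ?_
      rw [ih _ (hs s)]
      simp only [sl, PP_cons]
      rw [← lintegral_const_mul _ (mPP (hs s))]
      refine lintegral_congr fun x => ?_
      ring
    · exact (hf.comp measurable_cons).lintegral_prod_right'

theorem mg_smul : ∀ (n : ℕ) (c : ℝ≥0∞) (g : (Fin n → ℝ) → ℝ≥0∞), Measurable g → ∀ (i : Fin n)
    (x : Fin n → ℝ), mg n (fun y => c * g y) i x = c * mg n g i x := by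
  intro n
  induction n with
  | zero => intro c g hg i; exact Fin.elim0 i
  | succ n ih =>
    intro c g hg i x
    rw [← Fin.cons_self_tail x]
    refine Fin.cases ?_ (fun j => ?_) i
    · rw [mg_zero, mg_zero]
      simp only [sl]
      rw [lintegral_const_mul _ (mcons hg _)]
    · rw [mg_succ, mg_succ]
      exact ih c (sl g (x 0)) (measurable_sl g hg _) j _

theorem merge_zero_cons {n : ℕ} (s s' : ℝ) (x z : Fin n → ℝ) :
    merge 0 (Fin.cons s x : Fin (n + 1) → ℝ) (Fin.cons s' z) = Fin.cons s z := by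
  funext j
  refine Fin.cases ?_ (fun j => ?_) j
  · simp [merge]
  · simp [merge]

theorem merge_succ_cons {n : ℕ} (i : Fin n) (s s' : ℝ) (x z : Fin n → ℝ) :
    merge i.succ (Fin.cons s x : Fin (n + 1) → ℝ) (Fin.cons s' z) = Fin.cons s (merge i x z) := by
  funext j
  refine Fin.cases ?_ (fun j => ?_) j
  · simp [merge]
  · simp [merge, Fin.succ_le_succ_iff]

theorem measurable_merge {n : ℕ} (i : Fin n) (x : Fin n → ℝ) : Measurable (merge i x) := by
  refine measurable_pi_lambda _ fun j => ?_
  unfold merge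
  by_cases h : j ≤ i
  · simp [h]
  · simp only [h, if_false]; exact measurable_pi_apply j

theorem mg_gauss : ∀ (n : ℕ) (i : Fin n) (x : Fin n → ℝ), ∃ k : ℝ≥0∞,
    ∀ f : (Fin n → ℝ) → ℝ≥0∞, Measurable f →
      mg n (fun y => PP y * f y) i x = k * ∫⁻ z, f (merge i x z) ∂(gB n) := by
  intro n
  induction n with
  | zero => intro i; exact Fin.elim0 i
  | succ n ih =>
    intro i x
    rw [← Fin.cons_self_tail x]
    set s := x 0
    set t := Fin.tail x
    refine Fin.cases ?_ (fun j => ?_) i
    · refine ⟨gaussianPDF 0 1 s, fun f hf => ?_⟩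
      have hs : Measurable fun x : Fin n → ℝ => f (Fin.cons s x) :=
        hf.comp (continuous_cons s).measurable
      rw [mg_zero, gB_cons (fun z => f (merge 0 (Fin.cons s t) z)) (hf.comp (measurable_merge _ _))]
      simp only [merge_zero_cons, lintegral_const, measure_univ, mul_one]
      rw [gB_lintegral n _ hs]
      simp only [sl, PP_cons]
      rw [← lintegral_const_mul _ (mPP hs)]
      refine lintegral_congr fun x => ?_
      ring
    · obtain ⟨k, hk⟩ := ih j t
      refine ⟨gaussianPDF 0 1 s * k, fun f hf => ?_⟩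
      have hs : Measurable fun x : Fin n → ℝ => f (Fin.cons s x) :=
        hf.comp (continuous_cons s).measurable
      rw [mg_succ, gB_cons (fun z => f (merge j.succ (Fin.cons s t) z))
        (hf.comp (measurable_merge _ _))]
      simp only [merge_succ_cons, lintegral_const, measure_univ, mul_one]
      have e1 : sl (fun y => PP y * f y) s =
          fun y => gaussianPDF 0 1 s * (PP y * f (Fin.cons s y)) := by
        funext y
        simp only [sl, PP_cons]
        ring
      rw [e1, mg_smul n _ _ (mPP hs), hk _ hs, mul_assoc]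

end Vale.Agent.P262.H493
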