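import Mathlib
import Vale.Agent.P262.H493.Gauss

set_option linter.all false

open MeasureTheory Set Filter ProbabilityTheory
open scoped ENNReal NNReal Topology

namespace Vale.Agent.P262.H493

/-- closed, and bounded in the last coordinate -/
def VB {n : ℕ} (K : Set (Pt n)) : Prop := IsClosed K ∧ ∃ R : ℝ, ∀ p ∈ K, |p.2| ≤ R

theorem vb_of_isCompact {n : ℕ} {K : Set (Pt n)} (hK : IsCompact K) : VB K := by
  refine ⟨hK.isClosed, ?_⟩
  obtain ⟨R, hR⟩ := (hK.image continuous_snd).isBounded.exists_norm_le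
  exact ⟨R, fun p hp => by simpa using hR p.2 ⟨p, hp, rfl⟩⟩

/-- projections of closed sets, bounded in the last coordinate, are closed -/
theorem VB.isClosed_fst {n : ℕ} {S : Set (Pt n)} (h : VB S) : IsClosed (Prod.fst '' S) := by
  obtain ⟨hS, R, hR⟩ := h
  haveI : CompactSpace (Icc (-R) R) := isCompact_iff_compactSpace.mp isCompact_Icc
  have h1 : IsClosed ((fun q : (Fin n → ℝ) × Icc (-R) R => ((q.1, (q.2 : ℝ)) : Pt n)) ⁻¹' S) :=
    hS.preimage (by fun_prop)
  have h2 := isClosedMap_fst_of_compactSpace (X := Fin n → ℝ) (Y := Icc (-R) R) _ h1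
  convert h2 using 1
  ext y
  constructor
  · rintro ⟨⟨y', x⟩, hp, rfl⟩
    have := hR _ hp
    rw [abs_le] at this
    exact ⟨(y', ⟨x, this⟩), hp, rfl⟩
  · rintro ⟨⟨y', x⟩, hp, rfl⟩
    exact ⟨(y', x), hp, rfl⟩

theorem VB.inter {n : ℕ} {S T : Set (Pt n)} (h : VB S) (hT : IsClosed T) : VB (S ∩ T) :=
  ⟨h.1.inter hT, h.2.imp fun R hR p hp => hR p hp.1⟩

theorem VB.isCompact_fibre {n : ℕ} {K : Set (Pt n)} (h : VB K) (y : Fin n → ℝ) :
    IsCompact (K ∩ {p : Pt n | p.1 = y}) := by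
  obtain ⟨hS, R, hR⟩ := h
  have hc : IsCompact (({y} : Set (Fin n → ℝ)) ×ˢ Icc (-R) R) := isCompact_singleton.prod isCompact_Icc
  refine hc.of_isClosed_subset (hS.inter (isClosed_eq continuous_fst continuous_const)) ?_
  rintro ⟨y', x⟩ ⟨hp, hy⟩
  have := hR _ hp
  rw [abs_le] at this
  exact ⟨hy, this⟩

/-- base points whose line meets `K` in a chord of length at least `ℓ` -/
def CL {n : ℕ} (K : Set (Pt n)) (ℓ : ℝ) : Set (Fin n → ℝ) := {y | ∃ x, (y, x) ∈ K ∧ (y, x + ℓ) ∈ K}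

noncomputable def ee (x : ℝ) : ℝ≥0∞ := ENNReal.ofReal (Real.exp (-x ^ 2 / 2))

/-- maximal (non-normalised) Gaussian density on the chord -/
noncomputable def WW {n : ℕ} (K : Set (Pt n)) (y : Fin n → ℝ) : ℝ≥0∞ := ⨆ (x : ℝ) (_ : (y, x) ∈ K), ee x

noncomputable def ff {n : ℕ} (K : Set (Pt n)) (ℓ : ℝ) (y : Fin n → ℝ) : ℝ≥0∞ :=
  (CL K ℓ).indicator (WW K) y

theorem ee_le_one (x : ℝ) : ee x ≤ 1 := by
  unfold ee
  rw [ENNReal.ofReal_le_one, Real.exp_le_one_iff]
  nlinarith [sq_nonneg x]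

theorem ee_le_ee {x y : ℝ} (h : y ^ 2 ≤ x ^ 2) : ee x ≤ ee y := by
  unfold ee
  apply ENNReal.ofReal_le_ofReal
  apply Real.exp_le_exp.mpr
  linarith

theorem ee_ne_top (x : ℝ) : ee x ≠ ⊤ := ENNReal.ofReal_ne_top

theorem WW_le_one {n : ℕ} (K : Set (Pt n)) (y : Fin n → ℝ) : WW K y ≤ 1 :=
  iSup₂_le fun x _ => ee_le_one x

theorem ee_le_WW {n : ℕ} {K : Set (Pt n)} {y : Fin n → ℝ} {x : ℝ} (h : (y, x) ∈ K) :
    ee x ≤ WW K y := le_iSup₂ (f := fun (x : ℝ) (_ : (y, x) ∈ K) => ee x) x h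

theorem ff_le_WW {n : ℕ} (K : Set (Pt n)) (ℓ : ℝ) (y : Fin n → ℝ) : ff K ℓ y ≤ WW K y := by
  unfold ff indicator
  split_ifs
  · exact le_rfl
  · exact bot_le

theorem ff_le_one {n : ℕ} (K : Set (Pt n)) (ℓ : ℝ) (y : Fin n → ℝ) : ff K ℓ y ≤ 1 :=
  (ff_le_WW K ℓ y).trans (WW_le_one K y)

theorem WW_attained {n : ℕ} {K : Set (Pt n)} (hK : VB K) {y : Fin n → ℝ} {x0 : ℝ}
    (h0 : (y, x0) ∈ K) : ∃ x, (y, x) ∈ K ∧ WW K y = ee x := by
  have hc : IsCompact (K ∩ {p : Pt n | p.1 = y}) := hK.isCompact_fibre y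
  have hne : (K ∩ {p : Pt n | p.1 = y}).Nonempty := ⟨(y, x0), h0, rfl⟩
  obtain ⟨p, hp, hmax⟩ := hc.exists_isMaxOn hne (f := fun p : Pt n => ee p.2) (by
    apply Continuous.continuousOn
    unfold ee
    exact ENNReal.continuous_ofReal.comp (by fun_prop))
  obtain ⟨hpK, hpy⟩ := hp
  simp only [mem_setOf_eq] at hpy
  refine ⟨p.2, ?_, ?_⟩
  · rw [← hpy]; exact hpK
  · apply le_antisymm
    · refine iSup₂_le fun x hx => ?_
      exact hmax (show (y, x) ∈ K ∩ {p : Pt n | p.1 = y} from ⟨hx, rfl⟩)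
    · have : (y, p.2) ∈ K := by rw [← hpy]; exact hpK
      exact ee_le_WW this

theorem WW_empty {n : ℕ} {K : Set (Pt n)} {y : Fin n → ℝ} (h : ∀ x, (y, x) ∉ K) :
    WW K y = 0 := by
  unfold WW
  simp [h]

theorem ff_zero {n : ℕ} (K : Set (Pt n)) (y : Fin n → ℝ) : ff K 0 y = WW K y := by
  unfold ff indicator
  split_ifs with h
  · rfl
  · rw [WW_empty]
    intro x hx
    exact h ⟨x, hx, by simpa using hx⟩

theorem isClosed_CL {n : ℕ} {K : Set (Pt n)} (hK : VB K) (ℓ : ℝ) : IsClosed (CL K ℓ) := by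
  have : CL K ℓ = Prod.fst '' (K ∩ (fun p : Pt n => (p.1, p.2 + ℓ)) ⁻¹' K) := by
    ext y
    simp only [CL, mem_setOf_eq, mem_image, mem_inter_iff, mem_preimage, Prod.exists]
    constructor
    · rintro ⟨x, h1, h2⟩
      exact ⟨y, x, ⟨h1, h2⟩, rfl⟩
    · rintro ⟨y', x, ⟨h1, h2⟩, rfl⟩
      exact ⟨x, h1, h2⟩
  rw [this]
  exact (hK.inter (hK.1.preimage (by fun_prop))).isClosed_fst

theorem usc_gen {n : ℕ} {K : Set (Pt n)} (hK : VB K) (ℓ : ℝ) {p : (Fin n → ℝ) → ℝ}
    (hp : Continuous p) (hp0 : ∀ y, 0 ≤ p y) :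
    UpperSemicontinuous fun y => ENNReal.ofReal (p y) * ff K ℓ y := by
  rw [upperSemicontinuous_iff_isClosed_preimage]
  intro c
  by_cases hc : c = 0
  · subst hc
    have : (fun y => ENNReal.ofReal (p y) * ff K ℓ y) ⁻¹' Ici 0 = univ := by
      ext y; simp
    rw [this]; exact isClosed_univ
  have hset : (fun y => ENNReal.ofReal (p y) * ff K ℓ y) ⁻¹' Ici c =
      CL K ℓ ∩ Prod.fst '' (K ∩ {q : Pt n | c ≤ ENNReal.ofReal (p q.1 * Real.exp (-q.2 ^ 2 / 2))}) := by
    ext y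
    simp only [mem_preimage, mem_Ici, mem_inter_iff, mem_image, mem_setOf_eq, Prod.exists]
    constructor
    · intro h
      have hy : y ∈ CL K ℓ := by
        by_contra hy
        rw [ff, indicator_of_notMem hy, mul_zero] at h
        exact hc (le_antisymm h bot_le)
      refine ⟨hy, ?_⟩
      rw [ff, indicator_of_mem hy] at h
      obtain ⟨x0, hx0, _⟩ := hy
      obtain ⟨x, hx, hW⟩ := WW_attained hK hx0
      rw [hW, ee, ← ENNReal.ofReal_mul (hp0 y)] at h
      exact ⟨y, x, ⟨hx, h⟩, rfl⟩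
    · rintro ⟨hy, y', x, ⟨hx, h⟩, hyy⟩
      subst hyy
      rw [ff, indicator_of_mem hy]
      rw [ENNReal.ofReal_mul (hp0 _)] at h
      refine h.trans ?_
      gcongr
      exact ee_le_WW hx
  rw [hset]
  refine (isClosed_CL hK ℓ).inter ?_
  refine (hK.inter (isClosed_le continuous_const ?_)).isClosed_fst
  exact ENNReal.continuous_ofReal.comp (by fun_prop)

theorem usc_g {n : ℕ} {K : Set (Pt n)} (hK : VB K) (ℓ : ℝ) :
    UpperSemicontinuous fun y => PP y * ff K ℓ y :=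
  usc_gen hK ℓ continuous_pr fun y => (pr_pos y).le

theorem measurable_ff {n : ℕ} {K : Set (Pt n)} (hK : VB K) (ℓ : ℝ) :
    Measurable (ff K ℓ) := by
  have := (usc_gen hK ℓ (p := fun _ => 1) continuous_const (fun _ => zero_le_one)).measurable
  simpa using this

theorem ee_lc (a b s t : ℝ) (hs : 0 < s) (ht : 0 < t) (hst : s + t = 1) :
    ee a ^ s * ee b ^ t ≤ ee (s * a + t * b) := by
  unfold ee
  rw [ENNReal.ofReal_rpow_of_pos (Real.exp_pos _), ENNReal.ofReal_rpow_of_pos (Real.exp_pos _),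
    ← ENNReal.ofReal_mul (by positivity)]
  apply ENNReal.ofReal_le_ofReal
  rw [← Real.exp_mul, ← Real.exp_mul, ← Real.exp_add]
  apply Real.exp_le_exp.mpr
  have ht' : t = 1 - s := by linarith
  subst ht'
  nlinarith [mul_nonneg (mul_nonneg hs.le ht.le) (sq_nonneg (a - b))]

theorem WW_lc {n : ℕ} {K : Set (Pt n)} (hK : VB K) (hKc : Convex ℝ K) : LogConc (WW K) := by
  intro x y s t hs ht hst
  by_cases hx : ∃ a, (x, a) ∈ K
  · by_cases hy : ∃ b, (y, b) ∈ K
    · obtain ⟨a0, ha0⟩ := hx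
      obtain ⟨b0, hb0⟩ := hy
      obtain ⟨a, ha, hWa⟩ := WW_attained hK ha0
      obtain ⟨b, hb, hWb⟩ := WW_attained hK hb0
      rw [hWa, hWb]
      refine (ee_lc a b s t hs ht hst).trans ?_
      apply ee_le_WW
      have := hKc ha hb hs.le ht.le hst
      simpa using this
    · push Not at hy
      rw [WW_empty hy, ENNReal.zero_rpow_of_pos ht, mul_zero]
      exact bot_le
  · push Not at hx
    rw [WW_empty hx, ENNReal.zero_rpow_of_pos hs, zero_mul]
    exact bot_le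

theorem gpdf_eq (x : ℝ) : gaussianPDF 0 1 x =
    ENNReal.ofReal ((Real.sqrt (2 * Real.pi))⁻¹) * ee x := by
  unfold gaussianPDF gaussianPDFReal ee
  rw [← ENNReal.ofReal_mul (by positivity)]
  simp

theorem gpdf_lc (a b s t : ℝ) (hs : 0 < s) (ht : 0 < t) (hst : s + t = 1) :
    gaussianPDF 0 1 a ^ s * gaussianPDF 0 1 b ^ t ≤ gaussianPDF 0 1 (s * a + t * b) := by
  rw [gpdf_eq, gpdf_eq, gpdf_eq, ENNReal.mul_rpow_of_nonneg _ _ hs.le,
    ENNReal.mul_rpow_of_nonneg _ _ ht.le]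
  set c := ENNReal.ofReal ((Real.sqrt (2 * Real.pi))⁻¹)
  calc c ^ s * ee a ^ s * (c ^ t * ee b ^ t) = (c ^ s * c ^ t) * (ee a ^ s * ee b ^ t) := by ring
    _ ≤ c * ee (s * a + t * b) := by
      rw [rpow_mul_rpow_self hs ht hst]
      gcongr
      exact ee_lc a b s t hs ht hst

theorem PP_eq {n : ℕ} (y : Fin n → ℝ) : PP y = ∏ i, gaussianPDF 0 1 (y i) := by
  unfold PP pr gaussianPDF
  rw [ENNReal.ofReal_prod_of_nonneg fun i _ => gaussianPDFReal_nonneg _ _ _]

theorem PP_lc {n : ℕ} : LogConc (PP (n := n)) := by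
  intro x y s t hs ht hst
  rw [PP_eq, PP_eq, PP_eq, ← ENNReal.prod_rpow_of_nonneg hs.le, ← ENNReal.prod_rpow_of_nonneg ht.le,
    ← Finset.prod_mul_distrib]
  refine Finset.prod_le_prod' fun i _ => ?_
  exact gpdf_lc (x i) (y i) s t hs ht hst

theorem CL_mono {n : ℕ} {K : Set (Pt n)} (hKc : Convex ℝ K) {a b : ℝ} (ha : 0 ≤ a) (hab : a ≤ b) :
    CL K b ⊆ CL K a := by
  rintro y ⟨x, h1, h2⟩
  refine ⟨x, h1, ?_⟩
  rcases eq_or_lt_of_le (ha.trans hab) with hb | hb
  · have : a = 0 := by linarith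
    rw [this, add_zero]; exact h1
  have := hKc h1 h2 (a := 1 - a / b) (b := a / b) (by
    rw [sub_nonneg, div_le_one hb]; exact hab) (by positivity) (by ring)
  have e : (1 - a / b) • ((y, x) : Pt n) + (a / b) • ((y, x + b) : Pt n) = (y, x + a) := by
    ext i
    · simp; ring
    · simp; field_simp; ring
  rwa [e] at this

theorem ff_mono {n : ℕ} {K : Set (Pt n)} (hKc : Convex ℝ K) {a b : ℝ} (ha : 0 ≤ a) (hab : a ≤ b)
    (y : Fin n → ℝ) : ff K b y ≤ ff K a y :=
  indicator_le_indicator_of_subset (CL_mono hKc ha hab) (fun _ => bot_le) y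

/-- The regular triple attached to a compact convex body. -/
theorem reg_body {n : ℕ} {K : Set (Pt n)} (hK : VB K) (hKc : Convex ℝ K) {δ : ℝ}
    (hδ : 0 < δ) (hδ' : δ ≤ 1 / 4) :
    Reg (4 * δ) (fun y => PP y * ff K 0 y) (fun y => PP y * ff K (2 * δ) y)
      (fun y => PP y * ff K (1 / 2) y) where
  m0 := mPP (measurable_ff hK 0)
  mT := mPP (measurable_ff hK _)
  m1 := mPP (measurable_ff hK _)
  le1 := fun y => by
    show PP y * ff K (1 / 2) y ≤ PP y * ff K (2 * δ) y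
    have := ff_mono hKc (a := 2 * δ) (b := 1 / 2) (by linarith) (by linarith) y
    gcongr
  leT := fun y => by
    show PP y * ff K (2 * δ) y ≤ PP y * ff K 0 y
    have := ff_mono hKc (a := 0) (b := 2 * δ) (by linarith) (by linarith) y
    gcongr
  lc := by
    intro x y s t hs ht hst
    simp only [ff_zero]
    rw [ENNReal.mul_rpow_of_nonneg _ _ hs.le, ENNReal.mul_rpow_of_nonneg _ _ ht.le]
    calc PP x ^ s * WW K x ^ s * (PP y ^ t * WW K y ^ t)
        = (PP x ^ s * PP y ^ t) * (WW K x ^ s * WW K y ^ t) := by ring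
      _ ≤ _ := mul_le_mul' (PP_lc x y s t hs ht hst) (WW_lc hK hKc x y s t hs ht hst)
  mix := by
    intro x y
    rcases eq_or_lt_of_le hδ' with h | h
    · -- Θ = 1
      have e1 : 4 * δ = 1 := by linarith
      have e2 : 2 * δ = 1 / 2 := by linarith
      simp only [e1, e2]
      simp only [sub_self, ENNReal.rpow_zero, one_mul, ENNReal.rpow_one, zero_smul, one_smul,
        zero_add]
      exact le_rfl
    have h1 : 0 < 1 - 4 * δ := by linarith
    have h2 : 0 < 4 * δ := by linarith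
    have h3 : 1 - 4 * δ + 4 * δ = 1 := by ring
    rw [ENNReal.mul_rpow_of_nonneg _ _ h1.le, ENNReal.mul_rpow_of_nonneg _ _ h2.le]
    calc PP x ^ (1 - 4 * δ) * ff K 0 x ^ (1 - 4 * δ) * (PP y ^ (4 * δ) * ff K (1 / 2) y ^ (4 * δ))
        = (PP x ^ (1 - 4 * δ) * PP y ^ (4 * δ)) *
          (ff K 0 x ^ (1 - 4 * δ) * ff K (1 / 2) y ^ (4 * δ)) := by ring
      _ ≤ _ := by
        refine mul_le_mul' (PP_lc x y _ _ h1 h2 h3) ?_
        rw [ff_zero]
        by_cases hx : ∃ a, (x, a) ∈ K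
        · by_cases hy : y ∈ CL K (1 / 2)
          · have hz : (1 - 4 * δ) • x + (4 * δ) • y ∈ CL K (2 * δ) := by
              obtain ⟨a, ha⟩ := hx
              obtain ⟨b, hb1, hb2⟩ := hy
              refine ⟨(1 - 4 * δ) * a + 4 * δ * b, ?_, ?_⟩
              · have := hKc ha hb1 h1.le h2.le h3
                simpa using this
              · have := hKc ha hb2 h1.le h2.le h3
                have e : (1 - 4 * δ) • ((x, a) : Pt n) + (4 * δ) • ((y, b + 1 / 2) : Pt n) =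
                    ((1 - 4 * δ) • x + (4 * δ) • y, (1 - 4 * δ) * a + 4 * δ * b + 2 * δ) := by
                  ext i
                  · simp
                  · simp; ring
                rwa [e] at this
            rw [ff, indicator_of_mem hy, ff, indicator_of_mem hz]
            exact WW_lc hK hKc x y _ _ h1 h2 h3
          · rw [ff, indicator_of_notMem hy, ENNReal.zero_rpow_of_pos h2, mul_zero]
            exact bot_le
        · push Not at hx
          rw [WW_empty hx, ENNReal.zero_rpow_of_pos h1, zero_mul]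
          exact bot_le
  usc := usc_g hK _
  dom := by
    refine ⟨1, ENNReal.ofReal ((Real.sqrt (2 * Real.pi))⁻¹), gaussianPDF 0 1, ENNReal.one_ne_top,
      ENNReal.ofReal_ne_top, measurable_gaussianPDF 0 1, ?_, ?_, ?_⟩
    · intro s
      rw [gpdf_eq]
      calc _ ≤ ENNReal.ofReal ((Real.sqrt (2 * Real.pi))⁻¹) * 1 := by
            gcongr
            exact ee_le_one s
        _ = _ := mul_one _
    · rw [lintegral_gaussianPDF_eq_one 0 one_ne_zero]
      exact ENNReal.one_ne_top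
    · intro y
      rw [one_mul, ← PP_eq]
      calc PP y * ff K 0 y ≤ PP y * 1 := by
            gcongr
            exact ff_le_one K 0 y
        _ = PP y := mul_one _

end Vale.Agent.P262.H493
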