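import Mathlib
import Vale.Agent.P262.H493.Body

set_option linter.all false

open MeasureTheory Set Filter ProbabilityTheory
open scoped ENNReal NNReal Topology

namespace Vale.Agent.P262.H493

noncomputable def kk : ℝ≥0∞ := ENNReal.ofReal ((Real.sqrt (2 * Real.pi))⁻¹)

theorem kk_ne_top : kk ≠ ⊤ := ENNReal.ofReal_ne_top

theorem gauss_le {S : Set ℝ} {w : ℝ≥0∞} (h : ∀ x ∈ S, ee x ≤ w) (hS : MeasurableSet S) :
    gaussianReal 0 1 S ≤ kk * w * volume S := by
  rw [gaussianReal_apply 0 one_ne_zero]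
  calc ∫⁻ x in S, gaussianPDF 0 1 x ≤ ∫⁻ x in S, kk * w := by
        refine setLIntegral_mono' hS fun x hx => ?_
        rw [gpdf_eq]
        exact mul_le_mul' le_rfl (h x hx)
    _ = kk * w * volume S := by rw [lintegral_const, Measure.restrict_apply_univ]

theorem gauss_ge {S : Set ℝ} {w : ℝ≥0∞} (h : ∀ x ∈ S, w ≤ ee x) (hS : MeasurableSet S) :
    kk * w * volume S ≤ gaussianReal 0 1 S := by
  rw [gaussianReal_apply 0 one_ne_zero]
  calc kk * w * volume S = ∫⁻ x in S, kk * w := by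
        rw [lintegral_const, Measure.restrict_apply_univ]
    _ ≤ ∫⁻ x in S, gaussianPDF 0 1 x := by
        refine setLIntegral_mono' hS fun x hx => ?_
        rw [gpdf_eq]
        exact mul_le_mul' le_rfl (h x hx)

theorem gauss_half : gaussianReal 0 1 (Ioi 0) ≤ 1 / 2 ∧ gaussianReal 0 1 (Iio 0) ≤ 1 / 2 := by
  have h1 : gaussianReal 0 1 (Iio 0) = gaussianReal 0 1 (Ioi 0) := by
    have h2 := gaussianReal_map_neg (μ := 0) (v := 1)
    rw [neg_zero] at h2
    calc gaussianReal 0 1 (Iio 0) = ((gaussianReal 0 1).map (fun x => -x)) (Iio 0) := by rw [h2]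
      _ = gaussianReal 0 1 ((fun x => -x) ⁻¹' (Iio 0)) :=
          Measure.map_apply measurable_neg measurableSet_Iio
      _ = gaussianReal 0 1 (Ioi 0) := by
          congr 1
          ext x; simp
  have h3 : gaussianReal 0 1 (Ioi 0) + gaussianReal 0 1 (Iio 0) ≤ 1 := by
    rw [← measure_union _ measurableSet_Iio]
    · exact prob_le_one
    · rw [Set.disjoint_left]
      intro x hx hx'
      exact lt_asymm (show (0 : ℝ) < x from hx) hx'
  rw [h1] at h3
  have h4 : gaussianReal 0 1 (Ioi 0) ≤ 1 / 2 := by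
    rw [← two_mul] at h3
    rw [ENNReal.le_div_iff_mul_le (by norm_num) (by norm_num), mul_comm]
    exact h3
  exact ⟨h4, h1.le.trans h4⟩

/-- chord end points -/
theorem chord {n : ℕ} {K : Set (Pt n)} (hK : VB K) {y : Fin n → ℝ} {x0 : ℝ}
    (h0 : (y, x0) ∈ K) : ∃ l r : ℝ, (y, l) ∈ K ∧ (y, r) ∈ K ∧ ∀ x, (y, x) ∈ K → l ≤ x ∧ x ≤ r := by
  have hc : IsCompact (Prod.snd '' (K ∩ {p : Pt n | p.1 = y})) :=
    (hK.isCompact_fibre y).image continuous_snd
  have hmem : ∀ x, x ∈ Prod.snd '' (K ∩ {p : Pt n | p.1 = y}) ↔ (y, x) ∈ K := by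
    intro x
    constructor
    · rintro ⟨⟨y', x'⟩, ⟨h1, h2⟩, h3⟩
      simp only [mem_setOf_eq] at h2 h3
      subst h2; subst h3
      exact h1
    · intro h
      exact ⟨(y, x), ⟨h, rfl⟩, rfl⟩
  have hne : (Prod.snd '' (K ∩ {p : Pt n | p.1 = y})).Nonempty := ⟨x0, (hmem x0).mpr h0⟩
  obtain ⟨l, hl1, hl2⟩ := hc.exists_isLeast hne
  obtain ⟨r, hr1, hr2⟩ := hc.exists_isGreatest hne
  exact ⟨l, r, (hmem l).mp hl1, (hmem r).mp hr1, fun x hx =>
    ⟨hl2 ((hmem x).mpr hx), hr2 ((hmem x).mpr hx)⟩⟩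

theorem mem_between {n : ℕ} {K : Set (Pt n)} (hKc : Convex ℝ K) {y : Fin n → ℝ} {l r x : ℝ}
    (hl : (y, l) ∈ K) (hr : (y, r) ∈ K) (h1 : l ≤ x) (h2 : x ≤ r) : (y, x) ∈ K := by
  rcases eq_or_lt_of_le (h1.trans h2) with h | h
  · have : x = l := by linarith
    rw [this]; exact hl
  have hpos : 0 < r - l := by linarith
  have := hKc hl hr (a := (r - x) / (r - l)) (b := (x - l) / (r - l))
    (div_nonneg (by linarith) hpos.le) (div_nonneg (by linarith) hpos.le) (by field_simp; ring)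
  have e : ((r - x) / (r - l)) • ((y, l) : Pt n) + ((x - l) / (r - l)) • ((y, r) : Pt n) = (y, x) := by
    ext i
    · simp; field_simp; ring
    · simp; field_simp; ring
  rwa [e] at this

theorem bstar_eq {n : ℕ} {K : Set (Pt n)} (hKc : Convex ℝ K) {δ : ℝ} (hδ : 0 ≤ δ) :
    bstar K δ = {p | p.1 ∈ CL K (2 * δ) ∧ ((p.1, p.2 - δ) ∈ K ∨ (p.1, p.2 + δ) ∈ K)} := by
  ext ⟨y, x⟩
  simp only [bstar, CL, mem_setOf_eq]
  constructor
  · rintro ⟨l, r, hl, hr, h1, h2, h3⟩
    refine ⟨⟨l, hl, mem_between hKc hl hr (by linarith) (by linarith)⟩, ?_⟩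
    by_cases h : l ≤ x - δ
    · exact Or.inl (mem_between hKc hl hr h (by linarith))
    · push Not at h
      exact Or.inr (mem_between hKc hl hr (by linarith) (by linarith))
  · rintro ⟨⟨a, ha1, ha2⟩, h⟩
    rcases h with h | h
    · refine ⟨min a (x - δ), max (a + 2 * δ) (x - δ), ?_, ?_, ?_, ?_, ?_⟩
      · rcases min_choice a (x - δ) with h' | h' <;> rw [h']
        · exact ha1
        · exact h
      · rcases max_choice (a + 2 * δ) (x - δ) with h' | h' <;> rw [h']
        · exact ha2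
        · exact h
      · have := min_le_left a (x - δ)
        have := le_max_left (a + 2 * δ) (x - δ)
        linarith
      · have := min_le_right a (x - δ)
        linarith
      · have := le_max_right (a + 2 * δ) (x - δ)
        linarith
    · refine ⟨min a (x + δ), max (a + 2 * δ) (x + δ), ?_, ?_, ?_, ?_, ?_⟩
      · rcases min_choice a (x + δ) with h' | h' <;> rw [h']
        · exact ha1
        · exact h
      · rcases max_choice (a + 2 * δ) (x + δ) with h' | h' <;> rw [h']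
        · exact ha2
        · exact h
      · have := min_le_left a (x + δ)
        have := le_max_left (a + 2 * δ) (x + δ)
        linarith
      · have := min_le_right a (x + δ)
        linarith
      · have := le_max_right (a + 2 * δ) (x + δ)
        linarith

theorem isClosed_bstar {n : ℕ} {K : Set (Pt n)} (hK : VB K) (hKc : Convex ℝ K) {δ : ℝ}
    (hδ : 0 ≤ δ) : IsClosed (bstar K δ) := by
  rw [bstar_eq hKc hδ]
  refine ((isClosed_CL hK (2 * δ)).preimage continuous_fst).inter ?_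
  refine IsClosed.union ?_ ?_
  · exact hK.1.preimage (by fun_prop)
  · exact hK.1.preimage (by fun_prop)

/-- loss on a line -/
theorem loss_line {n : ℕ} {K : Set (Pt n)} (hK : VB K) (hKc : Convex ℝ K) {δ : ℝ}
    (hδ : 0 < δ) (y : Fin n → ℝ) :
    gaussianReal 0 1 {x | (y, x) ∈ K ∧ (y, x) ∉ bstar K δ} +
      kk * ENNReal.ofReal (2 * δ) * ff K (2 * δ) y ≤ kk * ENNReal.ofReal (2 * δ) * ff K 0 y := by
  have hKy : IsClosed {x : ℝ | (y, x) ∈ K} := hK.1.preimage (by fun_prop)
  by_cases hy : y ∈ CL K (2 * δ)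
  · have hemp : {x | (y, x) ∈ K ∧ (y, x) ∉ bstar K δ} = ∅ := by
      ext x
      simp only [mem_setOf_eq, mem_empty_iff_false, iff_false, not_and, not_not]
      intro hx
      obtain ⟨a, ha1, ha2⟩ := hy
      refine ⟨min a x, max (a + 2 * δ) x, ?_, ?_, ?_, ?_, ?_⟩
      · rcases min_choice a x with h' | h' <;> rw [h']
        · exact ha1
        · exact hx
      · rcases max_choice (a + 2 * δ) x with h' | h' <;> rw [h']
        · exact ha2
        · exact hx
      · have := min_le_left a x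
        have := le_max_left (a + 2 * δ) x
        linarith
      · have := min_le_right a x
        simp only
        linarith
      · have := le_max_right (a + 2 * δ) x
        simp only
        linarith
    rw [hemp, measure_empty, zero_add]
    gcongr
    exact ff_mono hKc le_rfl (by linarith) y
  · have h0 : ff K (2 * δ) y = 0 := indicator_of_notMem hy _
    rw [h0, mul_zero, add_zero, ff_zero]
    have hvol : volume {x : ℝ | (y, x) ∈ K} ≤ ENNReal.ofReal (2 * δ) := by
      refine (Real.volume_le_diam _).trans ?_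
      refine Metric.ediam_le fun a ha b hb => ?_
      rw [edist_dist, Real.dist_eq]
      apply ENNReal.ofReal_le_ofReal
      by_contra hcon
      push Not at hcon
      apply hy
      rcases le_total a b with hab | hab
      · rw [abs_of_nonpos (by linarith)] at hcon
        exact ⟨a, ha, mem_between hKc ha hb (by linarith) (by linarith)⟩
      · rw [abs_of_nonneg (by linarith)] at hcon
        exact ⟨b, hb, mem_between hKc hb ha (by linarith) (by linarith)⟩
    calc gaussianReal 0 1 {x | (y, x) ∈ K ∧ (y, x) ∉ bstar K δ}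
        ≤ gaussianReal 0 1 {x | (y, x) ∈ K} := measure_mono fun x hx => hx.1
      _ ≤ kk * WW K y * volume {x | (y, x) ∈ K} :=
          gauss_le (fun x hx => ee_le_WW hx) hKy.measurableSet
      _ ≤ kk * WW K y * ENNReal.ofReal (2 * δ) := by gcongr
      _ = kk * ENNReal.ofReal (2 * δ) * WW K y := by ring

/-- gain on a line -/
theorem gain_line {n : ℕ} {K : Set (Pt n)} (hK : VB K) (hKc : Convex ℝ K) {δ : ℝ}
    (hδ : 0 < δ) (hδ' : δ ≤ 1 / 4) (y : Fin n → ℝ) :
    kk * ENNReal.ofReal δ * ENNReal.ofReal (Real.exp (-1 / 2)) * ff K (2 * δ) y ≤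
      gaussianReal 0 1 {x | (y, x) ∈ bstar K δ ∧ (y, x) ∉ K} +
      kk * ENNReal.ofReal δ * ENNReal.ofReal (Real.exp (-1 / 2)) * ff K (1 / 2) y := by
  by_cases hy : y ∈ CL K (2 * δ)
  · by_cases hy2 : y ∈ CL K (1 / 2)
    · have e : ff K (2 * δ) y = ff K (1 / 2) y := by
        rw [ff, indicator_of_mem hy, ff, indicator_of_mem hy2]
      rw [e]; exact le_add_self
    · rw [show ff K (1 / 2) y = 0 from indicator_of_notMem hy2 _, mul_zero, add_zero,
        ff, indicator_of_mem hy]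
      obtain ⟨a, ha1, ha2⟩ := hy
      obtain ⟨l, r, hl, hr, hlr⟩ := chord hK ha1
      have h2δ : 2 * δ ≤ r - l := by
        have := (hlr a ha1).1
        have := (hlr _ ha2).2
        linarith
      have hlt : r - l < 1 / 2 := by
        by_contra hcon
        push Not at hcon
        exact hy2 ⟨l, hl, mem_between hKc hl hr (by linarith) (by linarith)⟩
      obtain ⟨x0, hx0, hW⟩ := WW_attained hK ha1
      have hx0l := (hlr x0 hx0).1
      have hx0r := (hlr x0 hx0).2
      have hexp1 : ENNReal.ofReal (Real.exp (-1 / 2)) ≤ 1 := by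
        rw [ENNReal.ofReal_le_one, Real.exp_le_one_iff]; norm_num
      have hexp_le : ∀ x : ℝ, x ^ 2 ≤ 1 → ENNReal.ofReal (Real.exp (-1 / 2)) * WW K y ≤ ee x := by
        intro x hx
        calc ENNReal.ofReal (Real.exp (-1 / 2)) * WW K y
            ≤ ENNReal.ofReal (Real.exp (-1 / 2)) * 1 := by
              gcongr
              exact WW_le_one K y
          _ = ENNReal.ofReal (Real.exp (-1 / 2)) := mul_one _
          _ ≤ ee x := by
              unfold ee
              apply ENNReal.ofReal_le_ofReal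
              apply Real.exp_le_exp.mpr
              linarith
      have hW_le : ∀ x : ℝ, x ^ 2 ≤ x0 ^ 2 → ENNReal.ofReal (Real.exp (-1 / 2)) * WW K y ≤ ee x := by
        intro x hx
        calc ENNReal.ofReal (Real.exp (-1 / 2)) * WW K y ≤ 1 * WW K y := by gcongr
          _ = ee x0 := by rw [one_mul, hW]
          _ ≤ ee x := ee_le_ee hx
      have key : ∀ J : Set ℝ, MeasurableSet J → volume J = ENNReal.ofReal δ →
          (∀ x ∈ J, ENNReal.ofReal (Real.exp (-1 / 2)) * WW K y ≤ ee x) →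
          (∀ x ∈ J, (y, x) ∈ bstar K δ ∧ (y, x) ∉ K) →
          kk * ENNReal.ofReal δ * ENNReal.ofReal (Real.exp (-1 / 2)) * WW K y ≤
          gaussianReal 0 1 {x | (y, x) ∈ bstar K δ ∧ (y, x) ∉ K} := by
        intro J hJ hvol h1 h2
        calc kk * ENNReal.ofReal δ * ENNReal.ofReal (Real.exp (-1 / 2)) * WW K y
            = kk * (ENNReal.ofReal (Real.exp (-1 / 2)) * WW K y) * volume J := by
              rw [hvol]; ring
          _ ≤ gaussianReal 0 1 J := gauss_ge h1 hJ
          _ ≤ _ := measure_mono h2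
      by_cases hl0 : l ≤ 0
      · refine key (Ioo r (r + δ)) measurableSet_Ioo ?_ ?_ ?_
        · rw [Real.volume_Ioo]; congr 1; ring
        · rintro x ⟨hx1, hx2⟩
          rcases le_total x 0 with h | h
          · apply hW_le
            nlinarith
          · apply hexp_le
            nlinarith
        · rintro x ⟨hx1, hx2⟩
          refine ⟨⟨l, r, hl, hr, h2δ, by simp only; linarith, by simp only; linarith⟩, fun h => ?_⟩
          have := (hlr x h).2
          linarith
      · push Not at hl0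
        refine key (Ioo (l - δ) l) measurableSet_Ioo ?_ ?_ ?_
        · rw [Real.volume_Ioo]; congr 1; ring
        · rintro x ⟨hx1, hx2⟩
          rcases le_total 0 x with h | h
          · apply hW_le
            nlinarith
          · apply hexp_le
            nlinarith
        · rintro x ⟨hx1, hx2⟩
          refine ⟨⟨l, r, hl, hr, h2δ, by simp only; linarith, by simp only; linarith⟩, fun h => ?_⟩
          have := (hlr x h).1
          linarith
  · rw [show ff K (2 * δ) y = 0 from indicator_of_notMem hy _, mul_zero]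
    exact bot_le

theorem sqrt_two_pi_ge : (5 / 2 : ℝ) ≤ Real.sqrt (2 * Real.pi) := by
  apply Real.le_sqrt_of_sq_le
  have := Real.pi_gt_d2
  norm_num
  linarith

/-- measure of a line of `K * v` against long chords -/
theorem deep_line {n : ℕ} {K : Set (Pt n)} (hK : VB K) (hKc : Convex ℝ K) {δ : ℝ}
    (hδ : 0 < δ) (hδ' : δ ≤ 1 / 100) (y : Fin n → ℝ) :
    gaussianReal 0 1 {x | (y, x) ∈ bstar K δ} ≤
      ENNReal.ofReal (11 / 20) + ENNReal.ofReal (23 / 50) * ff K (1 / 2) y := by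
  by_cases hm : gaussianReal 0 1 {x | (y, x) ∈ bstar K δ} ≤ ENNReal.ofReal (11 / 20)
  · exact hm.trans le_self_add
  push Not at hm
  have hne : {x | (y, x) ∈ bstar K δ}.Nonempty := by
    by_contra h
    rw [not_nonempty_iff_eq_empty] at h
    rw [h, measure_empty] at hm
    exact absurd hm (by simp)
  obtain ⟨x1, l1, r1, hl1, hr1, h1, h2, h3⟩ := hne
  simp only at hl1 hr1 h2 h3
  obtain ⟨l, r, hl, hr, hlr⟩ := chord hK hl1
  have hsub : {x | (y, x) ∈ bstar K δ} ⊆ Icc (l - δ) (r + δ) := by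
    rintro x ⟨l', r', hl', hr', -, h5, h6⟩
    simp only at hl' hr' h5 h6
    have := (hlr _ hl').1
    have := (hlr _ hr').2
    exact ⟨by linarith, by linarith⟩
  have hlen : 11 / 20 * (5 / 2) ≤ r + δ - (l - δ) := by
    have e1 : ENNReal.ofReal (11 / 20) ≤ kk * 1 * volume (Icc (l - δ) (r + δ)) :=
      (hm.le.trans (measure_mono hsub)).trans (gauss_le (fun x _ => ee_le_one x) measurableSet_Icc)
    rw [mul_one, Real.volume_Icc, kk] at e1
    have hlrle := (hlr l hl).2
    rw [← ENNReal.ofReal_mul (by positivity), ENNReal.ofReal_le_ofReal_iff (by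
      apply mul_nonneg (by positivity); linarith)] at e1
    have hs := sqrt_two_pi_ge
    have hspos : 0 < Real.sqrt (2 * Real.pi) := by linarith
    rw [inv_mul_eq_div, le_div_iff₀ hspos] at e1
    nlinarith
  have hy : y ∈ CL K (1 / 2) := ⟨l, hl, mem_between hKc hl hr (by linarith) (by linarith)⟩
  have h12 : (1 / 2 : ℝ≥0∞) < ENNReal.ofReal (11 / 20) := by
    rw [show (1 / 2 : ℝ≥0∞) = ENNReal.ofReal (1 / 2) by
      rw [ENNReal.ofReal_div_of_pos (by norm_num)]; norm_num]
    exact (ENNReal.ofReal_lt_ofReal_iff (by norm_num)).mpr (by norm_num)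
  have hl0 : l - δ ≤ 0 := by
    by_contra hcon
    push Not at hcon
    have : {x | (y, x) ∈ bstar K δ} ⊆ Ioi 0 := fun x hx =>
      lt_of_lt_of_le hcon (hsub hx).1
    have := (hm.trans_le (measure_mono this)).trans_le gauss_half.1
    exact absurd this (not_lt.mpr h12.le)
  have hr0 : 0 ≤ r + δ := by
    by_contra hcon
    push Not at hcon
    have : {x | (y, x) ∈ bstar K δ} ⊆ Iio 0 := fun x hx =>
      lt_of_le_of_lt (hsub hx).2 hcon
    have := (hm.trans_le (measure_mono this)).trans_le gauss_half.2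
    exact absurd this (not_lt.mpr h12.le)
  obtain ⟨x, hx, hxδ⟩ : ∃ x, (y, x) ∈ K ∧ x ^ 2 ≤ δ ^ 2 := by
    have hlr' : l ≤ r := (hlr l hl).2
    rcases le_total l 0 with h | h
    · rcases le_total 0 r with h' | h'
      · exact ⟨0, mem_between hKc hl hr h h', by nlinarith [sq_nonneg δ]⟩
      · exact ⟨r, hr, by nlinarith⟩
    · exact ⟨l, hl, by nlinarith⟩
  have hW : ee δ ≤ WW K y := (ee_le_ee hxδ).trans (ee_le_WW hx)
  rw [ff, indicator_of_mem hy]
  calc gaussianReal 0 1 {x | (y, x) ∈ bstar K δ} ≤ 1 := prob_le_one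
    _ ≤ ENNReal.ofReal (11 / 20) + ENNReal.ofReal (23 / 50) * ee δ := by
        unfold ee
        rw [← ENNReal.ofReal_mul (by norm_num), ← ENNReal.ofReal_add (by norm_num) (by positivity),
          ← ENNReal.ofReal_one]
        apply ENNReal.ofReal_le_ofReal
        have h5 := Real.add_one_le_exp (-δ ^ 2 / 2)
        nlinarith
    _ ≤ _ := by gcongr

theorem measurable_fibre {n : ℕ} {A : Set (Pt n)} (hA : MeasurableSet A) :
    Measurable fun y : Fin n → ℝ => gaussianReal 0 1 {x | (y, x) ∈ A} :=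
  measurable_measure_prodMk_left hA

theorem gam_apply {n : ℕ} {A : Set (Pt n)} (hA : MeasurableSet A) :
    gam n A = ∫⁻ y, gaussianReal 0 1 {x | (y, x) ∈ A} ∂(gB n) := Measure.prod_apply hA

/-- Gaussian measure over a region of the base, in Lebesgue form. -/
theorem gam_region {n : ℕ} {A : Set (Pt n)} (hA : MeasurableSet A) {N : Set (Fin n → ℝ)}
    (hN : MeasurableSet N) :
    gam n {p | p ∈ A ∧ p.1 ∈ N} = ∫⁻ y in N, PP y * gaussianReal 0 1 {x | (y, x) ∈ A} := by
  have hm : MeasurableSet {p : Pt n | p ∈ A ∧ p.1 ∈ N} :=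
    hA.inter (measurable_fst hN)
  rw [gam_apply hm, gB_lintegral _ _ (measurable_fibre hm), ← lintegral_indicator hN]
  refine lintegral_congr fun y => ?_
  by_cases hy : y ∈ N
  · rw [indicator_of_mem hy]
    simp [hy]
  · rw [indicator_of_notMem hy]
    simp [hy]

/-- deep labels see long chords -/
theorem deep_label {n : ℕ} {K : Set (Pt n)} (hK : VB K) (hKc : Convex ℝ K) {δ : ℝ}
    (hδ : 0 < δ) (hδ' : δ ≤ 1 / 100) (i : Fin n) (x : Fin n → ℝ)
    (h : ENNReal.ofReal (4 / 5) ≤ fib i (bstar K δ) x) :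
    ENNReal.ofReal (1 / 2) * mg n (fun y => PP y * ff K 0 y) i x ≤
      mg n (fun y => PP y * ff K (1 / 2) y) i x := by
  obtain ⟨k, hk⟩ := mg_gauss n i x
  rw [hk _ (measurable_ff hK 0), hk _ (measurable_ff hK (1 / 2))]
  have hBm : MeasurableSet (bstar K δ) := (isClosed_bstar hK hKc hδ.le).measurableSet
  have hm2 : Measurable fun z : Pt n => ((merge i x z.1, z.2) : Pt n) :=
    ((measurable_merge i x).comp measurable_fst).prodMk measurable_snd
  have h1 : fib i (bstar K δ) x =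
      ∫⁻ z, gaussianReal 0 1 {t | (merge i x z, t) ∈ bstar K δ} ∂(gB n) := by
    unfold fib
    exact gam_apply (hm2 hBm)
  have hfm : Measurable fun z => ff K (1 / 2) (merge i x z) :=
    (measurable_ff hK (1 / 2)).comp (measurable_merge i x)
  have h2 : fib i (bstar K δ) x ≤ ENNReal.ofReal (11 / 20) +
      ENNReal.ofReal (23 / 50) * ∫⁻ z, ff K (1 / 2) (merge i x z) ∂(gB n) := by
    rw [h1]
    calc _ ≤ ∫⁻ z, (ENNReal.ofReal (11 / 20) +
          ENNReal.ofReal (23 / 50) * ff K (1 / 2) (merge i x z)) ∂(gB n) :=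
          lintegral_mono fun z => deep_line hK hKc hδ hδ' _
      _ = _ := by
          rw [lintegral_add_left measurable_const, lintegral_const, measure_univ, mul_one,
            lintegral_const_mul _ hfm]
  have h0 : ∫⁻ z, ff K 0 (merge i x z) ∂(gB n) ≤ 1 := by
    calc _ ≤ ∫⁻ z, 1 ∂(gB n) := lintegral_mono fun z => ff_le_one K 0 _
      _ = 1 := by simp
  have h3 : ENNReal.ofReal (1 / 2) ≤ ∫⁻ z, ff K (1 / 2) (merge i x z) ∂(gB n) := by
    set E := ∫⁻ z, ff K (1 / 2) (merge i x z) ∂(gB n) with hE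
    have hE1 : E ≤ 1 := by
      calc _ ≤ ∫⁻ z, 1 ∂(gB n) := lintegral_mono fun z => ff_le_one K _ _
        _ = 1 := by simp
    have hEtop : E ≠ ⊤ := ne_top_of_le_ne_top ENNReal.one_ne_top hE1
    have h4 := h.trans h2
    rw [← ENNReal.ofReal_toReal hEtop, ← ENNReal.ofReal_mul (by norm_num),
      ← ENNReal.ofReal_add (by norm_num) (by positivity),
      ENNReal.ofReal_le_ofReal_iff (by positivity)] at h4
    rw [← ENNReal.ofReal_toReal hEtop]
    apply ENNReal.ofReal_le_ofReal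
    linarith
  calc ENNReal.ofReal (1 / 2) * (k * ∫⁻ z, ff K 0 (merge i x z) ∂(gB n))
      ≤ ENNReal.ofReal (1 / 2) * (k * 1) := by gcongr
    _ = k * ENNReal.ofReal (1 / 2) := by ring
    _ ≤ _ := by gcongr

theorem root_label {n : ℕ} {K : Set (Pt n)} (hK : VB K) (hKc : Convex ℝ K) {δ : ℝ}
    (hδ : 0 < δ) (hδ' : δ ≤ 1 / 100)
    (h : ENNReal.ofReal (2 / 3) ≤ gam n (bstar K δ)) :
    ENNReal.ofReal (1 / 4) * ∫⁻ y, PP y * ff K 0 y ≤ ∫⁻ y, PP y * ff K (1 / 2) y := by
  rw [← gB_lintegral _ _ (measurable_ff hK 0), ← gB_lintegral _ _ (measurable_ff hK (1 / 2))]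
  have hBm : MeasurableSet (bstar K δ) := (isClosed_bstar hK hKc hδ.le).measurableSet
  have h2 : gam n (bstar K δ) ≤ ENNReal.ofReal (11 / 20) +
      ENNReal.ofReal (23 / 50) * ∫⁻ z, ff K (1 / 2) z ∂(gB n) := by
    rw [gam_apply hBm]
    calc _ ≤ ∫⁻ z, (ENNReal.ofReal (11 / 20) +
          ENNReal.ofReal (23 / 50) * ff K (1 / 2) z) ∂(gB n) :=
          lintegral_mono fun z => deep_line hK hKc hδ hδ' _
      _ = _ := by
          rw [lintegral_add_left measurable_const, lintegral_const, measure_univ, mul_one,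
            lintegral_const_mul _ (measurable_ff hK (1 / 2))]
  have h0 : ∫⁻ z, ff K 0 z ∂(gB n) ≤ 1 := by
    calc _ ≤ ∫⁻ z, 1 ∂(gB n) := lintegral_mono fun z => ff_le_one K 0 _
      _ = 1 := by simp
  have h3 : ENNReal.ofReal (1 / 4) ≤ ∫⁻ z, ff K (1 / 2) z ∂(gB n) := by
    set E := ∫⁻ z, ff K (1 / 2) z ∂(gB n) with hE
    have hE1 : E ≤ 1 := by
      calc _ ≤ ∫⁻ z, 1 ∂(gB n) := lintegral_mono fun z => ff_le_one K _ _
        _ = 1 := by simp
    have hEtop : E ≠ ⊤ := ne_top_of_le_ne_top ENNReal.one_ne_top hE1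
    have h4 := h.trans h2
    rw [← ENNReal.ofReal_toReal hEtop, ← ENNReal.ofReal_mul (by norm_num),
      ← ENNReal.ofReal_add (by norm_num) (by positivity),
      ENNReal.ofReal_le_ofReal_iff (by positivity)] at h4
    rw [← ENNReal.ofReal_toReal hEtop]
    apply ENNReal.ofReal_le_ofReal
    linarith
  calc ENNReal.ofReal (1 / 4) * ∫⁻ z, ff K 0 z ∂(gB n) ≤ ENNReal.ofReal (1 / 4) * 1 := by gcongr
    _ = ENNReal.ofReal (1 / 4) := mul_one _
    _ ≤ _ := h3

theorem exp_half_le : Real.exp (1 / 2) ≤ 17 / 10 := by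
  have h1 : Real.exp (1 / 2) ^ 2 = Real.exp 1 := by
    rw [← Real.exp_nat_mul]; norm_num
  have h2 := Real.exp_one_lt_d9
  have h3 := Real.exp_pos (1 / 2 : ℝ)
  nlinarith

/-- **The uniform nested star theorem** (helper812's note 7531), Gaussian form. `K` is a closed
convex set, bounded in the last coordinate, the step is `v = δ e_last`, `D i` are arbitrary measurable sets of labels (the first
`i+1` coordinates of the base), each label in `D i` being healthy for `K * v`; then outside all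
`D i` the loss is at most `1200 δ` times the gain. -/
theorem star_gauss_closed {n : ℕ} {K : Set (Pt n)} (hK : VB K) (hKc : Convex ℝ K) {δ : ℝ}
    (hδ : 0 < δ) (hδ' : δ ≤ 1 / 400) {D : Fin n → Set (Fin n → ℝ)}
    (hD : ∀ i, MeasurableSet (D i)) (hcyl : ∀ i x y, (∀ j ≤ i, x j = y j) → x ∈ D i → y ∈ D i)
    (hdeep : ∀ i, ∀ x ∈ D i, ENNReal.ofReal (4 / 5) ≤ fib i (bstar K δ) x)
    (hroot : ENNReal.ofReal (2 / 3) ≤ gam n (bstar K δ)) :
    gam n {p | (p ∈ K ∧ p ∉ bstar K δ) ∧ ∀ i, p.1 ∉ D i} ≤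
      ENNReal.ofReal (1200 * δ) * gam n {p | (p ∈ bstar K δ ∧ p ∉ K) ∧ ∀ i, p.1 ∉ D i} := by
  have hδ4 : δ ≤ 1 / 100 := by linarith
  have hreg := reg_body hK hKc hδ (by linarith)
  have hmain := star_abstract (Θ := 4 * δ) (by linarith) (by linarith) hreg hD hcyl
    (fun i x hx => deep_label hK hKc hδ hδ4 i x (hdeep i x hx))
    (root_label hK hKc hδ hδ4 hroot)
  have hBm : MeasurableSet (bstar K δ) := (isClosed_bstar hK hKc hδ.le).measurableSet
  have hKm : MeasurableSet K := hK.1.measurableSet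
  have hNm : MeasurableSet (NN D) := measurableSet_NN hD
  set G0 := ∫⁻ y in NN D, PP y * ff K 0 y with hG0
  set GT := ∫⁻ y in NN D, PP y * ff K (2 * δ) y with hGT
  set G1 := ∫⁻ y in NN D, PP y * ff K (1 / 2) y with hG1
  set κ := ENNReal.ofReal (88 * (4 * δ)) with hκ
  -- loss
  have hloss : gam n {p | (p ∈ K ∧ p ∉ bstar K δ) ∧ ∀ i, p.1 ∉ D i} +
      kk * ENNReal.ofReal (2 * δ) * GT ≤ kk * ENNReal.ofReal (2 * δ) * G0 := by
    have e1 := gam_region (n := n) (hKm.diff hBm) hNm
    have e2 : {p : Pt n | (p ∈ K ∧ p ∉ bstar K δ) ∧ ∀ i, p.1 ∉ D i} =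
        {p | p ∈ K \ bstar K δ ∧ p.1 ∈ NN D} := rfl
    rw [e2, e1, hGT, hG0, ← lintegral_const_mul' _ _ (ENNReal.mul_ne_top kk_ne_top
      ENNReal.ofReal_ne_top), ← lintegral_const_mul' _ _ (ENNReal.mul_ne_top kk_ne_top
      ENNReal.ofReal_ne_top), ← lintegral_add_left]
    · refine lintegral_mono fun y => ?_
      have := loss_line hK hKc hδ y
      calc PP y * gaussianReal 0 1 {x | (y, x) ∈ K \ bstar K δ} +
            kk * ENNReal.ofReal (2 * δ) * (PP y * ff K (2 * δ) y)
          = PP y * (gaussianReal 0 1 {x | (y, x) ∈ K ∧ (y, x) ∉ bstar K δ} +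
            kk * ENNReal.ofReal (2 * δ) * ff K (2 * δ) y) := by
            rw [show {x | (y, x) ∈ K \ bstar K δ} = {x | (y, x) ∈ K ∧ (y, x) ∉ bstar K δ} from rfl]
            ring
        _ ≤ PP y * (kk * ENNReal.ofReal (2 * δ) * ff K 0 y) := by gcongr
        _ = _ := by ring
    · exact mPP (measurable_fibre (hKm.diff hBm))
  -- gain
  have hgain : kk * ENNReal.ofReal δ * ENNReal.ofReal (Real.exp (-1 / 2)) * GT ≤
      gam n {p | (p ∈ bstar K δ ∧ p ∉ K) ∧ ∀ i, p.1 ∉ D i} +
      kk * ENNReal.ofReal δ * ENNReal.ofReal (Real.exp (-1 / 2)) * G1 := by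
    have e1 := gam_region (n := n) (hBm.diff hKm) hNm
    have e2 : {p : Pt n | (p ∈ bstar K δ ∧ p ∉ K) ∧ ∀ i, p.1 ∉ D i} =
        {p | p ∈ bstar K δ \ K ∧ p.1 ∈ NN D} := rfl
    have hc : kk * ENNReal.ofReal δ * ENNReal.ofReal (Real.exp (-1 / 2)) ≠ ⊤ :=
      ENNReal.mul_ne_top (ENNReal.mul_ne_top kk_ne_top ENNReal.ofReal_ne_top) ENNReal.ofReal_ne_top
    rw [e2, e1, hGT, hG1, ← lintegral_const_mul' _ _ hc, ← lintegral_const_mul' _ _ hc,
      ← lintegral_add_left]
    · refine lintegral_mono fun y => ?_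
      have := gain_line hK hKc hδ (by linarith) y
      calc kk * ENNReal.ofReal δ * ENNReal.ofReal (Real.exp (-1 / 2)) * (PP y * ff K (2 * δ) y)
          = PP y * (kk * ENNReal.ofReal δ * ENNReal.ofReal (Real.exp (-1 / 2)) *
              ff K (2 * δ) y) := by ring
        _ ≤ PP y * (gaussianReal 0 1 {x | (y, x) ∈ bstar K δ ∧ (y, x) ∉ K} +
              kk * ENNReal.ofReal δ * ENNReal.ofReal (Real.exp (-1 / 2)) * ff K (1 / 2) y) := by
            gcongr
        _ = _ := by
            rw [show {x | (y, x) ∈ bstar K δ \ K} = {x | (y, x) ∈ bstar K δ ∧ (y, x) ∉ K} from rfl]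
            ring
    · exact mPP (measurable_fibre (hBm.diff hKm))
  -- finiteness
  have hG0top : G0 ≠ ⊤ := ne_top_of_le_ne_top hreg.int0 (setLIntegral_le_lintegral _ _)
  have hGTtop : GT ≠ ⊤ := ne_top_of_le_ne_top hG0top (lintegral_mono fun y => hreg.leT y)
  have hG1top : G1 ≠ ⊤ := ne_top_of_le_ne_top hGTtop (lintegral_mono fun y => hreg.le1 y)
  -- real arithmetic
  set A := gam n {p | (p ∈ K ∧ p ∉ bstar K δ) ∧ ∀ i, p.1 ∉ D i} with hA
  set B := gam n {p | (p ∈ bstar K δ ∧ p ∉ K) ∧ ∀ i, p.1 ∉ D i} with hB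
  have hAtop : A ≠ ⊤ := measure_ne_top _ _
  have hBtop : B ≠ ⊤ := measure_ne_top _ _
  have hktop := kk_ne_top
  have hk0 : 0 ≤ kk.toReal := ENNReal.toReal_nonneg
  clear_value A B G0 GT G1
  have hkeq : kk = ENNReal.ofReal kk.toReal := (ENNReal.ofReal_toReal hktop).symm
  rw [← ENNReal.ofReal_toReal hG0top, ← ENNReal.ofReal_toReal hGTtop, hkeq,
    ← ENNReal.ofReal_toReal hAtop, ← ENNReal.ofReal_mul (by positivity),
    ← ENNReal.ofReal_mul (by positivity), ← ENNReal.ofReal_mul (by positivity),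
    ← ENNReal.ofReal_add (by positivity) (by positivity),
    ENNReal.ofReal_le_ofReal_iff (by positivity)] at hloss
  rw [← ENNReal.ofReal_toReal hG1top, ← ENNReal.ofReal_toReal hGTtop, hkeq,
    ← ENNReal.ofReal_toReal hBtop, ← ENNReal.ofReal_mul (by positivity),
    ← ENNReal.ofReal_mul (by positivity), ← ENNReal.ofReal_mul (by positivity),
    ← ENNReal.ofReal_mul (by positivity),
    ← ENNReal.ofReal_add (by positivity) (by positivity),
    ENNReal.ofReal_le_ofReal_iff (by positivity)] at hgain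
  rw [hκ] at hmain
  rw [← ENNReal.ofReal_toReal hG0top, ← ENNReal.ofReal_toReal hGTtop,
    ← ENNReal.ofReal_toReal hG1top, ← ENNReal.ofReal_mul (by positivity),
    ← ENNReal.ofReal_mul (by positivity),
    ← ENNReal.ofReal_add (by positivity) (by positivity),
    ← ENNReal.ofReal_add (by positivity) (by positivity),
    ENNReal.ofReal_le_ofReal_iff (by positivity)] at hmain
  rw [← ENNReal.ofReal_toReal hAtop, ← ENNReal.ofReal_toReal hBtop,
    ← ENNReal.ofReal_mul (by positivity)]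
  apply ENNReal.ofReal_le_ofReal
  set a := A.toReal
  set b := B.toReal
  set g0 := G0.toReal
  set gT := GT.toReal
  set g1 := G1.toReal
  set k := kk.toReal
  have hb0 : 0 ≤ b := ENNReal.toReal_nonneg
  -- a ≤ 2kδ (g0 - gT) ≤ 2kδ κ (gT - g1) ≤ 2 κ e^{1/2} b
  have s1 : a ≤ k * (2 * δ) * (88 * (4 * δ) * (gT - g1)) := by
    have : k * (2 * δ) * (g0 - gT) ≤ k * (2 * δ) * (88 * (4 * δ) * (gT - g1)) := by
      gcongr
      linarith
    linarith
  have s2 : k * δ * (gT - g1) ≤ Real.exp (1 / 2) * b := by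
    have h1 : k * δ * Real.exp (-1 / 2) * (gT - g1) ≤ b := by linarith
    have h2 : Real.exp (1 / 2) * Real.exp (-1 / 2) = 1 := by
      rw [← Real.exp_add]; norm_num
    calc k * δ * (gT - g1) = (Real.exp (1 / 2) * Real.exp (-1 / 2)) * (k * δ * (gT - g1)) := by
          rw [h2, one_mul]
      _ = Real.exp (1 / 2) * (k * δ * Real.exp (-1 / 2) * (gT - g1)) := by ring
      _ ≤ Real.exp (1 / 2) * b := by gcongr
  have s3 : Real.exp (1 / 2) * b ≤ 17 / 10 * b := by
    gcongr
    exact exp_half_le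
  calc a ≤ k * (2 * δ) * (88 * (4 * δ) * (gT - g1)) := s1
    _ = 704 * δ * (k * δ * (gT - g1)) := by ring
    _ ≤ 704 * δ * (17 / 10 * b) := mul_le_mul_of_nonneg_left (s2.trans s3) (by positivity)
    _ ≤ 1200 * δ * b := by nlinarith [mul_nonneg hδ.le hb0]

/-- **The uniform nested star theorem** (helper812's note 7531), Gaussian form, compact bodies. -/
theorem star_gauss {n : ℕ} {K : Set (Pt n)} (hK : IsCompact K) (hKc : Convex ℝ K) {δ : ℝ}
    (hδ : 0 < δ) (hδ' : δ ≤ 1 / 400) {D : Fin n → Set (Fin n → ℝ)}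
    (hD : ∀ i, MeasurableSet (D i)) (hcyl : ∀ i x y, (∀ j ≤ i, x j = y j) → x ∈ D i → y ∈ D i)
    (hdeep : ∀ i, ∀ x ∈ D i, ENNReal.ofReal (4 / 5) ≤ fib i (bstar K δ) x)
    (hroot : ENNReal.ofReal (2 / 3) ≤ gam n (bstar K δ)) :
    gam n {p | (p ∈ K ∧ p ∉ bstar K δ) ∧ ∀ i, p.1 ∉ D i} ≤
      ENNReal.ofReal (1200 * δ) * gam n {p | (p ∈ bstar K δ ∧ p ∉ K) ∧ ∀ i, p.1 ∉ D i} :=
  star_gauss_closed (vb_of_isCompact hK) hKc hδ hδ' hD hcyl hdeep hroot

end Vale.Agent.P262.H493
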