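import Mathlib
import Vale.Agent.P262.H493.Star

set_option linter.all false

open MeasureTheory Set Filter ProbabilityTheory
open scoped ENNReal NNReal Topology RealInnerProductSpace

namespace Vale.Agent.P262.H493

section basis

universe u

/-- glue orthonormal bases of `F` and of its complement -/
noncomputable def joinB {E : Type u} [NormedAddCommGroup E] [InnerProductSpace ℝ E]
    [FiniteDimensional ℝ E] (F : Submodule ℝ E) {ι₁ ι₂ : Type} [Fintype ι₁] [Fintype ι₂]
    (b1 : OrthonormalBasis ι₁ ℝ F) (b2 : OrthonormalBasis ι₂ ℝ Fᗮ) :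
    OrthonormalBasis (ι₁ ⊕ ι₂) ℝ E :=
  (b1.prod b2).map F.orthogonalDecomposition.symm

theorem joinB_inl {E : Type u} [NormedAddCommGroup E] [InnerProductSpace ℝ E]
    [FiniteDimensional ℝ E] (F : Submodule ℝ E) {ι₁ ι₂ : Type} [Fintype ι₁] [Fintype ι₂]
    (b1 : OrthonormalBasis ι₁ ℝ F) (b2 : OrthonormalBasis ι₂ ℝ Fᗮ) (j : ι₁) :
    joinB F b1 b2 (Sum.inl j) = b1 j := by
  simp [joinB]

theorem joinB_inr {E : Type u} [NormedAddCommGroup E] [InnerProductSpace ℝ E]
    [FiniteDimensional ℝ E] (F : Submodule ℝ E) {ι₁ ι₂ : Type} [Fintype ι₁] [Fintype ι₂]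
    (b1 : OrthonormalBasis ι₁ ℝ F) (b2 : OrthonormalBasis ι₂ ℝ Fᗮ) (j : ι₂) :
    joinB F b1 b2 (Sum.inr j) = b2 j := by
  simp [joinB]

/-- adapted orthonormal basis for a finite chain of subspaces (unsorted) -/
theorem adapted_aux : ∀ (m : ℕ) (E : Type u) [NormedAddCommGroup E] [InnerProductSpace ℝ E]
    [FiniteDimensional ℝ E] (W : Fin m → Submodule ℝ E), Monotone W →
    ∃ (ι : Type) (_ : Fintype ι) (c : OrthonormalBasis ι ℝ E) (lev : ι → ℕ),
      ∀ (i : Fin m) (j : ι), (lev j ≤ i → c j ∈ W i) ∧ (i < lev j → c j ∈ (W i)ᗮ) := by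
  intro m
  induction m with
  | zero =>
    intro E _ _ _ W hW
    exact ⟨Fin (Module.finrank ℝ E), inferInstance, stdOrthonormalBasis ℝ E, fun _ => 0,
      fun i => Fin.elim0 i⟩
  | succ m ih =>
    intro E _ _ _ W hW
    set F := W (Fin.last m) with hF
    obtain ⟨ι, hι, c1, lev1, h1⟩ := ih F (fun i => (W i.castSucc).comap F.subtype) (by
      intro i j hij
      exact Submodule.comap_mono (hW (Fin.castSucc_le_castSucc_iff.mpr hij)))
    set c2 := stdOrthonormalBasis ℝ Fᗮ with hc2
    refine ⟨ι ⊕ Fin (Module.finrank ℝ Fᗮ), inferInstance, joinB F c1 c2,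
      Sum.elim (fun j => min (lev1 j) m) (fun _ => m + 1), ?_⟩
    intro i j
    rcases j with j | j
    · rw [joinB_inl]
      simp only [Sum.elim_inl]
      refine Fin.lastCases ?_ (fun i => ?_) i
      · constructor
        · intro _; exact (c1 j).2
        · intro h
          simp only [Fin.val_last] at h
          have := min_le_right (lev1 j) m
          omega
      · have hi := i.2
        constructor
        · intro h
          have h2 : lev1 j ≤ i := by
            simp only [Fin.val_castSucc] at h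
            omega
          exact (h1 i j).1 h2
        · intro h
          have h2 : i < lev1 j := by
            simp only [Fin.val_castSucc] at h
            omega
          have h3 := (h1 i j).2 h2
          rw [Submodule.mem_orthogonal] at h3 ⊢
          intro w hw
          have hwF : w ∈ F := hW (Fin.le_last _) hw
          have := h3 ⟨w, hwF⟩ hw
          simpa using this
    · rw [joinB_inr]
      simp only [Sum.elim_inr]
      constructor
      · intro h
        have := i.2
        omega
      · intro _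
        have h3 : (W i) ≤ F := hW (Fin.le_last _)
        exact Submodule.orthogonal_le h3 (c2 j).2

/-- sorted adapted orthonormal basis -/
theorem adapted {m : ℕ} {E : Type u} [NormedAddCommGroup E] [InnerProductSpace ℝ E]
    [FiniteDimensional ℝ E] (W : Fin m → Submodule ℝ E) (hW : Monotone W) :
    ∃ (c : OrthonormalBasis (Fin (Module.finrank ℝ E)) ℝ E) (lev : Fin (Module.finrank ℝ E) → ℕ),
      Monotone lev ∧
      ∀ (i : Fin m) (j), (lev j ≤ i → c j ∈ W i) ∧ (i < lev j → c j ∈ (W i)ᗮ) := by
  obtain ⟨ι, hι, c, lev, h⟩ := adapted_aux m E W hW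
  have hcard : Fintype.card ι = Module.finrank ℝ E := (Module.finrank_eq_card_basis c.toBasis).symm
  set e0 : ι ≃ Fin (Module.finrank ℝ E) := (Fintype.equivFin ι).trans (finCongr hcard) with he0
  set σ := Tuple.sort (lev ∘ e0.symm) with hσ
  refine ⟨c.reindex (e0.trans σ.symm), (lev ∘ e0.symm) ∘ σ, Tuple.monotone_sort _, ?_⟩
  intro i j
  rw [OrthonormalBasis.reindex_apply]
  have : (e0.trans σ.symm).symm j = e0.symm (σ j) := by simp
  rw [this]
  exact h i _

end basis

section transfer

variable {E : Type*} [NormedAddCommGroup E] [InnerProductSpace ℝ E] [FiniteDimensional ℝ E]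
  [MeasurableSpace E] [BorelSpace E]

/-- coordinates -/
noncomputable def SS {n : ℕ} (b : OrthonormalBasis (Fin (n + 1)) ℝ E) (p : Pt n) : E :=
  ∑ j : Fin n, p.1 j • b j.castSucc + p.2 • b (Fin.last n)

theorem continuous_SS {n : ℕ} (b : OrthonormalBasis (Fin (n + 1)) ℝ E) : Continuous (SS b) := by
  unfold SS
  fun_prop

theorem SS_mp {n : ℕ} (b : OrthonormalBasis (Fin (n + 1)) ℝ E) :
    MeasurePreserving (SS b) (gam n) (stdGaussian E) := by
  refine ⟨(continuous_SS b).measurable, ?_⟩
  have hvp := measurePreserving_piFinSuccAbove (fun _ : Fin (n + 1) => gaussianReal 0 1)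
    (Fin.last n)
  set e := MeasurableEquiv.piFinSuccAbove (fun _ : Fin (n + 1) => ℝ) (Fin.last n) with he
  have hswap : MeasurePreserving (Prod.swap : ℝ × (Fin n → ℝ) → Pt n)
      ((gaussianReal 0 1).prod (gB n)) (gam n) := Measure.measurePreserving_swap
  have hcomp : MeasurePreserving (fun x => Prod.swap (e x))
      (Measure.pi fun _ : Fin (n + 1) => gaussianReal 0 1) (gam n) := hswap.comp hvp
  rw [← hcomp.map_eq, Measure.map_map (continuous_SS b).measurable hcomp.measurable,
    stdGaussian_eq_map_pi_orthonormalBasis b]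
  congr 1
  funext x
  simp only [Function.comp, SS]
  rw [Fin.sum_univ_castSucc]
  have h1 : (e x).1 = x (Fin.last n) := by simp [he, MeasurableEquiv.piFinSuccAbove]
  have h2 : ∀ j, (e x).2 j = x j.castSucc := by
    intro j
    simp [he, MeasurableEquiv.piFinSuccAbove, Fin.removeNth, Fin.succAbove_last, Fin.init]
  simp only [Prod.fst_swap, Prod.snd_swap, h1, h2]

/-- Banaszczyk's operation `K * v`. -/
def star (K : Set E) (v : E) : Set E :=
  {x | ∃ a b : ℝ, x + a • v ∈ K ∧ x + b • v ∈ K ∧ 2 ≤ b - a ∧ a ≤ 1 ∧ -1 ≤ b}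

theorem star_neg (K : Set E) (v : E) : star K (-v) = star K v := by
  have key : ∀ v : E, star K (-v) ⊆ star K v := by
    rintro v x ⟨a, b, h1, h2, h3, h4, h5⟩
    refine ⟨-b, -a, ?_, ?_, by linarith, by linarith, by linarith⟩
    · simpa using h2
    · simpa using h1
  refine Subset.antisymm (key v) ?_
  have := key (-v)
  rwa [neg_neg] at this

theorem bstar_transfer {n : ℕ} (b : OrthonormalBasis (Fin (n + 1)) ℝ E) (K : Set E) {v : E}
    {δ : ℝ} (hδ : 0 < δ) (hv : v = δ • b (Fin.last n)) :
    bstar (SS b ⁻¹' K) δ = SS b ⁻¹' (star K v) := by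
  have hSS : ∀ (y : Fin n → ℝ) (x t : ℝ), SS b (y, t) = SS b (y, x) + ((t - x) / δ) • v := by
    intro y x t
    unfold SS
    rw [hv, smul_smul]
    have : (t - x) / δ * δ = t - x := by field_simp
    rw [this, sub_smul]
    simp only
    abel
  ext ⟨y, x⟩
  simp only [bstar, star, mem_preimage, mem_setOf_eq]
  constructor
  · rintro ⟨l, r, hl, hr, h1, h2, h3⟩
    refine ⟨(l - x) / δ, (r - x) / δ, ?_, ?_, ?_, ?_, ?_⟩
    · rw [← hSS]; exact hl
    · rw [← hSS]; exact hr
    · rw [← sub_div, le_div_iff₀ hδ]; linarith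
    · rw [div_le_one hδ]; linarith
    · rw [le_div_iff₀ hδ]; linarith
  · rintro ⟨a, c, h1, h2, h3, h4, h5⟩
    refine ⟨x + a * δ, x + c * δ, ?_, ?_, ?_, ?_, ?_⟩
    · rw [hSS y x]
      have : (x + a * δ - x) / δ = a := by field_simp; ring
      rw [this]; exact h1
    · rw [hSS y x]
      have : (x + c * δ - x) / δ = c := by field_simp; ring
      rw [this]; exact h2
    · nlinarith
    · nlinarith
    · nlinarith

/-- inverse coordinates -/
noncomputable def TT {n : ℕ} (b : OrthonormalBasis (Fin (n + 1)) ℝ E) (x : E) : Pt n :=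
  (fun j => ⟪b j.castSucc, x⟫, ⟪b (Fin.last n), x⟫)

theorem SS_TT {n : ℕ} (b : OrthonormalBasis (Fin (n + 1)) ℝ E) (x : E) : SS b (TT b x) = x := by
  unfold SS TT
  simp only
  rw [← Fin.sum_univ_castSucc (f := fun j => ⟪b j, x⟫ • b j)]
  exact b.sum_repr' x

theorem continuous_TT {n : ℕ} (b : OrthonormalBasis (Fin (n + 1)) ℝ E) : Continuous (TT b) := by
  unfold TT
  fun_prop

theorem inner_last_SS {n : ℕ} (b : OrthonormalBasis (Fin (n + 1)) ℝ E) (p : Pt n) :
    ⟪b (Fin.last n), SS b p⟫ = p.2 := by
  unfold SS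
  rw [inner_add_right, inner_sum, inner_smul_right]
  have h1 : ∀ j : Fin n, ⟪b (Fin.last n), p.1 j • b j.castSucc⟫ = 0 := by
    intro j
    rw [inner_smul_right, b.orthonormal.2 (by exact (Fin.castSucc_lt_last j).ne'), mul_zero]
  rw [Finset.sum_eq_zero fun j _ => h1 j, real_inner_self_eq_norm_sq, b.orthonormal.1]
  simp

theorem SS_lin {n : ℕ} (b : OrthonormalBasis (Fin (n + 1)) ℝ E) (s t : ℝ) (p q : Pt n) :
    SS b (s • p + t • q) = s • SS b p + t • SS b q := by
  unfold SS
  simp only [Prod.fst_add, Prod.snd_add, Prod.smul_fst, Prod.smul_snd, Pi.add_apply, Pi.smul_apply,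
    smul_eq_mul, add_smul, Finset.sum_add_distrib, smul_add, Finset.smul_sum, mul_smul]
  abel

theorem adapted' {N m : ℕ} (hN : Module.finrank ℝ E = N) (W : Fin m → Submodule ℝ E)
    (hW : Monotone W) :
    ∃ (c : OrthonormalBasis (Fin N) ℝ E) (lev : Fin N → ℕ), Monotone lev ∧
      ∀ (i : Fin m) (j), (lev j ≤ i → c j ∈ W i) ∧ (i < lev j → c j ∈ (W i)ᗮ) := by
  subst hN
  exact adapted W hW

/-- **Uniform nested star theorem, coordinate free.** `K` closed convex and bounded in the
direction `v`, `W 0 ≤ W 1 ≤ …` label spaces orthogonal to `v`, `D i` arbitrary measurable sets of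
labels (cylinders over `W i`), all of them healthy (conditional measure of `K * v` at least
`4/5`). Then outside all `D i` the loss is at most `1200 ‖v‖` times the gain. -/
theorem star_inner {K : Set E} (hK : IsClosed K) (hKc : Convex ℝ K) {v : E} (hv : v ≠ 0)
    (hv' : ‖v‖ ≤ 1 / 400) (hb : ∃ R : ℝ, ∀ x ∈ K, |⟪v, x⟫| ≤ R) {m : ℕ}
    {W : Fin m → Submodule ℝ E} (hW : Monotone W) (hWv : ∀ i, ∀ w ∈ W i, ⟪v, w⟫ = 0)
    {D : Fin m → Set E} (hD : ∀ i, MeasurableSet (D i))
    (hcyl : ∀ i x, ∀ w ∈ (W i)ᗮ, x ∈ D i → x + w ∈ D i)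
    (hdeep : ∀ i, ∀ x ∈ D i, ENNReal.ofReal (4 / 5) ≤
      stdGaussian E {z | (W i).starProjection x + (z - (W i).starProjection z) ∈ star K v})
    (hroot : ENNReal.ofReal (2 / 3) ≤ stdGaussian E (star K v)) :
    stdGaussian E {x | (x ∈ K ∧ x ∉ star K v) ∧ ∀ i, x ∉ D i} ≤
      ENNReal.ofReal (1200 * ‖v‖) *
        stdGaussian E {x | (x ∈ star K v ∧ x ∉ K) ∧ ∀ i, x ∉ D i} := by
  by_cases hN : ∃ x0, ∀ i, x0 ∉ D i
  swap
  · push Not at hN
    have : {x | (x ∈ K ∧ x ∉ star K v) ∧ ∀ i, x ∉ D i} = ∅ := by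
      ext x
      simp only [mem_setOf_eq, mem_empty_iff_false, iff_false, not_and]
      intro _ h
      obtain ⟨i, hi⟩ := hN x
      exact h i hi
    rw [this, measure_empty]
    exact bot_le
  obtain ⟨x0, hx0⟩ := hN
  set δ := ‖v‖ with hδ
  have hδ0 : 0 < δ := norm_pos_iff.mpr hv
  -- dimension
  haveI : Nontrivial E := ⟨v, 0, hv⟩
  obtain ⟨n, hn⟩ : ∃ n, Module.finrank ℝ E = n + 1 :=
    ⟨Module.finrank ℝ E - 1, by have := Module.finrank_pos (R := ℝ) (M := E); omega⟩
  -- extended chain
  set W' : Fin (m + 1) → Submodule ℝ E := Fin.snoc W (ℝ ∙ v)ᗮ with hW'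
  have hWle : ∀ i, W i ≤ (ℝ ∙ v)ᗮ := by
    intro i w hw
    rw [Submodule.mem_orthogonal_singleton_iff_inner_right]
    exact hWv i w hw
  have hW'm : Monotone W' := by
    intro i j hij
    induction j using Fin.lastCases with
    | last =>
      induction i using Fin.lastCases with
      | last => exact le_rfl
      | cast i => simp only [hW', Fin.snoc_last, Fin.snoc_castSucc]; exact hWle i
    | cast j =>
      induction i using Fin.lastCases with
      | last =>
        exfalso
        have := Fin.castSucc_lt_last j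
        exact absurd hij (not_le.mpr this)
      | cast i =>
        simp only [hW', Fin.snoc_castSucc]
        exact hW (Fin.castSucc_le_castSucc_iff.mp hij)
  obtain ⟨c, lev, hlev, hc⟩ := adapted' hn W' hW'm
  have hcW : ∀ (i : Fin m) j, (lev j ≤ i → c j ∈ W i) ∧ (i < lev j → c j ∈ (W i)ᗮ) := by
    intro i j
    have := hc i.castSucc j
    simpa [hW'] using this
  have hcH : ∀ j, (lev j ≤ m → c j ∈ (ℝ ∙ v)ᗮ) ∧ (m < lev j → c j ∈ (ℝ ∙ v)ᗮᗮ) := by
    intro j
    have := hc (Fin.last m) j
    simpa [hW'] using this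
  -- the last vector
  have hlast : m < lev (Fin.last n) := by
    by_contra hcon
    push Not at hcon
    apply hv
    have h1 : ∀ j, ⟪c j, v⟫ = 0 := by
      intro j
      have := (hcH j).1 ((hlev (Fin.le_last j)).trans hcon)
      rw [Submodule.mem_orthogonal_singleton_iff_inner_left] at this
      exact this
    rw [← c.sum_repr' v]
    simp [h1]
  have hlastv : ∃ t : ℝ, t • v = c (Fin.last n) := by
    have := (hcH (Fin.last n)).2 hlast
    rw [Submodule.orthogonal_orthogonal] at this
    exact Submodule.mem_span_singleton.mp this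
  obtain ⟨t, ht⟩ := hlastv
  have htδ : |t| * δ = 1 := by
    have := congrArg norm ht
    rw [norm_smul, c.orthonormal.1, Real.norm_eq_abs] at this
    exact this
  have hsign : δ • c (Fin.last n) = v ∨ δ • c (Fin.last n) = -v := by
    rw [← ht, smul_smul]
    rcases le_total 0 t with h | h
    · left
      rw [abs_of_nonneg h] at htδ
      rw [mul_comm, htδ, one_smul]
    · right
      rw [abs_of_nonpos h] at htδ
      have : δ * t = -1 := by linarith
      rw [this, neg_one_smul]
  set w := δ • c (Fin.last n) with hw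
  have hstar : star K w = star K v := by
    rcases hsign with h | h
    · rw [h]
    · rw [h, star_neg]
  have hlastW : ∀ i : Fin m, c (Fin.last n) ∈ (W i)ᗮ := by
    intro i
    exact (hcW i _).2 (i.2.trans hlast)
  -- the body in coordinates
  set K' : Set (Pt n) := SS c ⁻¹' K with hK'
  have hK'c : IsClosed K' := hK.preimage (continuous_SS c)
  have hK'conv : Convex ℝ K' := by
    intro p hp q hq s t hs ht hst
    simp only [hK', mem_preimage] at hp hq ⊢
    rw [SS_lin]
    exact hKc hp hq hs ht hst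
  have hVB : VB K' := by
    refine ⟨hK'c, ?_⟩
    obtain ⟨R, hR⟩ := hb
    refine ⟨R / δ, fun p hp => ?_⟩
    have h1 := hR _ hp
    have h2 : |⟪w, SS c p⟫| ≤ R := by
      rcases hsign with h | h
      · rw [h]; exact h1
      · rw [h, inner_neg_left, abs_neg]; exact h1
    rw [hw, inner_smul_left, inner_last_SS] at h2
    simp only [conj_trivial] at h2
    rw [abs_mul, abs_of_pos hδ0] at h2
    rw [le_div_iff₀ hδ0]; linarith
  have hbs : bstar K' δ = SS c ⁻¹' (star K v) := by
    rw [← hstar]
    exact bstar_transfer c K hδ0 hw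
  have hstarcl : IsClosed (star K v) := by
    have h1 : star K v = TT c ⁻¹' (SS c ⁻¹' (star K v)) := by
      ext x
      simp only [mem_preimage, SS_TT]
    rw [h1, ← hbs]
    exact (isClosed_bstar hVB hK'conv hδ0.le).preimage (continuous_TT c)
  -- deep sets in coordinates
  set D' : Fin n → Set (Fin n → ℝ) := fun k => {y | ∃ i : Fin m, lev k.castSucc ≤ i ∧
    (∀ k' : Fin n, lev k'.castSucc ≤ i → k' ≤ k) ∧ SS c (y, 0) ∈ D i} with hD'
  have hD'm : ∀ k, MeasurableSet (D' k) := by
    intro k
    have : D' k = ⋃ i : Fin m, {y | (lev k.castSucc ≤ i ∧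
        (∀ k' : Fin n, lev k'.castSucc ≤ i → k' ≤ k)) ∧ SS c (y, 0) ∈ D i} := by
      ext y
      simp only [hD', mem_setOf_eq, mem_iUnion, and_assoc]
    rw [this]
    refine MeasurableSet.iUnion fun i => ?_
    by_cases h : lev k.castSucc ≤ i ∧ (∀ k' : Fin n, lev k'.castSucc ≤ i → k' ≤ k)
    · have hcont : Continuous fun y : Fin n → ℝ => SS c (y, 0) :=
        (continuous_SS c).comp (by fun_prop)
      have h5 := hcont.measurable (hD i)
      convert h5 using 1
      ext y
      simp only [mem_setOf_eq, mem_preimage]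
      exact ⟨fun h' => h'.2, fun h' => ⟨h, h'⟩⟩
    · have : {y : Fin n → ℝ | (lev k.castSucc ≤ i ∧
        (∀ k' : Fin n, lev k'.castSucc ≤ i → k' ≤ k)) ∧ SS c (y, 0) ∈ D i} = ∅ := by
        ext y
        simp only [mem_setOf_eq, mem_empty_iff_false, iff_false, not_and]
        intro h'; exact absurd h' h
      rw [this]; exact MeasurableSet.empty
  have hdiff : ∀ (i : Fin m) (p q : Pt n), (∀ j : Fin n, lev j.castSucc ≤ i → p.1 j = q.1 j) →
      SS c q - SS c p ∈ (W i)ᗮ := by
    intro i p q hpq
    have e1 : SS c q - SS c p = ∑ j : Fin n, (q.1 j - p.1 j) • c j.castSucc +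
        (q.2 - p.2) • c (Fin.last n) := by
      unfold SS
      simp only [sub_smul, Finset.sum_sub_distrib]
      abel
    rw [e1]
    refine Submodule.add_mem _ (Submodule.sum_mem _ fun j _ => ?_)
      (Submodule.smul_mem _ _ (hlastW i))
    by_cases hj : lev j.castSucc ≤ i
    · rw [hpq j hj, sub_self, zero_smul]
      exact Submodule.zero_mem _
    · exact Submodule.smul_mem _ _ ((hcW i _).2 (not_le.mp hj))
  have hcyl' : ∀ k x y, (∀ j ≤ k, x j = y j) → x ∈ D' k → y ∈ D' k := by
    rintro k x y hxy ⟨i, h1, h2, h3⟩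
    refine ⟨i, h1, h2, ?_⟩
    have h4 := hdiff i (x, 0) (y, 0) (fun j hj => hxy j (h2 j hj))
    have := hcyl i _ _ h4 h3
    simpa using this
  have hdeep' : ∀ k, ∀ x ∈ D' k, ENNReal.ofReal (4 / 5) ≤ fib k (bstar K' δ) x := by
    rintro k y ⟨i, h1, h2, h3⟩
    refine (hdeep i _ h3).trans (le_of_eq ?_)
    set P := (W i).starProjection with hP
    have hPcl : IsClosed {z | P (SS c (y, 0)) + (z - P z) ∈ star K v} :=
      hstarcl.preimage (by fun_prop)
    rw [← (SS_mp c).measure_preimage hPcl.measurableSet.nullMeasurableSet]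
    unfold fib
    congr 1
    ext z
    rw [hbs]
    simp only [mem_preimage, mem_setOf_eq]
    have e : SS c (merge k y z.1, z.2) = P (SS c (y, 0)) + (SS c z - P (SS c z)) := by
      have m1 : SS c (merge k y z.1, z.2) - SS c (y, 0) ∈ (W i)ᗮ := by
        apply hdiff
        intro j hj
        have : j ≤ k := h2 j hj
        simp [merge, this]
      have m2 : SS c (merge k y z.1, z.2) - SS c z ∈ W i := by
        have e1 : SS c (merge k y z.1, z.2) - SS c z =
            ∑ j : Fin n, (merge k y z.1 j - z.1 j) • c j.castSucc := by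
          unfold SS
          simp only [sub_smul, Finset.sum_sub_distrib]
          abel
        rw [e1]
        refine Submodule.sum_mem _ fun j _ => ?_
        by_cases hj : j ≤ k
        · refine Submodule.smul_mem _ _ ((hcW i _).1 ?_)
          exact (hlev (Fin.castSucc_le_castSucc_iff.mpr hj)).trans h1
        · have : merge k y z.1 j - z.1 j = 0 := by simp [merge, hj]
          rw [this, zero_smul]
          exact Submodule.zero_mem _
      have p1 : P (SS c (merge k y z.1, z.2)) = P (SS c (y, 0)) := by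
        have := (Submodule.starProjection_apply_eq_zero_iff (K := W i)).mpr m1
        rw [map_sub, sub_eq_zero] at this
        exact this
      have p2 : P (SS c (merge k y z.1, z.2)) - P (SS c z) =
          SS c (merge k y z.1, z.2) - SS c z := by
        have := (Submodule.starProjection_eq_self_iff (K := W i)).mpr m2
        rw [map_sub] at this
        exact this
      rw [← p1]
      have : SS c z - P (SS c z) = SS c (merge k y z.1, z.2) - P (SS c (merge k y z.1, z.2)) := by
        have := p2
        rw [sub_eq_sub_iff_add_eq_add] at this ⊢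
        rw [add_comm, ← this]
      rw [this]
      abel
    rw [e]
  have hroot' : ENNReal.ofReal (2 / 3) ≤ gam n (bstar K' δ) := by
    rw [hbs, (SS_mp c).measure_preimage hstarcl.measurableSet.nullMeasurableSet]
    exact hroot
  have hmain := star_gauss_closed hVB hK'conv hδ0 hv' hD'm hcyl' hdeep' hroot'
  -- the region
  have hNN : ∀ p : Pt n, (∀ k, p.1 ∉ D' k) ↔ ∀ i, SS c p ∉ D i := by
    intro p
    constructor
    · intro h i hi
      by_cases hex : ∃ k' : Fin n, lev k'.castSucc ≤ i
      · classical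
        obtain ⟨k0, hk0⟩ := hex
        obtain ⟨k, hk, hkmax⟩ := Finset.exists_maximal
          (s := Finset.univ.filter fun k' : Fin n => lev k'.castSucc ≤ i) ⟨k0, by simp [hk0]⟩
        have hk1 : lev k.castSucc ≤ i := by simpa using hk
        refine h k ⟨i, hk1, ?_, ?_⟩
        · intro k' hk'
          by_contra hlt
          push Not at hlt
          have := hkmax (by simpa using hk') hlt.le
          exact absurd this (not_le.mpr hlt)
        · have h4 := hdiff i p (p.1, 0) (fun j hj => rfl)
          have := hcyl i _ _ h4 hi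
          simpa using this
      · push Not at hex
        have hall : ∀ x : E, x ∈ (W i)ᗮ := by
          intro x
          rw [← c.sum_repr' x]
          refine Submodule.sum_mem _ fun j _ => Submodule.smul_mem _ _ ?_
          induction j using Fin.lastCases with
          | last => exact hlastW i
          | cast j => exact (hcW i _).2 (hex j)
        have := hcyl i _ (x0 - SS c p) (hall _) hi
        rw [add_sub_cancel] at this
        exact hx0 i this
    · rintro h k ⟨i, h1, h2, h3⟩
      have h4 := hdiff i (p.1, 0) p (fun j hj => rfl)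
      have := hcyl i _ _ h4 h3
      rw [add_sub_cancel] at this
      exact h i this
  have hDm : MeasurableSet {x : E | ∀ i, x ∉ D i} := by
    have : {x : E | ∀ i, x ∉ D i} = ⋂ i, (D i)ᶜ := by ext x; simp
    rw [this]
    exact MeasurableSet.iInter fun i => (hD i).compl
  have m1 : MeasurableSet {x | (x ∈ K ∧ x ∉ star K v) ∧ ∀ i, x ∉ D i} :=
    (hK.measurableSet.inter hstarcl.measurableSet.compl).inter hDm
  have m2 : MeasurableSet {x | (x ∈ star K v ∧ x ∉ K) ∧ ∀ i, x ∉ D i} :=
    (hstarcl.measurableSet.inter hK.measurableSet.compl).inter hDm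
  rw [← (SS_mp c).measure_preimage m1.nullMeasurableSet,
    ← (SS_mp c).measure_preimage m2.nullMeasurableSet]
  have e1 : SS c ⁻¹' {x | (x ∈ K ∧ x ∉ star K v) ∧ ∀ i, x ∉ D i} =
      {p | (p ∈ K' ∧ p ∉ bstar K' δ) ∧ ∀ i, p.1 ∉ D' i} := by
    ext p
    rw [hbs]
    simp only [mem_preimage, mem_setOf_eq, hNN, hK']
  have e2 : SS c ⁻¹' {x | (x ∈ star K v ∧ x ∉ K) ∧ ∀ i, x ∉ D i} =
      {p | (p ∈ bstar K' δ ∧ p ∉ K') ∧ ∀ i, p.1 ∉ D' i} := by
    ext p
    rw [hbs]
    simp only [mem_preimage, mem_setOf_eq, hNN, hK']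
  rw [e1, e2]
  exact hmain

end transfer

end Vale.Agent.P262.H493
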