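import Vale.Agent.P262.H606.TipB
import Vale.Agent.P262.H439.QTip2
import Vale.Agent.P262.H962.PCap3
import Vale.Agent.P262.H44.WKill

/-!
# P262, block CONS: conservation of the unit from a label to its children, at a single time

`cons0` (class 0 chain): chain of fixed label spaces below a healthy label, healthy labels stopped.
The mean of the cap of the child (to the power `s ≤ 1`) over the alive mass is at most
`C (kap^k)^s` times the mean of the cap of the parent over the labels which are not very sick.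
`consH` (class at least 1, labelwise): Hölder.
-/

set_option linter.all false

open MeasureTheory ProbabilityTheory Set Filter
open scoped ENNReal RealInnerProductSpace Topology

namespace Vale.Agent.P262.Cons493

open Vale.Agent.P262.H395 Vale.Agent.P262.H44 Vale.Agent.P262.H606 Vale.Agent.P262.H962
open Vale.Agent.P262.H439 (qq qtip_unit HKQ QH Under measurable_qq qq_le_one inv_qq)

variable {E : Type*} [NormedAddCommGroup E] [InnerProductSpace ℝ E] [FiniteDimensional ℝ E]
  [MeasurableSpace E] [BorelSpace E]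

/-- points which avoid all stopped sets of a chain -/
def avoid (L : List (Submodule ℝ E × Set E)) : Set E := {x | ∀ p ∈ L, x ∉ p.2}

/-- the chain as a tree without kills -/
def sT : List (Submodule ℝ E × Set E) → STree E
  | [] => .leaf
  | p :: L => .node p.1 p.2 (fun _ => 0) (fun _ => sT L)

/-- the chain as a tree with empty kill sets -/
def kT : List (Submodule ℝ E × Set E) → KTree E
  | [] => .leaf
  | p :: L => .node p.1 p.2 ∅ (fun _ => 0) (fun _ => kT L)

omit [FiniteDimensional ℝ E] [MeasurableSpace E] [BorelSpace E] in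
lemma avoid_cons (p : Submodule ℝ E × Set E) (L : List (Submodule ℝ E × Set E)) (x : E) :
    x ∈ avoid (p :: L) ↔ x ∉ p.2 ∧ x ∈ avoid L := by
  unfold avoid
  simp only [List.mem_cons, forall_eq_or_imp, mem_setOf_eq]

lemma reg_sT : ∀ L : List (Submodule ℝ E × Set E), (sT L).reg = avoid L
  | [] => by
    ext x
    simp [sT, STree.reg, avoid]
  | p :: L => by
    ext x
    rw [avoid_cons, ← reg_sT L]
    rfl

lemma reg_kT : ∀ L : List (Submodule ℝ E × Set E), (kT L).reg = avoid L
  | [] => by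
    ext x
    simp [kT, KTree.reg, avoid]
  | p :: L => by
    ext x
    rw [avoid_cons, ← reg_kT L]
    simp [kT, KTree.reg]

lemma frz_kT : ∀ L : List (Submodule ℝ E × Set E), (kT L).frz = univ
  | [] => rfl
  | p :: L => by
    simp [kT, frz_kT L]

/-- increasing chains with label sets -/
def Chn : List (Submodule ℝ E × Set E) → Submodule ℝ E → Prop
  | [], _ => True
  | p :: L, W0 => W0 ≤ p.1 ∧ MeasurableSet p.2 ∧ InvS p.1 p.2 ∧ Chn L p.1

lemma valid_sT : ∀ {L : List (Submodule ℝ E × Set E)} {W0 : Submodule ℝ E}, Chn L W0 →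
    (sT L).Valid W0
  | [], _, _ => trivial
  | p :: L, W0, h => ⟨h.1, h.2.1, h.2.2.1, measurable_const, fun _ _ _ => rfl,
      fun _ => valid_sT h.2.2.2⟩

lemma valid_kT : ∀ {L : List (Submodule ℝ E × Set E)} {W0 : Submodule ℝ E}, Chn L W0 →
    (kT L).Valid W0
  | [], _, _ => trivial
  | p :: L, W0, h => ⟨h.1, h.2.1, h.2.2.1, fun _ _ _ => Iff.rfl, by simp, by
      simpa using convex_univ, measurable_const, fun _ _ _ => rfl, fun _ => valid_kT h.2.2.2⟩

lemma Chn.of_list : ∀ {L : List (Submodule ℝ E × Set E)} {W0 : Submodule ℝ E},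
    (L.map Prod.fst).Pairwise (· < ·) → (∀ V ∈ L.map Prod.fst, W0 < V) →
    (∀ p ∈ L, MeasurableSet p.2 ∧ InvS p.1 p.2) → Chn L W0
  | [], _, _, _, _ => trivial
  | p :: L, W0, h1, h2, h3 => by
    rw [List.map_cons, List.pairwise_cons] at h1
    refine ⟨(h2 p.1 (by simp)).le, (h3 p (by simp)).1, (h3 p (by simp)).2,
      Chn.of_list h1.2 h1.1 fun r hr => h3 r (by simp [hr])⟩

lemma under_kT {V : Submodule ℝ E} : ∀ {L : List (Submodule ℝ E × Set E)},
    (∀ p ∈ L, p.1 ≤ V) → Under V (kT L)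
  | [], _ => trivial
  | p :: L, h => ⟨h p (by simp), fun _ => under_kT fun r hr => h r (by simp [hr])⟩

/-- health at the nodes of the chain -/
lemma healthy_sT {K : Set E} {q : ℝ} (hq : 0 ≤ q)
    (hε : 2 * (Real.sqrt 2 * Real.exp (-(q / 4))) ≤ 1 / 10) {W' : Submodule ℝ E} :
    ∀ {L : List (Submodule ℝ E × Set E)} {l0 : List (Submodule ℝ E)} {W0 : Submodule ℝ E},
    (∀ V ∈ l0, V ≤ W0) → (L.map Prod.fst ++ [W']).Pairwise (· < ·) →
    (∀ V ∈ L.map Prod.fst ++ [W'], W0 < V) →
    (∀ p ∈ L, ∀ x ∈ p.2, ENNReal.ofReal (4 / 5) ≤ fib p.1 (K.indicator 1) x) →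
    Healthy K (PB (l0 ++ L.map Prod.fst) q) (PB ((l0 ++ L.map Prod.fst) ++ [W']) q) (sT L)
  | [], _, _, _, _, _, _ => trivial
  | p :: L, l0, W0, h1, h2, h3, h4 => by
    have e1 : l0 ++ (p :: L).map Prod.fst = (l0 ++ [p.1]) ++ L.map Prod.fst := by simp
    rw [List.map_cons, List.cons_append, List.pairwise_cons] at h2
    have hl : ∀ V ∈ l0 ++ [p.1], V ≤ p.1 := by
      intro V hV
      rcases List.mem_append.mp hV with h | h
      · exact (h1 V h).trans (h3 p.1 (by simp)).le
      · rw [List.mem_singleton.mp h]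
    have hF := flatD_PB (q := q) (l := l0 ++ [p.1]) (l' := L.map Prod.fst ++ [W']) (W := p.1)
      hε (by norm_num) hl (Or.inl (by simp)) h2.2 h2.1
    rw [e1]
    refine ⟨h4 p (by simp), ⟨PB (l0 ++ [p.1]) q, CB p.1 (L.map Prod.fst ++ [W']) q, ?_, ?_⟩,
      fun _ => healthy_sT hq hε hl h2.2 h2.1 fun r hr => h4 r (by simp [hr])⟩
    · rw [List.append_assoc]
      exact hF
    · exact PB_anti (List.subset_append_left _ _)

/-- health and flatness for `qtip` -/
lemma hkq_kT {K : Set E} {q : ℝ} (hq : 0 ≤ q)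
    (hε : 2 * (Real.sqrt 2 * Real.exp (-(q / 4))) ≤ 1 / 41) {s : ℝ} (hs : 0 ≤ s) (hs1 : s ≤ 1) :
    ∀ {L : List (Submodule ℝ E × Set E)} {l0 : List (Submodule ℝ E)} {W0 : Submodule ℝ E},
    (∀ V ∈ l0, V ≤ W0) → (L.map Prod.fst).Pairwise (· < ·) →
    (∀ V ∈ L.map Prod.fst, W0 < V) →
    (∀ p ∈ L, ∀ x ∈ p.2, ENNReal.ofReal (4 / 5) ≤ fib p.1 (K.indicator 1) x) → ∀ x : E,
    HKQ K (dw (s / 8) (PB (l0 ++ L.map Prod.fst) q)) (kT L) x
  | [], _, _, _, _, _, _, _ => trivial
  | p :: L, l0, W0, h1, h2, h3, h4, x => by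
    have e1 : l0 ++ (p :: L).map Prod.fst = (l0 ++ [p.1]) ++ L.map Prod.fst := by simp
    rw [List.map_cons, List.pairwise_cons] at h2
    have hl : ∀ V ∈ l0 ++ [p.1], V ≤ p.1 := by
      intro V hV
      rcases List.mem_append.mp hV with h | h
      · exact (h1 V h).trans (h3 p.1 (by simp)).le
      · rw [List.mem_singleton.mp h]
    have hF := flatD_PB (q := q) (l := l0 ++ [p.1]) (l' := L.map Prod.fst) (W := p.1)
      hε (by norm_num) hl (Or.inl (by simp)) h2.2 h2.1
    rw [e1]
    intro _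
    refine ⟨fun h => ?_, fun _ h => absurd rfl h,
      fun _ => hkq_kT hq hε hs hs1 hl h2.2 h2.1 (fun r hr => h4 r (by simp [hr])) x⟩
    rcases h with h | h
    swap
    · exact absurd rfl h
    have e2 : (kT L).frz ∩ K = K := by rw [frz_kT, univ_inter]
    refine QH.deep ?_ ?_
    · show ENNReal.ofReal (4 / 5) ≤ fib p.1 (((kT L).frz ∩ K).indicator 1) x
      rw [e2]
      exact h4 p (by simp) x h
    · exact flatAt_dw hF (by norm_num) (by norm_num) (by norm_num) (PB_nonempty _ hq)
        (by linarith) (by linarith) x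

lemma mem_getLast_le {W0 : Submodule ℝ E} : ∀ {l : List (Submodule ℝ E)},
    (W0 :: l).Pairwise (· < ·) → ∀ V ∈ W0 :: l, V ≤ (W0 :: l).getLast (by simp) := by
  intro l h V hV
  exact List.Pairwise.rel_getLast_of_rel_getLast_getLast (R := (· ≤ ·)) (h.imp le_of_lt) hV le_rfl

/-- the constant -/
noncomputable def cCons : ℝ := 4 * Real.exp (2 ^ 11)

lemma cCons_pos : 0 < cCons := by unfold cCons; positivity

/-- **CONS, class 0 chain, single time.** -/
theorem cons0 {K Kl : Set E} (hK : IsClosed K) (hKc : Convex ℝ K) {R : ℝ}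
    (hKR : K ⊆ Metric.closedBall 0 R) (hKl : IsClosed Kl) (hKlc : Convex ℝ Kl) (hKK : K ⊆ Kl)
    {q : ℝ} (hq : 0 ≤ q) (hε : 2 * (Real.sqrt 2 * Real.exp (-(q / 4))) ≤ 1 / 41)
    {s : ℝ} (hs : 0 ≤ s) (hs1 : s ≤ 1) {A0 kap : ℝ} (hA : 0 < A0) (hk : 0 < kap)
    {l0 : List (Submodule ℝ E)} {W0 V W' : Submodule ℝ E} {L : List (Submodule ℝ E × Set E)}
    (h1 : ∀ V ∈ l0, V ≤ W0) (hW0 : W0 ∈ l0 ∨ W0 = ⊥)
    (hL : (L.map Prod.fst ++ [W']).Pairwise (· < ·)) (hL0 : ∀ V ∈ L.map Prod.fst ++ [W'], W0 < V)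
    (hV0 : W0 ≤ V) (hVL : ∀ p ∈ L, p.1 ≤ V) (hVW : V ≤ W')
    (hVin : InvS V (avoid L))
    (hD : ∀ p ∈ L, MeasurableSet p.2 ∧ InvS p.1 p.2)
    (hgood : ∀ p ∈ L, ∀ x ∈ p.2, ENNReal.ofReal (4 / 5) ≤ fib p.1 (K.indicator 1) x)
    (x0 : E) (hroot : ENNReal.ofReal (2 / 3) ≤ fib W0 (K.indicator 1) x0) :
    fib W0 ((avoid L).indicator (K.indicator
        (capS A0 kap q s ((l0 ++ L.map Prod.fst) ++ [W']) W'))) x0 ≤
      ENNReal.ofReal (cCons * (kap ^ (Module.finrank ℝ W' - Module.finrank ℝ V)) ^ s) *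
        fib W0 ((avoid L).indicator ({x | ENNReal.ofReal (Real.exp (-1418)) ≤ qq V Kl x}.indicator
          (capS A0 kap q s (l0 ++ L.map Prod.fst) V))) x0 := by
  set l := l0 ++ L.map Prod.fst with hl
  have hLp : (L.map Prod.fst).Pairwise (· < ·) := (List.pairwise_append.mp hL).1
  have hLp0 : ∀ V ∈ L.map Prod.fst, W0 < V := fun V hV => hL0 V (by simp [hV])
  have hchn : Chn L W0 := Chn.of_list hLp hLp0 hD
  have hε10 : 2 * (Real.sqrt 2 * Real.exp (-(q / 4))) ≤ 1 / 10 := hε.trans (by norm_num)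
  have hne : (PB (l ++ [W']) q).Nonempty := PB_nonempty _ hq
  have hregm : MeasurableSet (avoid L) := by
    rw [← reg_sT]
    exact STree.measurableSet_reg _ (valid_sT hchn)
  have hwm : Measurable (dw (s / 8) (PB l q)) := (continuous_dw _ _).measurable
  -- step 1: the tip inequality
  have hF0 : FlatD (1 / 10) W0 (PB (l ++ [W']) q) (PB l0 q) (CB W0 (L.map Prod.fst ++ [W']) q) := by
    rw [hl, List.append_assoc]
    exact flatD_PB hε10 (by norm_num) h1 hW0 hL hL0
  have s1 := cap_tip2 (K := K) (B := PB l q) (B' := PB (l ++ [W']) q) (S := univ) hK hKc hKR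
    (isClosed_PB l q) (convex_PB l q) (isClosed_PB _ q) (convex_PB _ q) hne
    (PB_anti (List.subset_append_left _ _)) isClosed_univ convex_univ
    (by rw [measure_univ]; simpa using ENNReal.ofReal_le_ofReal (by norm_num : (1 - 1 / 40 : ℝ) ≤ 1))
    (a := s / 8) (c := 0) (by positivity) le_rfl (by linarith) (T := sT L) (W0 := W0)
    (valid_sT hchn) (healthy_sT hq hε10 h1 hL hL0 hgood)
    (by
      clear * -
      induction L with
      | nil => trivial
      | cons p L ih => exact ⟨fun _ _ _ => Iff.rfl, fun _ => ih⟩)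
    x0 (P := PB l0 q) (C := CB W0 (L.map Prod.fst ++ [W']) q) hF0
    (PB_anti (List.subset_append_left _ _)) (fun _ _ _ => Iff.rfl)
    ((ENNReal.ofReal_le_ofReal (by norm_num)).trans hroot)
  have ed : dw2 (s / 8) 0 (PB (l ++ [W']) q) univ = dw (s / 8) (PB (l ++ [W']) q) := by
    funext x
    unfold dw2 dw
    rw [zero_mul, add_zero]
  rw [ed, reg_sT] at s1
  -- step 2: from the body to the alive mass
  have hwi : Inv V (dw (s / 8) (PB l q)) := by
    intro x w hw
    unfold dw
    have hcyl : ∀ x, ∀ w ∈ Vᗮ, (x + w ∈ PB l q ↔ x ∈ PB l q) := by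
      intro x w hw
      refine PB_cyl (fun U hU => ?_) x w hw
      rcases List.mem_append.mp hU with h | h
      · exact (h1 U h).trans hV0
      · obtain ⟨p, hp, rfl⟩ := List.mem_map.mp h
        exact hVL p hp
    rw [infDist_add hcyl x hw]
  have hindi : ∀ f : E → ℝ≥0∞, Inv V f → Inv V ((avoid L).indicator f) := by
    intro f hf x w hw
    by_cases hx : x ∈ avoid L
    · rw [indicator_of_mem hx, indicator_of_mem ((hVin x w hw).mpr hx), hf x w hw]
    · rw [indicator_of_notMem hx, indicator_of_notMem (fun h => hx ((hVin x w hw).mp h))]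
  have s2 : fib W0 ((avoid L).indicator (K.indicator (dw (s / 8) (PB l q)))) x0 ≤
      fib W0 ((avoid L).indicator fun x => dw (s / 8) (PB l q) x * qq V Kl x) x0 := by
    have hm : Measurable ((avoid L).indicator (Kl.indicator (dw (s / 8) (PB l q)))) :=
      (hwm.indicator hKl.measurableSet).indicator hregm
    have e1 : fib V ((avoid L).indicator (Kl.indicator (dw (s / 8) (PB l q)))) =
        (avoid L).indicator fun x => dw (s / 8) (PB l q) x * qq V Kl x := by
      funext x
      have e2 : (avoid L).indicator (Kl.indicator (dw (s / 8) (PB l q))) = fun y =>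
          (avoid L).indicator (dw (s / 8) (PB l q)) y * Kl.indicator 1 y := by
        funext y
        by_cases h : y ∈ avoid L
        · rw [indicator_of_mem h, indicator_of_mem h]
          by_cases h' : y ∈ Kl
          · rw [indicator_of_mem h', indicator_of_mem h', Pi.one_apply, mul_one]
          · rw [indicator_of_notMem h', indicator_of_notMem h', mul_zero]
        · rw [indicator_of_notMem h, indicator_of_notMem h, zero_mul]
      rw [e2, fib_mul (hindi _ hwi) (measurable_one.indicator hKl.measurableSet)]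
      by_cases h : x ∈ avoid L
      · rw [indicator_of_mem h, indicator_of_mem h]
        rfl
      · rw [indicator_of_notMem h, indicator_of_notMem h, zero_mul]
    rw [← e1, fib_tower hV0 hm]
    refine fib_mono (fun y => indicator_le_indicator ?_) x0
    exact indicator_le_indicator_of_subset hKK (fun _ => bot_le) y
  -- step 3: the very sick labels
  have hgl : ∀ p ∈ L, ∀ x ∈ p.2, ENNReal.ofReal (4 / 5) ≤ fib p.1 (Kl.indicator 1) x :=
    fun p hp x hx => (hgood p hp x hx).trans
      (fib_mono (fun y => indicator_le_indicator_of_subset hKK (fun _ => bot_le) y) x)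
  have hF1 : FlatD (1 / 41) W0 (PB l q) (PB l0 q) (CB W0 (L.map Prod.fst) q) :=
    flatD_PB hε (by norm_num) h1 hW0 hLp hLp0
  have e3 : (kT L).frz ∩ Kl = Kl := by rw [frz_kT, univ_inter]
  have s3 := qtip_unit (c := s / 8) (w := dw (s / 8) (PB l q)) (V := V) (W0 := W0) (K := Kl)
    (T := kT L) (x0 := x0) (by positivity) (by linarith)
    (weight_dw (isClosed_PB l q) (zero_mem_PB l hq) (by positivity) (by linarith)) hKl hKlc
    (valid_kT hchn) (under_kT hVL) hV0
    (fun y _ => hkq_kT hq hε hs hs1 h1 hLp hLp0 hgl y)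
    (QH.root (by
        rw [e3]
        exact hroot.trans
          (fib_mono (fun y => indicator_le_indicator_of_subset hKK (fun _ => bot_le) y) x0))
      (flatAt_dw hF1 (by norm_num) (by norm_num) (by norm_num) (PB_nonempty _ hq)
        (by positivity) (by linarith) x0))
  rw [reg_kT] at s3
  -- assembling
  set G : Set E := {x | ENNReal.ofReal (Real.exp (-1418)) ≤ qq V Kl x} with hG
  have hGm : MeasurableSet G := measurableSet_le measurable_const (measurable_qq hKl.measurableSet)
  have s4 := s1.trans (mul_le_mul' le_rfl (s2.trans s3))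
  have eL : fib W0 ((avoid L).indicator (K.indicator (capS A0 kap q s (l ++ [W']) W'))) x0 =
      ENNReal.ofReal ((A0 * kap ^ Module.finrank ℝ W') ^ s) *
        fib W0 ((avoid L).indicator (K.indicator (dw (s / 8) (PB (l ++ [W']) q)))) x0 := by
    rw [← fib_mul (inv_const W0 _) (((continuous_dw _ _).measurable.indicator
      hK.measurableSet).indicator hregm)]
    congr 1
    funext y
    by_cases h : y ∈ avoid L
    · rw [indicator_of_mem h, indicator_of_mem h]
      by_cases h' : y ∈ K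
      · rw [indicator_of_mem h', indicator_of_mem h']
        rfl
      · rw [indicator_of_notMem h', indicator_of_notMem h', mul_zero]
    · rw [indicator_of_notMem h, indicator_of_notMem h, mul_zero]
  have eR : fib W0 ((avoid L).indicator (G.indicator (capS A0 kap q s l V))) x0 =
      ENNReal.ofReal ((A0 * kap ^ Module.finrank ℝ V) ^ s) *
        fib W0 ((avoid L).indicator (G.indicator (dw (s / 8) (PB l q)))) x0 := by
    rw [← fib_mul (inv_const W0 _) ((hwm.indicator hGm).indicator hregm)]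
    congr 1
    funext y
    by_cases h : y ∈ avoid L
    · rw [indicator_of_mem h, indicator_of_mem h]
      by_cases h' : y ∈ G
      · rw [indicator_of_mem h', indicator_of_mem h']
        rfl
      · rw [indicator_of_notMem h', indicator_of_notMem h', mul_zero]
    · rw [indicator_of_notMem h, indicator_of_notMem h, mul_zero]
  have h4 : A0 * kap ^ Module.finrank ℝ W' =
      kap ^ (Module.finrank ℝ W' - Module.finrank ℝ V) * (A0 * kap ^ Module.finrank ℝ V) := by
    have : kap ^ Module.finrank ℝ W' =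
        kap ^ (Module.finrank ℝ W' - Module.finrank ℝ V) * kap ^ Module.finrank ℝ V := by
      rw [← pow_add, Nat.sub_add_cancel (Submodule.finrank_mono hVW)]
    rw [this]; ring
  rw [eL, eR, h4, Real.mul_rpow (by positivity) (by positivity),
    ENNReal.ofReal_mul (by positivity)]
  have e5 : ENNReal.ofReal (cCons * (kap ^ (Module.finrank ℝ W' - Module.finrank ℝ V)) ^ s) =
      ENNReal.ofReal ((kap ^ (Module.finrank ℝ W' - Module.finrank ℝ V)) ^ s) *
        (ENNReal.ofReal (2 * Real.exp (2 ^ 11)) * 2) := by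
    rw [show (2 : ℝ≥0∞) = ENNReal.ofReal 2 by norm_num, ← ENNReal.ofReal_mul (by positivity),
      ← ENNReal.ofReal_mul (by positivity)]
    congr 1
    unfold cCons
    ring
  rw [e5]
  calc ENNReal.ofReal ((kap ^ (Module.finrank ℝ W' - Module.finrank ℝ V)) ^ s) *
        ENNReal.ofReal ((A0 * kap ^ Module.finrank ℝ V) ^ s) *
        fib W0 ((avoid L).indicator (K.indicator (dw (s / 8) (PB (l ++ [W']) q)))) x0
      ≤ ENNReal.ofReal ((kap ^ (Module.finrank ℝ W' - Module.finrank ℝ V)) ^ s) *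
        ENNReal.ofReal ((A0 * kap ^ Module.finrank ℝ V) ^ s) *
        (ENNReal.ofReal (2 * Real.exp (2 ^ 11)) *
          (2 * fib W0 ((avoid L).indicator (G.indicator (dw (s / 8) (PB l q)))) x0)) := by
        gcongr
    _ = _ := by ring

/-- **CONS, class at least one, labelwise**: Hölder, with a bound `D` of the mean of `g`. -/
theorem consH {q : ℝ} {ε : ℝ} (hε : 2 * (Real.sqrt 2 * Real.exp (-(q / 4))) ≤ ε) (hε1 : ε ≤ 1 / 2)
    (hq : 0 ≤ q) {A0 kap : ℝ} (hA : 0 < A0) (hk : 0 < kap) {l : List (Submodule ℝ E)}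
    {V W' : Submodule ℝ E} (h1 : ∀ U ∈ l, U ≤ V) (hV : V ∈ l ∨ V = ⊥) (hVW : V < W')
    {s : ℝ} (hs : 0 < s) (hs1 : s < 1) {g : E → ℝ≥0∞} (hg : Measurable g) (x : E) {D : ℝ≥0∞}
    (hD : fib V g x ≤ D) :
    fib V (fun y => capS A0 kap q s (l ++ [W']) W' y * g y ^ (1 - s)) x ≤
      ENNReal.ofReal (2 * (kap ^ (Module.finrank ℝ W' - Module.finrank ℝ V)) ^ s) *
        (capS A0 kap q s l V x * D ^ (1 - s)) := by
  have h := fib_cap_holder (l := l) (l' := [W']) (W := V) (W' := W') (q := q) hε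
    (by linarith) h1 hV (by simp) (by simpa using hVW) hVW.le hA hk hq hs hs1 hg x
  refine h.trans ?_
  have e1 : (ENNReal.ofReal ((1 - ε)⁻¹ * kap ^ (Module.finrank ℝ W' - Module.finrank ℝ V)) *
      capS A0 kap q 1 l V x) ^ s =
      ENNReal.ofReal (((1 - ε)⁻¹ * kap ^ (Module.finrank ℝ W' - Module.finrank ℝ V)) ^ s) *
        capS A0 kap q s l V x := by
    have hpos : 0 < (1 - ε)⁻¹ := inv_pos.mpr (by linarith)
    rw [ENNReal.mul_rpow_of_nonneg _ _ hs.le, capS_rpow hA hk hs.le,
      ENNReal.ofReal_rpow_of_pos (by positivity)]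
  rw [e1, mul_assoc]
  have hinv : (1 - ε)⁻¹ ≤ 2 := by
    rw [inv_le_comm₀ (by linarith) (by norm_num)]
    linarith
  have hinv0 : 0 < (1 - ε)⁻¹ := inv_pos.mpr (by linarith)
  have h5 : ((1 - ε)⁻¹ * kap ^ (Module.finrank ℝ W' - Module.finrank ℝ V)) ^ s ≤
      2 * (kap ^ (Module.finrank ℝ W' - Module.finrank ℝ V)) ^ s := by
    rw [Real.mul_rpow hinv0.le (by positivity)]
    refine mul_le_mul_of_nonneg_right ?_ (by positivity)
    calc (1 - ε)⁻¹ ^ s ≤ 2 ^ s := Real.rpow_le_rpow hinv0.le hinv hs.le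
      _ ≤ 2 ^ (1 : ℝ) := Real.rpow_le_rpow_of_exponent_le (by norm_num) hs1.le
      _ = 2 := Real.rpow_one 2
  gcongr

end Vale.Agent.P262.Cons493
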