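import Vale.Agent.P262.H493.Cons
import Vale.Agent.P262.H654.CF2

/-!
# P262, block REO2: the reopening charge at class 0, at a single time

`ex` of `H654/CF2.lean` charges the first killed or truncated label below a label. If all labels
below which are neither killed nor truncated have class 0, the charge lives on one chain of label
spaces; each level of the chain is paid by the cap weighted tip inequality, directly from the
starting label.
-/

set_option linter.all false

open MeasureTheory ProbabilityTheory Set Filter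
open scoped ENNReal RealInnerProductSpace Topology Classical

namespace Vale.Agent.P262.Cons493

open Vale.Agent.P262.H395 Vale.Agent.P262.H44 Vale.Agent.P262.H606 Vale.Agent.P262.H962
open Vale.Agent.P262.H439 (qq qtip_unit HKQ QH Under measurable_qq qq_le_one inv_qq)
open Vale.Agent.P262.H713 (FT)

variable {E : Type*} [NormedAddCommGroup E] [InnerProductSpace ℝ E] [FiniteDimensional ℝ E]
  [MeasurableSpace E] [BorelSpace E]

/-- health at the nodes of the chain, general further label spaces `N` -/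
lemma healthy_sTN {K : Set E} {q : ℝ} (hq : 0 ≤ q)
    (hε : 2 * (Real.sqrt 2 * Real.exp (-(q / 4))) ≤ 1 / 10) {N : List (Submodule ℝ E)} :
    ∀ {L : List (Submodule ℝ E × Set E)} {l0 : List (Submodule ℝ E)} {W0 : Submodule ℝ E},
    (∀ V ∈ l0, V ≤ W0) → (L.map Prod.fst ++ N).Pairwise (· < ·) →
    (∀ V ∈ L.map Prod.fst ++ N, W0 < V) →
    (∀ p ∈ L, ∀ x ∈ p.2, ENNReal.ofReal (4 / 5) ≤ fib p.1 (K.indicator 1) x) →
    Healthy K (PB (l0 ++ L.map Prod.fst) q) (PB ((l0 ++ L.map Prod.fst) ++ N) q) (sT L)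
  | [], _, _, _, _, _, _ => trivial
  | p :: L, l0, W0, h1, h2, h3, h4 => by
    have e1 : l0 ++ (p :: L).map Prod.fst = (l0 ++ [p.1]) ++ L.map Prod.fst := by simp
    rw [List.map_cons, List.cons_append, List.pairwise_cons] at h2
    have hl : ∀ V ∈ l0 ++ [p.1], V ≤ p.1 := by
      intro V hV
      rcases List.mem_append.mp hV with h | h
      · exact (h1 V h).trans (h3 p.1 (by simp)).le
      · rw [List.mem_singleton.mp h]
    have hF := flatD_PB (q := q) (l := l0 ++ [p.1]) (l' := L.map Prod.fst ++ N) (W := p.1)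
      hε (by norm_num) hl (Or.inl (by simp)) h2.2 h2.1
    rw [e1]
    refine ⟨h4 p (by simp), ⟨PB (l0 ++ [p.1]) q, CB p.1 (L.map Prod.fst ++ N) q, ?_, ?_⟩,
      fun _ => healthy_sTN hq hε hl h2.2 h2.1 fun r hr => h4 r (by simp [hr])⟩
    · rw [List.append_assoc]
      exact hF
    · exact PB_anti (List.subset_append_left _ _)

/-- **CONS, class 0 chain, single time, several levels at once**: the label space of the cap on the
left is any descendant, with the list `N` of label spaces between. -/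
theorem cons0N {K Kl : Set E} (hK : IsClosed K) (hKc : Convex ℝ K) {R : ℝ}
    (hKR : K ⊆ Metric.closedBall 0 R) (hKl : IsClosed Kl) (hKlc : Convex ℝ Kl) (hKK : K ⊆ Kl)
    {q : ℝ} (hq : 0 ≤ q) (hε : 2 * (Real.sqrt 2 * Real.exp (-(q / 4))) ≤ 1 / 41)
    {s : ℝ} (hs : 0 ≤ s) (hs1 : s ≤ 1) {A0 kap : ℝ} (hA : 0 < A0) (hk : 0 < kap)
    {l0 : List (Submodule ℝ E)} {W0 V W' : Submodule ℝ E} {L : List (Submodule ℝ E × Set E)}
    {N : List (Submodule ℝ E)}
    (h1 : ∀ V ∈ l0, V ≤ W0) (hW0 : W0 ∈ l0 ∨ W0 = ⊥)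
    (hL : (L.map Prod.fst ++ N).Pairwise (· < ·)) (hL0 : ∀ V ∈ L.map Prod.fst ++ N, W0 < V)
    (hV0 : W0 ≤ V) (hVL : ∀ p ∈ L, p.1 ≤ V) (hVW : V ≤ W')
    (hVin : InvS V (avoid L))
    (hD : ∀ p ∈ L, MeasurableSet p.2 ∧ InvS p.1 p.2)
    (hgood : ∀ p ∈ L, ∀ x ∈ p.2, ENNReal.ofReal (4 / 5) ≤ fib p.1 (K.indicator 1) x)
    (x0 : E) (hroot : ENNReal.ofReal (2 / 3) ≤ fib W0 (K.indicator 1) x0) :
    fib W0 ((avoid L).indicator (K.indicator
        (capS A0 kap q s ((l0 ++ L.map Prod.fst) ++ N) W'))) x0 ≤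
      ENNReal.ofReal (cCons * (kap ^ (Module.finrank ℝ W' - Module.finrank ℝ V)) ^ s) *
        fib W0 ((avoid L).indicator ({x | ENNReal.ofReal (Real.exp (-1418)) ≤ qq V Kl x}.indicator
          (capS A0 kap q s (l0 ++ L.map Prod.fst) V))) x0 := by
  set l := l0 ++ L.map Prod.fst with hl
  have hLp : (L.map Prod.fst).Pairwise (· < ·) := (List.pairwise_append.mp hL).1
  have hLp0 : ∀ V ∈ L.map Prod.fst, W0 < V := fun V hV => hL0 V (by simp [hV])
  have hchn : Chn L W0 := Chn.of_list hLp hLp0 hD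
  have hε10 : 2 * (Real.sqrt 2 * Real.exp (-(q / 4))) ≤ 1 / 10 := hε.trans (by norm_num)
  have hne : (PB (l ++ N) q).Nonempty := PB_nonempty _ hq
  have hregm : MeasurableSet (avoid L) := by
    rw [← reg_sT]
    exact STree.measurableSet_reg _ (valid_sT hchn)
  have hwm : Measurable (dw (s / 8) (PB l q)) := (continuous_dw _ _).measurable
  -- step 1: the tip inequality
  have hF0 : FlatD (1 / 10) W0 (PB (l ++ N) q) (PB l0 q) (CB W0 (L.map Prod.fst ++ N) q) := by
    rw [hl, List.append_assoc]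
    exact flatD_PB hε10 (by norm_num) h1 hW0 hL hL0
  have s1 := cap_tip2 (K := K) (B := PB l q) (B' := PB (l ++ N) q) (S := univ) hK hKc hKR
    (isClosed_PB l q) (convex_PB l q) (isClosed_PB _ q) (convex_PB _ q) hne
    (PB_anti (List.subset_append_left _ _)) isClosed_univ convex_univ
    (by rw [measure_univ]; simpa using ENNReal.ofReal_le_ofReal (by norm_num : (1 - 1 / 40 : ℝ) ≤ 1))
    (a := s / 8) (c := 0) (by positivity) le_rfl (by linarith) (T := sT L) (W0 := W0)
    (valid_sT hchn) (healthy_sTN hq hε10 h1 hL hL0 hgood)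
    (by
      clear * -
      induction L with
      | nil => trivial
      | cons p L ih => exact ⟨fun _ _ _ => Iff.rfl, fun _ => ih⟩)
    x0 (P := PB l0 q) (C := CB W0 (L.map Prod.fst ++ N) q) hF0
    (PB_anti (List.subset_append_left _ _)) (fun _ _ _ => Iff.rfl)
    ((ENNReal.ofReal_le_ofReal (by norm_num)).trans hroot)
  have ed : dw2 (s / 8) 0 (PB (l ++ N) q) univ = dw (s / 8) (PB (l ++ N) q) := by
    funext x
    unfold dw2 dw
    rw [zero_mul, add_zero]
  rw [ed, reg_sT] at s1
  -- step 2: from the body to the alive mass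
  have hwi : Inv V (dw (s / 8) (PB l q)) := by
    intro x w hw
    unfold dw
    have hcyl : ∀ x, ∀ w ∈ Vᗮ, (x + w ∈ PB l q ↔ x ∈ PB l q) := by
      intro x w hw
      refine PB_cyl (fun U hU => ?_) x w hw
      rcases List.mem_append.mp hU with h | h
      · exact (h1 U h).trans hV0
      · obtain ⟨p, hp, rfl⟩ := List.mem_map.mp h
        exact hVL p hp
    rw [infDist_add hcyl x hw]
  have hindi : ∀ f : E → ℝ≥0∞, Inv V f → Inv V ((avoid L).indicator f) := by
    intro f hf x w hw
    by_cases hx : x ∈ avoid L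
    · rw [indicator_of_mem hx, indicator_of_mem ((hVin x w hw).mpr hx), hf x w hw]
    · rw [indicator_of_notMem hx, indicator_of_notMem (fun h => hx ((hVin x w hw).mp h))]
  have s2 : fib W0 ((avoid L).indicator (K.indicator (dw (s / 8) (PB l q)))) x0 ≤
      fib W0 ((avoid L).indicator fun x => dw (s / 8) (PB l q) x * qq V Kl x) x0 := by
    have hm : Measurable ((avoid L).indicator (Kl.indicator (dw (s / 8) (PB l q)))) :=
      (hwm.indicator hKl.measurableSet).indicator hregm
    have e1 : fib V ((avoid L).indicator (Kl.indicator (dw (s / 8) (PB l q)))) =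
        (avoid L).indicator fun x => dw (s / 8) (PB l q) x * qq V Kl x := by
      funext x
      have e2 : (avoid L).indicator (Kl.indicator (dw (s / 8) (PB l q))) = fun y =>
          (avoid L).indicator (dw (s / 8) (PB l q)) y * Kl.indicator 1 y := by
        funext y
        by_cases h : y ∈ avoid L
        · rw [indicator_of_mem h, indicator_of_mem h]
          by_cases h' : y ∈ Kl
          · rw [indicator_of_mem h', indicator_of_mem h', Pi.one_apply, mul_one]
          · rw [indicator_of_notMem h', indicator_of_notMem h', mul_zero]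
        · rw [indicator_of_notMem h, indicator_of_notMem h, zero_mul]
      rw [e2, fib_mul (hindi _ hwi) (measurable_one.indicator hKl.measurableSet)]
      by_cases h : x ∈ avoid L
      · rw [indicator_of_mem h, indicator_of_mem h]
        rfl
      · rw [indicator_of_notMem h, indicator_of_notMem h, zero_mul]
    rw [← e1, fib_tower hV0 hm]
    refine fib_mono (fun y => indicator_le_indicator ?_) x0
    exact indicator_le_indicator_of_subset hKK (fun _ => bot_le) y
  -- step 3: the very sick labels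
  have hgl : ∀ p ∈ L, ∀ x ∈ p.2, ENNReal.ofReal (4 / 5) ≤ fib p.1 (Kl.indicator 1) x :=
    fun p hp x hx => (hgood p hp x hx).trans
      (fib_mono (fun y => indicator_le_indicator_of_subset hKK (fun _ => bot_le) y) x)
  have hF1 : FlatD (1 / 41) W0 (PB l q) (PB l0 q) (CB W0 (L.map Prod.fst) q) :=
    flatD_PB hε (by norm_num) h1 hW0 hLp hLp0
  have e3 : (kT L).frz ∩ Kl = Kl := by rw [frz_kT, univ_inter]
  have s3 := qtip_unit (c := s / 8) (w := dw (s / 8) (PB l q)) (V := V) (W0 := W0) (K := Kl)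
    (T := kT L) (x0 := x0) (by positivity) (by linarith)
    (weight_dw (isClosed_PB l q) (zero_mem_PB l hq) (by positivity) (by linarith)) hKl hKlc
    (valid_kT hchn) (under_kT hVL) hV0
    (fun y _ => hkq_kT hq hε hs hs1 h1 hLp hLp0 hgl y)
    (QH.root (by
        rw [e3]
        exact hroot.trans
          (fib_mono (fun y => indicator_le_indicator_of_subset hKK (fun _ => bot_le) y) x0))
      (flatAt_dw hF1 (by norm_num) (by norm_num) (by norm_num) (PB_nonempty _ hq)
        (by positivity) (by linarith) x0))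
  rw [reg_kT] at s3
  -- assembling
  set G : Set E := {x | ENNReal.ofReal (Real.exp (-1418)) ≤ qq V Kl x} with hG
  have hGm : MeasurableSet G := measurableSet_le measurable_const (measurable_qq hKl.measurableSet)
  have s4 := s1.trans (mul_le_mul' le_rfl (s2.trans s3))
  have eL : fib W0 ((avoid L).indicator (K.indicator (capS A0 kap q s (l ++ N) W'))) x0 =
      ENNReal.ofReal ((A0 * kap ^ Module.finrank ℝ W') ^ s) *
        fib W0 ((avoid L).indicator (K.indicator (dw (s / 8) (PB (l ++ N) q)))) x0 := by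
    rw [← fib_mul (inv_const W0 _) (((continuous_dw _ _).measurable.indicator
      hK.measurableSet).indicator hregm)]
    congr 1
    funext y
    by_cases h : y ∈ avoid L
    · rw [indicator_of_mem h, indicator_of_mem h]
      by_cases h' : y ∈ K
      · rw [indicator_of_mem h', indicator_of_mem h']
        rfl
      · rw [indicator_of_notMem h', indicator_of_notMem h', mul_zero]
    · rw [indicator_of_notMem h, indicator_of_notMem h, mul_zero]
  have eR : fib W0 ((avoid L).indicator (G.indicator (capS A0 kap q s l V))) x0 =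
      ENNReal.ofReal ((A0 * kap ^ Module.finrank ℝ V) ^ s) *
        fib W0 ((avoid L).indicator (G.indicator (dw (s / 8) (PB l q)))) x0 := by
    rw [← fib_mul (inv_const W0 _) ((hwm.indicator hGm).indicator hregm)]
    congr 1
    funext y
    by_cases h : y ∈ avoid L
    · rw [indicator_of_mem h, indicator_of_mem h]
      by_cases h' : y ∈ G
      · rw [indicator_of_mem h', indicator_of_mem h']
        rfl
      · rw [indicator_of_notMem h', indicator_of_notMem h', mul_zero]
    · rw [indicator_of_notMem h, indicator_of_notMem h, mul_zero]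
  have h4 : A0 * kap ^ Module.finrank ℝ W' =
      kap ^ (Module.finrank ℝ W' - Module.finrank ℝ V) * (A0 * kap ^ Module.finrank ℝ V) := by
    have : kap ^ Module.finrank ℝ W' =
        kap ^ (Module.finrank ℝ W' - Module.finrank ℝ V) * kap ^ Module.finrank ℝ V := by
      rw [← pow_add, Nat.sub_add_cancel (Submodule.finrank_mono hVW)]
    rw [this]; ring
  rw [eL, eR, h4, Real.mul_rpow (by positivity) (by positivity),
    ENNReal.ofReal_mul (by positivity)]
  have e5 : ENNReal.ofReal (cCons * (kap ^ (Module.finrank ℝ W' - Module.finrank ℝ V)) ^ s) =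
      ENNReal.ofReal ((kap ^ (Module.finrank ℝ W' - Module.finrank ℝ V)) ^ s) *
        (ENNReal.ofReal (2 * Real.exp (2 ^ 11)) * 2) := by
    rw [show (2 : ℝ≥0∞) = ENNReal.ofReal 2 by norm_num, ← ENNReal.ofReal_mul (by positivity),
      ← ENNReal.ofReal_mul (by positivity)]
    congr 1
    unfold cCons
    ring
  rw [e5]
  calc ENNReal.ofReal ((kap ^ (Module.finrank ℝ W' - Module.finrank ℝ V)) ^ s) *
        ENNReal.ofReal ((A0 * kap ^ Module.finrank ℝ V) ^ s) *
        fib W0 ((avoid L).indicator (K.indicator (dw (s / 8) (PB (l ++ N) q)))) x0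
      ≤ ENNReal.ofReal ((kap ^ (Module.finrank ℝ W' - Module.finrank ℝ V)) ^ s) *
        ENNReal.ofReal ((A0 * kap ^ Module.finrank ℝ V) ^ s) *
        (ENNReal.ofReal (2 * Real.exp (2 ^ 11)) *
          (2 * fib W0 ((avoid L).indicator (G.indicator (dw (s / 8) (PB l q)))) x0)) := by
        gcongr
    _ = _ := by ring

/-! ### the charge on a chain -/

/-- one node of the chain below a label: label space, `c = M * cap`, killed labels -/
abbrev Nd (E : Type*) [NormedAddCommGroup E] [InnerProductSpace ℝ E] : Type _ :=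
  Submodule ℝ E × (E → ℝ) × Set E

/-- points not killed along the chain -/
def noZ (C : List (Nd E)) : Set E := {x | ∀ a ∈ C, x ∉ a.2.2}

/-- the charge of the chain: at every level the killed points count `1`, the others `3 c`, on the
part of the body which is not killed before -/
noncomputable def exB : List (Nd E) → Set E → E → ℝ≥0∞
  | [], _ => fun _ => 0
  | a :: C, K => fun x =>
      K.indicator (fun x => if x ∈ a.2.2 then 1 else ENNReal.ofReal (3 * a.2.1 x)) x +
        exB C (K ∩ (a.2.2)ᶜ) x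

omit [FiniteDimensional ℝ E] [MeasurableSpace E] [BorelSpace E] in
lemma exB_inter (C : List (Nd E)) (K Z : Set E) {x : E} (hx : x ∈ Z) :
    exB C (K ∩ Z) x = exB C K x := by
  induction C generalizing K with
  | nil => rfl
  | cons a C ih =>
    unfold exB
    have e1 : (K ∩ Z).indicator (fun x => if x ∈ a.2.2 then 1 else ENNReal.ofReal (3 * a.2.1 x)) x =
        K.indicator (fun x => if x ∈ a.2.2 then 1 else ENNReal.ofReal (3 * a.2.1 x)) x := by
      by_cases h : x ∈ K
      · rw [indicator_of_mem h, indicator_of_mem (show x ∈ K ∩ Z from ⟨h, hx⟩)]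
      · rw [indicator_of_notMem h, indicator_of_notMem (fun h' : x ∈ K ∩ Z => h h'.1)]
    have e2 : K ∩ Z ∩ (a.2.2)ᶜ = (K ∩ (a.2.2)ᶜ) ∩ Z := by
      ext y
      simp only [mem_inter_iff]
      tauto
    rw [e1, e2, ih]

lemma measurable_exB {C : List (Nd E)} (hC : ∀ a ∈ C, Measurable a.2.1 ∧ MeasurableSet a.2.2)
    {K : Set E} (hK : MeasurableSet K) : Measurable (exB C K) := by
  induction C generalizing K with
  | nil => exact measurable_const
  | cons a C ih =>
    obtain ⟨h1, h2⟩ := hC a (by simp)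
    refine Measurable.add ?_ (ih (fun b hb => hC b (by simp [hb])) (hK.inter h2.compl))
    exact (Measurable.ite h2 measurable_const
      (ENNReal.measurable_ofReal.comp (h1.const_mul 3))).indicator hK

/-- geometric sums along increasing label spaces -/
lemma sum_geo {kap s : ℝ} (hk : 0 < kap) (hk1 : kap ^ s ≤ 1 / 2) (hs : 0 ≤ s) (v : ℕ) :
    ∀ {C : List (Nd E)} {u : ℕ}, (C.map Prod.fst).Pairwise (· < ·) →
    (∀ a ∈ C, u ≤ Module.finrank ℝ a.1) → v ≤ u →
    (C.map fun a => (kap ^ (Module.finrank ℝ a.1 - v)) ^ s).sum ≤ 2 * (kap ^ (u - v)) ^ s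
  | [], u, _, _, _ => by
    simp only [List.map_nil, List.sum_nil]
    positivity
  | a :: C, u, h1, h2, h3 => by
    rw [List.map_cons, List.pairwise_cons] at h1
    have hkle : kap ^ s ≤ 1 := hk1.trans (by norm_num)
    have hu : u ≤ Module.finrank ℝ a.1 := h2 a (by simp)
    have e : ∀ n : ℕ, (kap ^ n) ^ s = (kap ^ s) ^ n := by
      intro n
      rw [← Real.rpow_natCast, ← Real.rpow_natCast, ← Real.rpow_mul hk.le, ← Real.rpow_mul hk.le,
        mul_comm]
    have ih := sum_geo hk hk1 hs v (C := C) (u := Module.finrank ℝ a.1 + 1) h1.2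
      (fun b hb => Submodule.finrank_lt_finrank_of_lt (h1.1 b.1 (List.mem_map_of_mem hb)))
      (by omega)
    rw [List.map_cons, List.sum_cons]
    have h4 : (kap ^ (Module.finrank ℝ a.1 - v)) ^ s ≤ (kap ^ (u - v)) ^ s := by
      rw [e, e]
      exact pow_le_pow_of_le_one (by positivity) hkle (by omega)
    have h5 : (kap ^ (Module.finrank ℝ a.1 + 1 - v)) ^ s ≤
        1 / 2 * (kap ^ (Module.finrank ℝ a.1 - v)) ^ s := by
      rw [e, e, show Module.finrank ℝ a.1 + 1 - v = (Module.finrank ℝ a.1 - v) + 1 by omega,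
        pow_succ, mul_comm]
      exact mul_le_mul_of_nonneg_right hk1 (by positivity)
    linarith

section chain

variable {A0 kap q s M b0 κ : ℝ} {l0 : List (Submodule ℝ E)} {W0 V : Submodule ℝ E}
  {L : List (Submodule ℝ E × Set E)}

/-- the data of one node of the chain relative to the caps: killed labels have cap at least `b0`,
the others have `c ≤ M * cap` and cap at most `b0` -/
def CapOK (A0 kap q M b0 : ℝ) : List (Submodule ℝ E) → List (Nd E) → Prop
  | _, [] => True
  | l, a :: C =>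
      (∀ x, x ∈ a.2.2 → ENNReal.ofReal b0 ≤ capS A0 kap q 1 (l ++ [a.1]) a.1 x) ∧
      (∀ x, x ∉ a.2.2 → ENNReal.ofReal (a.2.1 x) ≤
        ENNReal.ofReal M * capS A0 kap q 1 (l ++ [a.1]) a.1 x) ∧
      (∀ x, x ∉ a.2.2 → capS A0 kap q 1 (l ++ [a.1]) a.1 x ≤ ENNReal.ofReal b0) ∧
      CapOK A0 kap q M b0 (l ++ [a.1]) C

/-- the constant of the charge -/
noncomputable def kR (s M b0 : ℝ) : ℝ := (1 / b0) ^ s + 3 * M * b0 ^ (1 - s)

lemma kR_nonneg (hM : 0 ≤ M) (hb : 0 < b0) : 0 ≤ kR s M b0 := by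
  unfold kR
  positivity

lemma node_le (hA : 0 < A0) (hk : 0 < kap) (hb : 0 < b0) (hM : 0 ≤ M) (hs : 0 ≤ s) (hs1 : s ≤ 1)
    {l : List (Submodule ℝ E)} {a : Nd E} {x : E}
    (h1 : x ∈ a.2.2 → ENNReal.ofReal b0 ≤ capS A0 kap q 1 l a.1 x)
    (h2 : x ∉ a.2.2 → ENNReal.ofReal (a.2.1 x) ≤ ENNReal.ofReal M * capS A0 kap q 1 l a.1 x)
    (h3 : x ∉ a.2.2 → capS A0 kap q 1 l a.1 x ≤ ENNReal.ofReal b0) :
    (if x ∈ a.2.2 then 1 else ENNReal.ofReal (3 * a.2.1 x)) ≤
      ENNReal.ofReal (kR s M b0) * capS A0 kap q s l a.1 x := by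
  rw [← capS_rpow hA hk hs]
  have hkR : kR s M b0 = (1 / b0) ^ s + 3 * M * b0 ^ (1 - s) := rfl
  split_ifs with h
  · have h4 : ENNReal.ofReal b0 ^ s ≤ capS A0 kap q 1 l a.1 x ^ s :=
      ENNReal.rpow_le_rpow (h1 h) hs
    calc (1 : ℝ≥0∞) = ENNReal.ofReal ((1 / b0) ^ s) * ENNReal.ofReal b0 ^ s := by
          rw [ENNReal.ofReal_rpow_of_pos hb, ← ENNReal.ofReal_mul (by positivity),
            ← Real.mul_rpow (by positivity) hb.le]
          rw [one_div_mul_cancel hb.ne', Real.one_rpow, ENNReal.ofReal_one]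
      _ ≤ ENNReal.ofReal (kR s M b0) * capS A0 kap q 1 l a.1 x ^ s := by
          refine mul_le_mul' (ENNReal.ofReal_le_ofReal ?_) h4
          rw [hkR]
          have : 0 ≤ 3 * M * b0 ^ (1 - s) := by positivity
          linarith
  · set A := capS A0 kap q 1 l a.1 x with hAd
    have h5 : A ≤ ENNReal.ofReal b0 := h3 h
    have hAtop : A ≠ ⊤ := ne_top_of_le_ne_top ENNReal.ofReal_ne_top h5
    have h6 : A = A ^ (1 - s) * A ^ s := by
      by_cases hA0' : A = 0
      · rw [hA0']
        rcases hs.eq_or_lt with h0 | h0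
        · rw [← h0, sub_zero, ENNReal.rpow_one, zero_mul]
        · rw [ENNReal.zero_rpow_of_pos h0, mul_zero]
      · rw [← ENNReal.rpow_add _ _ hA0' hAtop, sub_add_cancel, ENNReal.rpow_one]
    rw [ENNReal.ofReal_mul (by norm_num)]
    calc ENNReal.ofReal 3 * ENNReal.ofReal (a.2.1 x) ≤ ENNReal.ofReal 3 * (ENNReal.ofReal M * A) := by
          gcongr
          exact h2 h
      _ = ENNReal.ofReal (3 * M) * (A ^ (1 - s) * A ^ s) := by
          rw [← h6, ENNReal.ofReal_mul (by norm_num), mul_assoc]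
      _ ≤ ENNReal.ofReal (3 * M) * (ENNReal.ofReal (b0 ^ (1 - s)) * A ^ s) := by
          gcongr
          rw [← ENNReal.ofReal_rpow_of_pos hb]
          exact ENNReal.rpow_le_rpow h5 (by linarith)
      _ = ENNReal.ofReal (3 * M * b0 ^ (1 - s)) * A ^ s := by
          rw [← mul_assoc, ← ENNReal.ofReal_mul (by positivity)]
      _ ≤ ENNReal.ofReal (kR s M b0) * A ^ s := by
          gcongr
          rw [hkR]
          have : 0 ≤ (1 / b0) ^ s := by positivity
          linarith

/-- **REO2, class 0, single time**: sum form. -/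
theorem reo0_sum {Kl : Set E} (hKl : IsClosed Kl) (hKlc : Convex ℝ Kl) {R : ℝ}
    (hq : 0 ≤ q) (hε : 2 * (Real.sqrt 2 * Real.exp (-(q / 4))) ≤ 1 / 41)
    (hs : 0 ≤ s) (hs1 : s ≤ 1) (hA : 0 < A0) (hk : 0 < kap) (hb : 0 < b0) (hM : 0 ≤ M)
    (h1 : ∀ V ∈ l0, V ≤ W0) (hW0 : W0 ∈ l0 ∨ W0 = ⊥)
    (hV0 : W0 ≤ V) (hVL : ∀ p ∈ L, p.1 ≤ V) (hVin : InvS V (avoid L))
    (hD : ∀ p ∈ L, MeasurableSet p.2 ∧ InvS p.1 p.2) (x0 : E) :
    ∀ {C : List (Nd E)} {N : List (Submodule ℝ E)} {K : Set E}, IsClosed K → Convex ℝ K →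
    K ⊆ Metric.closedBall 0 R → K ⊆ Kl →
    (∀ a ∈ C, V ≤ a.1) →
    ((L.map Prod.fst) ++ (N ++ C.map Prod.fst)).Pairwise (· < ·) →
    (∀ V ∈ L.map Prod.fst ++ (N ++ C.map Prod.fst), W0 < V) →
    (∀ a ∈ C, Measurable a.2.1 ∧ IsClosed (a.2.2)ᶜ ∧ Convex ℝ (a.2.2)ᶜ) →
    CapOK A0 kap q M b0 ((l0 ++ L.map Prod.fst) ++ N) C →
    (∀ p ∈ L, ∀ x ∈ p.2, ENNReal.ofReal (4 / 5) ≤ fib p.1 ((K ∩ noZ C).indicator 1) x) →
    ENNReal.ofReal (2 / 3) ≤ fib W0 ((K ∩ noZ C).indicator 1) x0 →
    fib W0 ((avoid L).indicator (exB C K)) x0 ≤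
      ENNReal.ofReal (kR s M b0 * cCons *
        (C.map fun a => (kap ^ (Module.finrank ℝ a.1 - Module.finrank ℝ V)) ^ s).sum) *
        fib W0 ((avoid L).indicator ({x | ENNReal.ofReal (Real.exp (-1418)) ≤ qq V Kl x}.indicator
          (capS A0 kap q s (l0 ++ L.map Prod.fst) V))) x0
  | [], N, K, _, _, _, _, _, _, _, _, _, _, _ => by
    have e : (avoid L).indicator (exB ([] : List (Nd E)) K) = fun _ => (0 : ℝ≥0∞) := by
      funext x
      unfold exB
      simp
    rw [e, fib_const]
    exact bot_le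
  | a :: C, N, K, hK, hKc, hKR, hKK, hVC, hP, hP0, hZ, hcap, hgood, hroot => by
    obtain ⟨c1, c2, c3, c4⟩ := hcap
    obtain ⟨m1, z1, z2⟩ := hZ a (by simp)
    have hZm : MeasurableSet a.2.2 := by simpa using z1.measurableSet.compl
    have hchn : MeasurableSet (avoid L) := by
      rw [← reg_sT]
      refine STree.measurableSet_reg _ (valid_sT (W0 := W0) (Chn.of_list ?_ ?_ hD))
      · exact (List.pairwise_append.mp hP).1
      · exact fun V hV => hP0 V (by simp [hV])
    -- the recursive call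
    have eN : (N ++ [a.1]) ++ C.map Prod.fst = N ++ (a :: C).map Prod.fst := by simp
    have eK : K ∩ (a.2.2)ᶜ ∩ noZ C = K ∩ noZ (a :: C) := by
      ext y
      simp only [noZ, mem_inter_iff, mem_compl_iff, mem_setOf_eq, List.mem_cons,
        forall_eq_or_imp]
      tauto
    have ih := reo0_sum hKl hKlc (R := R) hq hε hs hs1 hA hk hb hM h1 hW0 hV0 hVL hVin hD x0 (C := C)
      (N := N ++ [a.1]) (K := K ∩ (a.2.2)ᶜ) (hK.inter z1) (hKc.inter z2)
      (inter_subset_left.trans hKR) (inter_subset_left.trans hKK) (fun b hb => hVC b (by simp [hb]))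
      (by rw [eN]; exact hP) (by rw [eN]; exact hP0) (fun b hb => hZ b (by simp [hb]))
      (by rw [← List.append_assoc]; exact c4) (by rw [eK]; exact hgood) (by rw [eK]; exact hroot)
    -- the first node
    have hsub : K ∩ noZ (a :: C) ⊆ K := inter_subset_left
    have hN1 : ((L.map Prod.fst) ++ (N ++ [a.1])).Pairwise (· < ·) := by
      refine hP.sublist (List.Sublist.append_left (List.Sublist.append_left ?_ _) _)
      simp
    have hN0 : ∀ V ∈ L.map Prod.fst ++ (N ++ [a.1]), W0 < V := by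
      intro U hU
      refine hP0 U ?_
      simp only [List.mem_append, List.map_cons, List.mem_cons, List.not_mem_nil, or_false] at hU ⊢
      tauto
    have key := cons0N (K := K) (Kl := Kl) hK hKc hKR hKl hKlc hKK hq hε hs hs1 hA hk
      (l0 := l0) (W0 := W0) (V := V) (W' := a.1) (L := L) (N := N ++ [a.1]) h1 hW0 hN1 hN0 hV0 hVL
      (hVC a (by simp)) hVin hD
      (fun p hp x hx => (hgood p hp x hx).trans
        (fib_mono (fun y => indicator_le_indicator_of_subset hsub (fun _ => bot_le) y) x))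
      x0 (hroot.trans
        (fib_mono (fun y => indicator_le_indicator_of_subset hsub (fun _ => bot_le) y) x0))
    have hfirst : fib W0 ((avoid L).indicator (K.indicator fun x =>
        if x ∈ a.2.2 then 1 else ENNReal.ofReal (3 * a.2.1 x))) x0 ≤
        ENNReal.ofReal (kR s M b0) * fib W0 ((avoid L).indicator (K.indicator
        (capS A0 kap q s ((l0 ++ L.map Prod.fst) ++ (N ++ [a.1])) a.1))) x0 := by
      rw [← fib_mul (inv_const W0 _) ((measurable_capS.indicator hK.measurableSet).indicator hchn)]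
      refine fib_mono (fun y => ?_) x0
      by_cases h : y ∈ avoid L
      · rw [indicator_of_mem h, indicator_of_mem h]
        by_cases h' : y ∈ K
        · rw [indicator_of_mem h', indicator_of_mem h']
          have e0 : (l0 ++ L.map Prod.fst) ++ (N ++ [a.1]) =
              ((l0 ++ L.map Prod.fst) ++ N) ++ [a.1] := by rw [List.append_assoc _ N]
          rw [e0]
          exact node_le hA hk hb hM hs hs1 (c1 y) (c2 y) (c3 y)
        · rw [indicator_of_notMem h', indicator_of_notMem h', mul_zero]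
      · rw [indicator_of_notMem h, indicator_of_notMem h, mul_zero]
    have hsplit : fib W0 ((avoid L).indicator (exB (a :: C) K)) x0 =
        fib W0 ((avoid L).indicator (K.indicator fun x =>
          if x ∈ a.2.2 then 1 else ENNReal.ofReal (3 * a.2.1 x))) x0 +
        fib W0 ((avoid L).indicator (exB C (K ∩ (a.2.2)ᶜ))) x0 := by
      have hm : Measurable ((avoid L).indicator (K.indicator fun x =>
          if x ∈ a.2.2 then 1 else ENNReal.ofReal (3 * a.2.1 x))) :=
        ((Measurable.ite hZm measurable_const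
          (ENNReal.measurable_ofReal.comp (m1.const_mul 3))).indicator hK.measurableSet).indicator hchn
      rw [← fib_add hm]
      congr 1
      funext y
      by_cases h : y ∈ avoid L
      · rw [indicator_of_mem h, indicator_of_mem h, indicator_of_mem h]
        rfl
      · rw [indicator_of_notMem h, indicator_of_notMem h, indicator_of_notMem h, add_zero]
    rw [hsplit]
    have hk0 := kR_nonneg (s := s) hM hb
    have hsum : 0 ≤ (C.map fun a => (kap ^ (Module.finrank ℝ a.1 - Module.finrank ℝ V)) ^ s).sum :=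
      List.sum_nonneg (by
        intro r hr
        obtain ⟨b, _, rfl⟩ := List.mem_map.mp hr
        positivity)
    set RHS := fib W0 ((avoid L).indicator ({x | ENNReal.ofReal (Real.exp (-1418)) ≤ qq V Kl x}.indicator
          (capS A0 kap q s (l0 ++ L.map Prod.fst) V))) x0 with hRHS
    calc _ ≤ ENNReal.ofReal (kR s M b0) *
          (ENNReal.ofReal (cCons * (kap ^ (Module.finrank ℝ a.1 - Module.finrank ℝ V)) ^ s) * RHS) +
          ENNReal.ofReal (kR s M b0 * cCons *
            (C.map fun a => (kap ^ (Module.finrank ℝ a.1 - Module.finrank ℝ V)) ^ s).sum) * RHS :=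
          add_le_add (hfirst.trans (mul_le_mul' le_rfl key)) ih
      _ = _ := by
          rw [← mul_assoc, ← ENNReal.ofReal_mul hk0, ← add_mul,
            ← ENNReal.ofReal_add (by have := cCons_pos; positivity)
              (by have := cCons_pos; positivity), List.map_cons, List.sum_cons]
          congr 2
          ring

/-- **REO2, class 0, single time**: closed form, `u` a lower bound of the dimensions of the chain. -/
theorem reo0 {Kl : Set E} (hKl : IsClosed Kl) (hKlc : Convex ℝ Kl) {R : ℝ}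
    (hq : 0 ≤ q) (hε : 2 * (Real.sqrt 2 * Real.exp (-(q / 4))) ≤ 1 / 41)
    (hs : 0 ≤ s) (hs1 : s ≤ 1) (hA : 0 < A0) (hk : 0 < kap) (hk1 : kap ^ s ≤ 1 / 2) (hb : 0 < b0)
    (hM : 0 ≤ M)
    (h1 : ∀ V ∈ l0, V ≤ W0) (hW0 : W0 ∈ l0 ∨ W0 = ⊥)
    (hV0 : W0 ≤ V) (hVL : ∀ p ∈ L, p.1 ≤ V) (hVin : InvS V (avoid L))
    (hD : ∀ p ∈ L, MeasurableSet p.2 ∧ InvS p.1 p.2) (x0 : E)
    {C : List (Nd E)} {K : Set E} (hK : IsClosed K) (hKc : Convex ℝ K)
    (hKR : K ⊆ Metric.closedBall 0 R) (hKK : K ⊆ Kl)
    (hVC : ∀ a ∈ C, V ≤ a.1)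
    (hP : ((L.map Prod.fst) ++ C.map Prod.fst).Pairwise (· < ·))
    (hP0 : ∀ V ∈ L.map Prod.fst ++ C.map Prod.fst, W0 < V)
    (hZ : ∀ a ∈ C, Measurable a.2.1 ∧ IsClosed (a.2.2)ᶜ ∧ Convex ℝ (a.2.2)ᶜ)
    (hcap : CapOK A0 kap q M b0 (l0 ++ L.map Prod.fst) C)
    (hgood : ∀ p ∈ L, ∀ x ∈ p.2, ENNReal.ofReal (4 / 5) ≤ fib p.1 ((K ∩ noZ C).indicator 1) x)
    (hroot : ENNReal.ofReal (2 / 3) ≤ fib W0 ((K ∩ noZ C).indicator 1) x0)
    {u : ℕ} (hu : ∀ a ∈ C, u ≤ Module.finrank ℝ a.1) (huV : Module.finrank ℝ V ≤ u) :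
    fib W0 ((avoid L).indicator (exB C K)) x0 ≤
      ENNReal.ofReal (2 * kR s M b0 * cCons * (kap ^ (u - Module.finrank ℝ V)) ^ s) *
        fib W0 ((avoid L).indicator ({x | ENNReal.ofReal (Real.exp (-1418)) ≤ qq V Kl x}.indicator
          (capS A0 kap q s (l0 ++ L.map Prod.fst) V))) x0 := by
  have key := reo0_sum (N := []) (C := C) (K := K) hKl hKlc hq hε hs hs1 hA hk hb hM h1 hW0 hV0
    hVL hVin hD x0 hK hKc hKR hKK hVC (by simpa using hP) (by simpa using hP0) hZ
    (by simpa using hcap) hgood hroot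
  refine key.trans (mul_le_mul' (ENNReal.ofReal_le_ofReal ?_) le_rfl)
  have h2 := sum_geo (E := E) hk hk1 hs (Module.finrank ℝ V) (C := C) (u := u)
    (List.pairwise_append.mp hP).2.1 hu huV
  have h3 : 0 ≤ kR s M b0 * cCons := mul_nonneg (kR_nonneg hM hb) cCons_pos.le
  calc kR s M b0 * cCons *
        (C.map fun a => (kap ^ (Module.finrank ℝ a.1 - Module.finrank ℝ V)) ^ s).sum
      ≤ kR s M b0 * cCons * (2 * (kap ^ (u - Module.finrank ℝ V)) ^ s) :=
        mul_le_mul_of_nonneg_left h2 h3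
    _ = _ := by ring

end chain

/-! ### the chain of a field tree -/

variable {ι : Type*}

/-- the class 0 chain of a field tree -/
def zch : FT E ι → List (Nd E)
  | .leaf _ => []
  | .node W c Z _ T => (W, c, Z) :: zch (T 0)

/-- all labels on the path of `x` which are neither killed nor truncated have class 0 -/
def PZ : FT E ι → (ι → E → ℝ) → E → Prop
  | .leaf _, _, _ => True
  | .node W c Z cls T, g, x => x ∉ Z → 1 / 8 ≤ FT.val W cls T g x → cls x = 0 ∧ PZ (T 0) g x

/-- the charge of a tree is at most the charge of its class 0 chain -/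
theorem ex_le_exB : ∀ {t : FT E ι} {g : ι → E → ℝ} {K : Set E} {x : E}, PZ t g x →
    (x ∉ K → FT.pay t g x = 1) → 0 ≤ FT.pay t g x →
    (∀ a ∈ zch t, 0 ≤ a.2.1 x) →
    ENNReal.ofReal (CF2.ex t g x) ≤ exB (zch t) K x
  | .leaf i, g, K, x, _, _, _, _ => by
    simp [CF2.ex]
  | .node W c Z cls T, g, K, x, hP, hK, h0, hc => by
    rw [CF2.ex_node]
    have hc0 : 0 ≤ c x := hc (W, c, Z) (by simp [zch])
    have hpay : FT.pay (.node W c Z cls T) g x = FT.pay (T (cls x)) g x := rfl
    have h1 : ENNReal.ofReal (1 - FT.pay (T (cls x)) g x) ≤ K.indicator 1 x := by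
      rw [← hpay]
      by_cases h : x ∈ K
      · rw [indicator_of_mem h, Pi.one_apply, ENNReal.ofReal_le_one]
        linarith
      · rw [hK h, sub_self, ENNReal.ofReal_zero]
        exact bot_le
    show _ ≤ K.indicator (fun x => if x ∈ Z then 1 else ENNReal.ofReal (3 * c x)) x +
      exB (zch (T 0)) (K ∩ Zᶜ) x
    split_ifs with hx hv
    · refine h1.trans (le_trans (le_of_eq ?_) le_self_add)
      by_cases h : x ∈ K
      · rw [indicator_of_mem h, indicator_of_mem h, if_pos hx]
        rfl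
      · rw [indicator_of_notMem h, indicator_of_notMem h]
    · refine le_trans ?_ le_self_add
      rw [ENNReal.ofReal_mul (by positivity)]
      refine (mul_le_mul' le_rfl h1).trans (le_of_eq ?_)
      by_cases h : x ∈ K
      · rw [indicator_of_mem h, indicator_of_mem h, if_neg hx, Pi.one_apply, mul_one]
      · rw [indicator_of_notMem h, indicator_of_notMem h, mul_zero]
    · obtain ⟨h2, h3⟩ := hP hx (not_lt.mp hv)
      rw [h2]
      refine le_trans ?_ le_add_self
      rw [exB_inter (zch (T 0)) K Zᶜ (show x ∈ Zᶜ from hx)]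
      rw [hpay, h2] at hK h0
      exact ex_le_exB h3 hK h0 fun a ha => hc a (by simp [zch, ha])

end Vale.Agent.P262.Cons493
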