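import Vale.Agent.P262.H395.CW5
import Vale.Agent.P262.H493.Reo

/-!
# P262, milestone 2, blocks REO and CONV: the charge of the class 0 chain below a label of class 0,
at one state, on class paths, integrated over all labels
-/

set_option linter.all false

open MeasureTheory ProbabilityTheory Set Filter
open scoped ENNReal RealInnerProductSpace Topology Classical

namespace Vale.Agent.P262.Cons493

open Vale.Agent.P262.H395 Vale.Agent.P262.H44 Vale.Agent.P262.H606 Vale.Agent.P262.H962
open Vale.Agent.P262.H439 (qq qtip_unit HKQ QH Under measurable_qq qq_le_one inv_qq)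
open Vale.Agent.P262.H713 (FT)
open Vale.Agent.P262.H395.CW (pl chf chn nk unk SI OMp OMc Lab pl_append map_chn chf_pairwise chf_gt
  mem_chf mem_chn mem_chn_of mem_pl_or exists_chain isClosed_unk convex_unk measurableSet_nk inv_nk
  nk_append nk_cons nk_nil nk_anti cap_le_of_nk capS_nil health_unk int_fib_le inv_ind OMp_anti
  unk_cons)

variable {E : Type*} [NormedAddCommGroup E] [InnerProductSpace ℝ E] [FiniteDimensional ℝ E]
  [MeasurableSpace E] [BorelSpace E]

/-! ### the chain below a node -/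

/-- the class 0 chain below the node `p` -/
def zl (W : List ℕ → Submodule ℝ E) (c : List ℕ → E → ℝ) (Z : List ℕ → Set E) :
    ℕ → List ℕ → List (Nd E)
  | 0, _ => []
  | n + 1, p => (W (0 :: p), c (0 :: p), Z (0 :: p)) :: zl W c Z n (0 :: p)

section chain

variable {W : List ℕ → Submodule ℝ E} {c : List ℕ → E → ℝ} {Z Z' : List ℕ → Set E}

omit [FiniteDimensional ℝ E] [MeasurableSpace E] [BorelSpace E]

lemma rep_cons (n : ℕ) (p : List ℕ) :
    List.replicate n 0 ++ (0 :: p) = List.replicate (n + 1) 0 ++ p := by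
  rw [show (0 : ℕ) :: p = [0] ++ p from rfl, ← List.append_assoc]
  congr 1
  exact (List.replicate_succ' (n := n) (a := 0)).symm

lemma chf_snoc (a : List ℕ) (d : ℕ) : ∀ s : List ℕ,
    chf W a (s ++ [d]) = W (d :: a) :: chf W (d :: a) s
  | [] => by simp [chf]
  | e :: s => by
    rw [List.cons_append, chf, chf_snoc a d s, chf, List.cons_append]
    congr 3
    simp

lemma chf_append (a : List ℕ) (s : List ℕ) : ∀ t : List ℕ,
    chf W a (t ++ s) = chf W a s ++ chf W (s ++ a) t
  | [] => by simp [chf]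
  | e :: t => by
    rw [List.cons_append, chf, chf_append a s t, chf, List.append_assoc]
    congr 3
    rw [List.append_assoc]

lemma map_zl : ∀ (n : ℕ) (p : List ℕ),
    (zl W c Z n p).map Prod.fst = chf W p (List.replicate n 0)
  | 0, p => rfl
  | n + 1, p => by
    rw [zl, List.map_cons, map_zl n (0 :: p),
      show List.replicate (n + 1) 0 = List.replicate n 0 ++ [0] from List.replicate_succ' (n := n) (a := 0),
      chf_snoc]

lemma mem_zl : ∀ {n : ℕ} {p : List ℕ} {a : Nd E}, a ∈ zl W c Z n p →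
    ∃ r, (0 :: p) <:+ r ∧ r <:+ List.replicate n 0 ++ p ∧ a = (W r, c r, Z r)
  | 0, p, a, h => by simp [zl] at h
  | n + 1, p, a, h => by
    rw [zl, List.mem_cons] at h
    rcases h with rfl | h
    · refine ⟨0 :: p, List.suffix_refl _, ?_, rfl⟩
      rw [← rep_cons]
      exact List.suffix_append _ _
    · obtain ⟨r, h1, h2, h3⟩ := mem_zl h
      refine ⟨r, (List.suffix_cons 0 (0 :: p)).trans h1, ?_, h3⟩
      rw [← rep_cons]
      exact h2

/-- the charge vanishes off the body -/
lemma exB_off : ∀ {C : List (Nd E)} {K : Set E} {x : E}, x ∉ K → exB C K x = 0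
  | [], _, _, _ => rfl
  | a :: C, K, x, h => by
    unfold exB
    rw [indicator_of_notMem h, exB_off (fun h' : x ∈ K ∩ (a.2.2)ᶜ => h h'.1), add_zero]

/-- killed sets may be replaced by sets which agree on the points not killed before -/
lemma exB_zl_congr {N : List ℕ → Set E} (hN : ∀ r, N (0 :: r) ⊆ N r)
    (hZ : ∀ r x, x ∈ N r → (x ∈ Z (0 :: r) ↔ x ∈ Z' (0 :: r)))
    (hZN : ∀ r x, x ∈ N r → x ∉ Z (0 :: r) → x ∈ N (0 :: r)) :
    ∀ (n : ℕ) (p : List ℕ) (K : Set E) (x : E), x ∈ N p →
    exB (zl W c Z n p) K x = exB (zl W c Z' n p) K x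
  | 0, p, K, x, _ => rfl
  | n + 1, p, K, x, hx => by
    show K.indicator (fun x => if x ∈ Z (0 :: p) then 1 else ENNReal.ofReal (3 * c (0 :: p) x)) x +
        exB (zl W c Z n (0 :: p)) (K ∩ (Z (0 :: p))ᶜ) x =
      K.indicator (fun x => if x ∈ Z' (0 :: p) then 1 else ENNReal.ofReal (3 * c (0 :: p) x)) x +
        exB (zl W c Z' n (0 :: p)) (K ∩ (Z' (0 :: p))ᶜ) x
    have h1 := hZ p x hx
    congr 1
    · by_cases hK : x ∈ K
      · rw [indicator_of_mem hK, indicator_of_mem hK]
        simp only [h1]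
      · rw [indicator_of_notMem hK, indicator_of_notMem hK]
    · by_cases hz : x ∈ Z (0 :: p)
      · rw [exB_off (fun h : x ∈ K ∩ (Z (0 :: p))ᶜ => h.2 hz),
          exB_off (fun h : x ∈ K ∩ (Z' (0 :: p))ᶜ => h.2 (h1.mp hz))]
      · have hz' : x ∉ Z' (0 :: p) := fun h => hz (h1.mpr h)
        rw [exB_inter _ K _ (show x ∈ (Z (0 :: p))ᶜ from hz),
          exB_inter _ K _ (show x ∈ (Z' (0 :: p))ᶜ from hz')]
        exact exB_zl_congr hN hZ hZN n (0 :: p) K x (hZN p x hx hz)

end chain

section caps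

variable {W : List ℕ → Submodule ℝ E} {c : List ℕ → E → ℝ} {A0 kap q M b0 th : ℝ}

/-- labels killed at their own level -/
def Zo (W : List ℕ → Submodule ℝ E) (A0 kap q b0 : ℝ) (r : List ℕ) : Set E :=
  {x | ENNReal.ofReal b0 < capS A0 kap q 1 (pl W r) (W r) x}

lemma Zo_compl (r : List ℕ) : (Zo W A0 kap q b0 r)ᶜ =
    {x | capS A0 kap q 1 (pl W r) (W r) x ≤ ENNReal.ofReal b0} := by
  ext x
  simp [Zo]

lemma isClosed_Zo (r : List ℕ) : IsClosed (Zo W A0 kap q b0 r)ᶜ := by
  rw [Zo_compl]; exact isClosed_capS_le _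

lemma convex_Zo (hq : 0 ≤ q) (hA : 0 < A0) (hk : 0 < kap) (r : List ℕ) :
    Convex ℝ (Zo W A0 kap q b0 r)ᶜ := by
  rw [Zo_compl]; exact convex_capS_le hq one_pos hA hk _

lemma capOK_zl (hc : ∀ r x, ENNReal.ofReal (c r x) ≤
      ENNReal.ofReal M * capS A0 kap q 1 (pl W r) (W r) x) : ∀ (n : ℕ) (p : List ℕ),
    CapOK A0 kap q M b0 (pl W p) (zl W c (Zo W A0 kap q b0) n p)
  | 0, p => trivial
  | n + 1, p => by
    refine ⟨fun x hx => ?_, fun x _ => ?_, fun x hx => ?_, ?_⟩
    · exact (show ENNReal.ofReal b0 < _ from hx).le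
    · exact hc (0 :: p) x
    · exact not_lt.mp hx
    · exact capOK_zl hc n (0 :: p)

lemma noZ_zl (n : ℕ) : ∀ p : List ℕ,
    nk W A0 kap q (ENNReal.ofReal b0) p ∩ noZ (zl W c (Zo W A0 kap q b0) n p) =
      nk W A0 kap q (ENNReal.ofReal b0) (List.replicate n 0 ++ p) := by
  induction n with
  | zero => intro p; ext x; simp [noZ, zl]
  | succ n ih =>
    intro p
    have h := ih (0 :: p)
    rw [rep_cons] at h
    rw [← h, nk_cons]
    ext x
    simp only [noZ, zl, mem_inter_iff, mem_setOf_eq, List.mem_cons, forall_eq_or_imp, Zo, not_lt]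
    tauto

end caps

section main

variable {W : List ℕ → Submodule ℝ E} {cls : List ℕ → E → ℕ} {om : List ℕ → Set E}
  {p : List ℕ} {c : List ℕ → E → ℝ}
variable {A0 kap q th b0 M : ℝ} {K : Set E}

/-- **the charge of the class 0 chain below the labels of class 0, integrated over all labels.**
`K` = the body in the coordinates of the last node of the chain. -/
theorem reo_zero (n : ℕ) (h0 : W [] = ⊥) (hW : SI W (List.replicate n 0 ++ p))
    (hL : Lab W cls om p)
    (hq : 0 ≤ q) (hε : 2 * (Real.sqrt 2 * Real.exp (-(q / 4))) ≤ 1 / 41)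
    (hth : 0 ≤ th) (hth1 : th ≤ 1) (hA : 0 < A0) (hk : 0 < kap) (hk1 : kap ≤ 1 / 100)
    (hkth : kap ^ th ≤ 1 / 2) (hb : 0 < b0) (hAb : A0 ≤ b0) (hM : 0 ≤ M)
    (hK : IsClosed K) (hKc : Convex ℝ K) {R : ℝ} (hKR : K ⊆ Metric.closedBall 0 R)
    (hroot : ∀ x, cls [] x ≠ 0)
    (homk : ∀ r, r <:+ p → om r ⊆
      {x | capS A0 kap q 1 (pl W r) (W r) x ≤ ENNReal.ofReal b0})
    (hom0 : ∀ r, r <:+ p → ∀ x, cls r x = 0 → x ∈ nk W A0 kap q (ENNReal.ofReal b0) r → x ∈ om r)
    (hgood : ∀ r, r <:+ p → ∀ x, cls r x ≠ 0 → x ∈ nk W A0 kap q (ENNReal.ofReal b0) r →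
      fib (W r) (Kᶜ.indicator 1) x ≤ ENNReal.ofReal (1 / 8))
    (hcm : ∀ r, Measurable (c r))
    (hc : ∀ r x, ENNReal.ofReal (c r x) ≤
      ENNReal.ofReal M * capS A0 kap q 1 (pl W r) (W r) x) :
    ∫⁻ x, (OMc cls om p 0).indicator 1 x *
        exB (zl W c (fun r => (nk W A0 kap q (ENNReal.ofReal b0) r)ᶜ) n p) K x
        ∂(stdGaussian E) ≤
      ENNReal.ofReal (2 * kR th M b0 * cCons *
        (kap ^ (Module.finrank ℝ (W (0 :: p)) - Module.finrank ℝ (W p))) ^ th) *
      ∫⁻ x, (OMc cls om p 0).indicator 1 x *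
        ({x | ENNReal.ofReal (Real.exp (-1418)) ≤ qq (W p) K x}.indicator
          (capS A0 kap q th (pl W p) (W p)) x) ∂(stdGaussian E) := by
  rcases n with _ | n
  · have : ∀ x, exB (zl W c (fun r => (nk W A0 kap q (ENNReal.ofReal b0) r)ᶜ) 0 p) K x = 0 :=
      fun x => rfl
    simp only [this, mul_zero, lintegral_zero]
    exact bot_le
  set β : ℝ≥0∞ := ENNReal.ofReal b0 with hβ
  have hβ0 : β ≠ 0 := by rw [hβ, Ne, ENNReal.ofReal_eq_zero, not_le]; exact hb
  have hβt : β ≠ ⊤ := ENNReal.ofReal_ne_top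
  have hAβ : ENNReal.ofReal A0 ≤ β := ENNReal.ofReal_le_ofReal hAb
  set z := List.replicate (n + 1) 0 with hz
  have hWp : SI W p := hW.suffix (List.suffix_append _ _)
  have h0p : (0 :: p) <:+ z ++ p := by
    rw [hz, ← rep_cons]; exact List.suffix_append _ _
  have hW0 : SI W (0 :: p) := hW.suffix h0p
  have hKm := hK.measurableSet
  -- points of `OMp` are not killed
  have hnk : ∀ r, r <:+ p → ∀ x, (∀ t, t <:+ r → x ∈ om t) → x ∈ nk W A0 kap q β r := by
    intro r
    induction r with
    | nil => intro _ x _; rw [nk_nil]; trivial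
    | cons c r ih =>
      intro hr x hx
      rw [nk_cons]
      exact ⟨ih ((List.suffix_cons c r).trans hr) x fun t ht => hx t
        (ht.trans (List.suffix_cons c r)), homk _ hr (hx _ (List.suffix_refl _))⟩
  rcases exists_chain p with hz0 | ⟨s0, c', a, hc', hs0, hpa⟩
  · -- no ancestor of class at least one: empty region
    have hempty : ∀ x, x ∉ OMc cls om p 0 := by
      rintro x ⟨⟨h1, h2⟩, h3⟩
      have : ∀ r : List ℕ, r <:+ p → cls [] x = 0 := by
        intro r hr
        rcases p.eq_nil_or_concat with hp | ⟨l, d, hp⟩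
        · subst hp; exact h3
        · have h4 : [d] <:+ p := ⟨l, by rw [hp]; simp⟩
          have h5 := h1 d [] h4
          rw [h5]
          exact hz0 d (by rw [hp]; simp)
      exact hroot x (this p (List.suffix_refl _))
    have : ∀ x, (OMc cls om p 0).indicator (1 : E → ℝ≥0∞) x = 0 := fun x =>
      indicator_of_notMem (hempty x) _
    simp [this]
  -- the chain
  set s := s0 ++ [c'] with hs
  have hpsa : p = s ++ a := hpa
  set V0 := W a with hV0
  have hap : a <:+ p := ⟨s, hpsa.symm⟩
  have hca : (c' :: a) <:+ p := ⟨s0, by rw [hpsa, hs]; simp⟩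
  have hWsa : SI W (s ++ a) := by rw [← hpsa]; exact hWp
  have hWzsa : SI W ((z ++ s) ++ a) := by rw [List.append_assoc, ← hpsa]; exact hW
  -- stopped sets
  set D : List ℕ → Set E := fun r => {x | cls r x ≠ 0} ∩ nk W A0 kap q β r with hD
  set L := chn W D a s with hLdef
  set C := zl W c (Zo W A0 kap q b0) (n + 1) p with hCdef
  set Ks := K ∩ nk W A0 kap q β p with hKs
  have hnkcl : IsClosed (nk W A0 kap q β p) := isClosed_unk _ _
  have hKsc : IsClosed Ks := hK.inter hnkcl
  have hKsm := hKsc.measurableSet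
  have hfst : L.map Prod.fst = chf W a s := map_chn s
  have hCfst : C.map Prod.fst = chf W p z := map_zl (n + 1) p
  have hLC : L.map Prod.fst ++ C.map Prod.fst = chf W a (z ++ s) := by
    rw [hfst, hCfst, chf_append a s z, ← hpsa]
  have hple : pl W p = pl W a ++ L.map Prod.fst := by rw [hfst, hpsa, pl_append]
  have hKn : Ks ∩ noZ C = K ∩ nk W A0 kap q β (z ++ p) := by
    rw [hKs, hCdef, inter_assoc, noZ_zl]
  -- kills below a label which is not killed
  have hkill : ∀ r, a <:+ r → r <:+ p → ∀ x, x ∈ nk W A0 kap q β r →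
      fib (W r) (Kᶜ.indicator 1) x ≤ ENNReal.ofReal (1 / 8) →
      ENNReal.ofReal (4 / 5) ≤ fib (W r) ((Ks ∩ noZ C).indicator 1) x := by
    intro r har hrp x hx hDx
    obtain ⟨u, hu⟩ := hrp
    have hWu : SI W ((z ++ u) ++ r) := by rw [List.append_assoc, hu]; exact hW
    have h1 := health_unk (l := pl W r) (l' := chf W r (z ++ u)) (W := W r) (A0 := A0) (kap := kap)
      (q := q) (b0 := β) hε (by norm_num) (hWp.suffix ⟨u, hu⟩).pl_le (mem_pl_or h0)
      (chf_pairwise hWu) (chf_gt hWu) hA hk (by linarith) hq hβ0 hβt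
      (cap_le_of_nk hA h0 hAβ hx) hKm (a := 1 / 8) (m := 4 / 5) (by norm_num)
      (by
        have : (1 - 1 / 41 : ℝ)⁻¹ = 41 / 40 := by norm_num
        rw [this]; linarith) hDx
    refine h1.trans ?_
    rw [hKn]
    -- on the fibre of `x` the outer kills are absent
    have h2 : ∀ w, (unk A0 kap q β (pl W r) (chf W r (z ++ u)) ∩ K).indicator (1 : E → ℝ≥0∞)
        (mix (W r) x w) ≤ (K ∩ nk W A0 kap q β (z ++ p)).indicator 1 (mix (W r) x w) := by
      intro w
      by_cases hw : mix (W r) x w ∈ unk A0 kap q β (pl W r) (chf W r (z ++ u)) ∩ K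
      · have h3 : mix (W r) x w ∈ nk W A0 kap q β r :=
          ((inv_nk (hWp.suffix ⟨u, hu⟩)).mix x w).mpr hx
        have h4 : mix (W r) x w ∈ K ∩ nk W A0 kap q β (z ++ p) := by
          refine ⟨hw.2, ?_⟩
          rw [← hu, ← List.append_assoc, nk_append]
          exact ⟨h3, hw.1⟩
        rw [indicator_of_mem hw, indicator_of_mem h4]
      · rw [indicator_of_notMem hw]; exact bot_le
    unfold fib
    exact lintegral_mono h2
  -- the outer factor
  set G : E → ℝ≥0∞ := (OMc cls om a c').indicator 1 with hG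
  have hLa : Lab W cls om a := hL.suffix hap
  have hGi : Inv V0 G := inv_ind (hLa.inv_c (hWp.suffix hap) c')
  have hGm : Measurable G := measurable_one.indicator (hLa.measurable_c c')
  -- measurability and invariance of the stopped sets
  have hDm : ∀ r, r <:+ p → MeasurableSet (D r) := fun r hr =>
    ((hL.mcls r hr (measurableSet_singleton 0)).compl).inter (measurableSet_nk r)
  have hDi : ∀ r, r <:+ p → InvS (W r) (D r) := by
    intro r hr x w hw
    have h1 := hL.icls r hr x w hw
    have h2 := inv_nk (A0 := A0) (kap := kap) (q := q) (b0 := β) (hWp.suffix hr) x w hw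
    simp only [hD, mem_inter_iff, mem_setOf_eq, h1, h2]
  have hmemL : ∀ v ∈ L, ∃ r, a <:+ r ∧ r ≠ a ∧ r <:+ p ∧ v = (W r, D r) := by
    intro v hv
    obtain ⟨r, h1, h2, h3, h4⟩ := mem_chn hv
    exact ⟨r, h1, h2, by rw [hpsa]; exact h3, h4⟩
  have havoid : ∀ x, x ∈ avoid L ↔ ∀ r, a <:+ r → r ≠ a → r <:+ p → x ∉ D r := by
    intro x
    constructor
    · intro hx r h1 h2 h3
      exact hx (W r, D r) (mem_chn_of h1 h2 (by rw [← hpsa]; exact h3))
    · intro hx v hv
      obtain ⟨r, h1, h2, h3, rfl⟩ := hmemL v hv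
      exact hx r h1 h2 h3
  have havm : MeasurableSet (avoid L) := by
    have : avoid L = ⋂ v ∈ L, (v.2)ᶜ := by
      ext x
      simp [avoid]
    rw [this]
    refine MeasurableSet.biInter (List.finite_toSet L).countable fun v hv => ?_
    obtain ⟨r, _, _, h3, rfl⟩ := hmemL v hv
    exact (hDm r h3).compl
  -- chain classes are zero
  have hzero : ∀ d r, (d :: r) <:+ p → a <:+ r → r ≠ a → d = 0 := by
    intro d r h1 h2 h3
    have h4 : (d :: r) <:+ s0 ++ (c' :: a) := by
      have : s0 ++ (c' :: a) = p := by rw [hpsa, hs]; simp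
      rw [this]; exact h1
    obtain ⟨u, hu⟩ := h2
    have hune : u ≠ [] := by
      intro h; rw [h] at hu; exact h3 (by simpa using hu.symm)
    obtain ⟨v, hv⟩ := h4
    -- compare lengths
    have e1 : v ++ (d :: (u ++ a)) = s0 ++ [c'] ++ a := by
      rw [hu, hv]; simp
    have e2 : (v ++ (d :: u)) ++ a = (s0 ++ [c']) ++ a := by
      rw [← e1]; simp
    have e3 : v ++ (d :: u) = s0 ++ [c'] := List.append_cancel_right e2
    have hmem : d ∈ s0 := by
      rcases List.eq_nil_or_concat u with h | ⟨u', z', h⟩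
      · exact absurd h hune
      · rw [h] at e3
        have e4 : (v ++ (d :: u')) ++ [z'] = s0 ++ [c'] := by rw [← e3]; simp
        have e5 := (List.append_inj' e4 rfl).1
        rw [← e5]; simp
    exact hs0 d hmem
  -- region: left inclusion
  have hreg1 : ∀ x, x ∈ OMc cls om p 0 → x ∈ OMc cls om a c' ∧ x ∈ avoid L ∧
      x ∈ nk W A0 kap q β p := by
    rintro x ⟨⟨h1, h2⟩, h3⟩
    refine ⟨⟨OMp_anti hap ⟨h1, h2⟩, h1 c' a hca⟩, ?_, hnk p (List.suffix_refl _) x h2⟩
    rw [havoid]
    rintro r har hra hrp ⟨h4, -⟩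
    apply h4
    rcases eq_or_ne r p with h5 | h5
    · rw [h5]; exact h3
    · obtain ⟨u, hu⟩ := hrp
      rcases List.eq_nil_or_concat u with h6 | ⟨u', d, h6⟩
      · exact absurd (by rw [h6] at hu; simpa using hu) h5
      · have h7 : (d :: r) <:+ p := ⟨u', by rw [← hu, h6]; simp⟩
        rw [h1 d r h7]
        exact hzero d r h7 har hra
  -- region: right inclusion
  have hreg2 : ∀ x, x ∈ OMc cls om a c' → x ∈ avoid L → x ∈ nk W A0 kap q β p →
      x ∈ OMc cls om p 0 := by
    rintro x ⟨⟨h1, h2⟩, h3⟩ h4 h5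
    rw [havoid] at h4
    have h6 : ∀ r, a <:+ r → r ≠ a → r <:+ p → cls r x = 0 := by
      intro r har hra hrp
      by_contra hcon
      exact h4 r har hra hrp ⟨hcon, nk_anti hrp h5⟩
    have hcmp : ∀ r, r <:+ p → r <:+ a ∨ (a <:+ r ∧ r ≠ a) := by
      intro r hr
      rcases List.suffix_or_suffix_of_suffix hr hap with h | h
      · exact Or.inl h
      · by_cases hra : r = a
        · exact Or.inl (hra ▸ List.suffix_refl _)
        · exact Or.inr ⟨h, hra⟩
    refine ⟨⟨fun d r hr => ?_, fun r hr => ?_⟩, ?_⟩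
    · have hrp := (List.suffix_cons d r).trans hr
      rcases hcmp (d :: r) hr with h | ⟨h, hne⟩
      · exact h1 d r h
      · rcases List.suffix_cons_iff.mp h with h' | h'
        · exact absurd h'.symm hne
        · by_cases hra : r = a
          · subst hra
            -- `d = c'`
            have h7 : (d :: r) = (c' :: r) := by
              rcases List.suffix_or_suffix_of_suffix hr hca with h8 | h8
              · exact h8.eq_of_length rfl
              · exact (h8.eq_of_length rfl).symm
            rw [List.cons.injEq] at h7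
            rw [h7.1]
            exact h3
          · rw [h6 r h' hra hrp]
            exact (hzero d r hr h' hra).symm
    · rcases hcmp r hr with h | ⟨h, hne⟩
      · exact h2 r h
      · exact hom0 r hr x (h6 r h hne hr) (nk_anti hr h5)
    · have hpa' : p ≠ a := by
        intro h
        have := congrArg List.length hpsa
        rw [h] at this
        simp [hs] at this
        omega
      exact h6 p hap hpa' (List.suffix_refl _)
  -- facts on the nodes of the chain
  have hCr : ∀ v ∈ C, ∃ r, (0 :: p) <:+ r ∧ r <:+ z ++ p ∧ v = (W r, c r, Zo W A0 kap q b0 r) :=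
    fun v hv => mem_zl hv
  -- the single time inequality in the fibres of `V0`
  have hsingle : ∀ x, G x ≠ 0 → fib V0 ((avoid L).indicator (exB C Ks)) x ≤
      ENNReal.ofReal (2 * kR th M b0 * cCons *
        (kap ^ (Module.finrank ℝ (W (0 :: p)) - Module.finrank ℝ (W p))) ^ th) *
      fib V0 ((avoid L).indicator ({x | ENNReal.ofReal (Real.exp (-1418)) ≤
        qq (W p) Ks x}.indicator (capS A0 kap q th (pl W p) (W p)))) x := by
    intro x hx
    have hxG : x ∈ OMc cls om a c' := by
      by_contra hcon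
      exact hx (indicator_of_notMem hcon _)
    have hxnk : x ∈ nk W A0 kap q β a := hnk a hap x hxG.1.2
    have hxg : fib (W a) (Kᶜ.indicator 1) x ≤ ENNReal.ofReal (1 / 8) :=
      hgood a hap x (by rw [show cls a x = c' from hxG.2]; exact hc') hxnk
    rw [hple]
    refine reo0 (Kl := Ks) (K := Ks) (L := L) (l0 := pl W a) (W0 := V0) (V := W p) (C := C)
      (A0 := A0) (kap := kap) (q := q) (s := th) (M := M) (b0 := b0)
      hKsc (hKc.inter (convex_unk hq hA hk _ _)) (R := R) hq hε hth hth1 hA hk hkth hb hM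
      (hWp.suffix hap).pl_le (mem_pl_or h0) (hWp.le_of_suffix hap) ?_ ?_ ?_ x hKsc
      (hKc.inter (convex_unk hq hA hk _ _)) (fun y hy => hKR hy.1) subset_rfl ?_ ?_ ?_ ?_ ?_ ?_ ?_
      (u := Module.finrank ℝ (W (0 :: p))) ?_ ?_
    · intro v hv
      obtain ⟨r, _, _, h3, rfl⟩ := hmemL v hv
      exact hWp.le_of_suffix h3
    · intro y w hw
      rw [havoid, havoid]
      have : ∀ r, r <:+ p → (y + w ∈ D r ↔ y ∈ D r) := fun r hr =>
        hDi r hr y w (Submodule.orthogonal_le (hWp.le_of_suffix hr) hw)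
      constructor
      · intro h r h1 h2 h3 h4
        exact h r h1 h2 h3 ((this r h3).mpr h4)
      · intro h r h1 h2 h3 h4
        exact h r h1 h2 h3 ((this r h3).mp h4)
    · intro v hv
      obtain ⟨r, _, _, h3, rfl⟩ := hmemL v hv
      exact ⟨hDm r h3, hDi r h3⟩
    · intro v hv
      obtain ⟨r, h1, h2, rfl⟩ := hCr v hv
      exact (hW.suffix h2).le_of_suffix ((List.suffix_cons 0 p).trans h1)
    · rw [hLC]; exact chf_pairwise hWzsa
    · rw [hLC]; exact chf_gt hWzsa
    · intro v hv
      obtain ⟨r, h1, h2, rfl⟩ := hCr v hv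
      exact ⟨hcm r, isClosed_Zo r, convex_Zo hq hA hk r⟩
    · rw [← hple]
      exact capOK_zl hc (n + 1) p
    · intro v hv y hy
      obtain ⟨r, h1, _, h3, rfl⟩ := hmemL v hv
      exact hkill r h1 h3 y hy.2 (hgood r h3 y hy.1 hy.2)
    · exact (ENNReal.ofReal_le_ofReal (by norm_num)).trans
        (hkill a (List.suffix_refl _) hap x hxnk hxg)
    · intro v hv
      obtain ⟨r, h1, h2, rfl⟩ := hCr v hv
      exact Submodule.finrank_mono ((hW.suffix h2).le_of_suffix h1)
    · exact Submodule.finrank_mono (hW0.le_of_suffix (List.suffix_cons 0 p))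
  -- integration
  have hqm : MeasurableSet {x | ENNReal.ofReal (Real.exp (-1418)) ≤ qq (W p) Ks x} :=
    measurableSet_le measurable_const (measurable_qq hKsm)
  have hexm : Measurable (exB C Ks) := measurable_exB (fun v hv => by
    obtain ⟨r, h1, h2, rfl⟩ := hCr v hv
    refine ⟨hcm r, ?_⟩
    have := (isClosed_Zo (W := W) (A0 := A0) (kap := kap) (q := q) (b0 := b0) r).measurableSet.compl
    rwa [compl_compl] at this) hKsm
  have hint := int_fib_le hGi hGm (hexm.indicator havm)
    ((measurable_capS.indicator hqm).indicator havm) hsingle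
  -- left side
  have hleft : ∫⁻ x, (OMc cls om p 0).indicator 1 x *
        exB (zl W c (fun r => (nk W A0 kap q β r)ᶜ) (n + 1) p) K x
        ∂(stdGaussian E) ≤ ∫⁻ x, G x * ((avoid L).indicator (exB C Ks)) x ∂(stdGaussian E) := by
    refine lintegral_mono fun x => ?_
    by_cases hx : x ∈ OMc cls om p 0
    · obtain ⟨h1, h2, h3⟩ := hreg1 x hx
      have e1 : exB (zl W c (fun r => (nk W A0 kap q β r)ᶜ) (n + 1) p) K x = exB C Ks x := by
        rw [hKs, exB_inter C K _ h3]
        refine exB_zl_congr (N := nk W A0 kap q β) (fun r => nk_anti (List.suffix_cons 0 r)) ?_ ?_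
          (n + 1) p K x h3
        · intro r y hy
          simp only [nk_cons, Zo, mem_compl_iff, mem_inter_iff, mem_setOf_eq, not_and, not_le]
          tauto
        · intro r y _ hy
          simpa using hy
      simp only []
      rw [e1, indicator_of_mem hx, hG]
      rw [indicator_of_mem h1, indicator_of_mem h2]
    · simp only []
      rw [indicator_of_notMem hx, zero_mul]
      exact bot_le
  have hright : ∫⁻ x, G x * ((avoid L).indicator ({x | ENNReal.ofReal (Real.exp (-1418)) ≤
        qq (W p) Ks x}.indicator (capS A0 kap q th (pl W p) (W p))) x) ∂(stdGaussian E) ≤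
      ∫⁻ x, (OMc cls om p 0).indicator 1 x *
        ({x | ENNReal.ofReal (Real.exp (-1418)) ≤ qq (W p) K x}.indicator
          (capS A0 kap q th (pl W p) (W p)) x) ∂(stdGaussian E) := by
    refine lintegral_mono fun x => ?_
    by_cases h1 : x ∈ OMc cls om a c'
    swap
    · simp only [hG]
      rw [indicator_of_notMem h1, zero_mul]
      exact bot_le
    by_cases h2 : x ∈ avoid L
    swap
    · rw [indicator_of_notMem h2, mul_zero]
      exact bot_le
    by_cases h3 : x ∈ {x | ENNReal.ofReal (Real.exp (-1418)) ≤ qq (W p) Ks x}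
    swap
    · rw [indicator_of_mem h2, indicator_of_notMem h3, mul_zero]
      exact bot_le
    have h4 : x ∈ nk W A0 kap q β p := by
      by_contra hcon
      have h5 : qq (W p) Ks x = 0 := by
        unfold qq fib
        have h6 : ∀ w, Ks.indicator (1 : E → ℝ≥0∞) (mix (W p) x w) = 0 := by
          intro w
          rw [indicator_of_notMem]
          rintro ⟨_, h7⟩
          exact hcon (((inv_nk hWp).mix x w).mp h7)
        simp [h6]
      rw [mem_setOf_eq, h5, nonpos_iff_eq_zero, ENNReal.ofReal_eq_zero] at h3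
      exact absurd h3 (not_le.mpr (Real.exp_pos _))
    have h5 := hreg2 x h1 h2 h4
    have h3' : ENNReal.ofReal (Real.exp (-1418)) ≤ qq (W p) Ks x := h3
    have h6 : x ∈ {x | ENNReal.ofReal (Real.exp (-1418)) ≤ qq (W p) K x} := by
      refine le_trans h3' ?_
      exact fib_mono (fun y => indicator_le_indicator_of_subset inter_subset_left
        (fun _ => bot_le) y) x
    simp only [hG]
    rw [indicator_of_mem h1, indicator_of_mem h2, indicator_of_mem h3, indicator_of_mem h5,
      indicator_of_mem h6]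
  exact hleft.trans (hint.trans (mul_le_mul' le_rfl hright))

end main

end Vale.Agent.P262.Cons493
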