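import Vale.Agent.P262.H493.Reo
import Vale.Agent.P262.H606.TipD

/-!
# P262, block HMOM, parent of class 0: the class 0 chain charge with an extra distance weight

Same as `H493/Reo.lean` with general charges on the nodes of the chain and the extra factor
`exp (c * infDist x S ^ 2)`, `S` closed convex of almost full measure and invariant under the label
spaces of the upper chain.
-/

set_option linter.all false

open MeasureTheory ProbabilityTheory Set Filter
open scoped ENNReal RealInnerProductSpace Topology Classical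

namespace Vale.Agent.P262.Cons493

open Vale.Agent.P262.H395 Vale.Agent.P262.H44 Vale.Agent.P262.H606 Vale.Agent.P262.H962
open Vale.Agent.P262.H439 (qq qtip_unit HKQ QH Under measurable_qq qq_le_one inv_qq)
open Vale.Agent.P262.H713 (FT)

variable {E : Type*} [NormedAddCommGroup E] [InnerProductSpace ℝ E] [FiniteDimensional ℝ E]
  [MeasurableSpace E] [BorelSpace E]

omit [FiniteDimensional ℝ E] [MeasurableSpace E] [BorelSpace E] in
lemma allInv_sT {S : Set E} : ∀ {L : List (Submodule ℝ E × Set E)},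
    (∀ p ∈ L, TInv p.1 S) → AllInv S (sT L)
  | [], _ => trivial
  | p :: L, h => ⟨h p (by simp), fun _ => allInv_sT fun r hr => h r (by simp [hr])⟩

/-- **CONS, class 0 chain, single time, several levels at once, extra distance weight** -/
theorem cons0N_w {K Kl : Set E} (hK : IsClosed K) (hKc : Convex ℝ K) {R : ℝ}
    (hKR : K ⊆ Metric.closedBall 0 R) (hKl : IsClosed Kl) (hKlc : Convex ℝ Kl) (hKK : K ⊆ Kl)
    {q : ℝ} (hq : 0 ≤ q) (hε : 2 * (Real.sqrt 2 * Real.exp (-(q / 4))) ≤ 1 / 41)
    {s : ℝ} (hs : 0 ≤ s) (hs1 : s ≤ 1) {A0 kap : ℝ} (hA : 0 < A0) (hk : 0 < kap)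
    {S : Set E} (hSc : IsClosed S) (hScv : Convex ℝ S)
    (hSg : ENNReal.ofReal (1 - 1 / 40) ≤ stdGaussian E S) {c : ℝ} (hc : 0 ≤ c)
    (hsc : s / 8 + c ≤ 1 / 8)
    {l0 : List (Submodule ℝ E)} {W0 V W' : Submodule ℝ E} {L : List (Submodule ℝ E × Set E)}
    {N : List (Submodule ℝ E)} (hSW : TInv W0 S) (hSL : ∀ p ∈ L, TInv p.1 S)
    (h1 : ∀ V ∈ l0, V ≤ W0) (hW0 : W0 ∈ l0 ∨ W0 = ⊥)
    (hL : (L.map Prod.fst ++ N).Pairwise (· < ·)) (hL0 : ∀ V ∈ L.map Prod.fst ++ N, W0 < V)
    (hV0 : W0 ≤ V) (hVL : ∀ p ∈ L, p.1 ≤ V) (hVW : V ≤ W')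
    (hVin : InvS V (avoid L))
    (hD : ∀ p ∈ L, MeasurableSet p.2 ∧ InvS p.1 p.2)
    (hgood : ∀ p ∈ L, ∀ x ∈ p.2, ENNReal.ofReal (4 / 5) ≤ fib p.1 (K.indicator 1) x)
    (x0 : E) (hroot : ENNReal.ofReal (2 / 3) ≤ fib W0 (K.indicator 1) x0) :
    fib W0 ((avoid L).indicator (K.indicator fun x =>
        capS A0 kap q s ((l0 ++ L.map Prod.fst) ++ N) W' x * dw c S x)) x0 ≤
      ENNReal.ofReal (cCons * (kap ^ (Module.finrank ℝ W' - Module.finrank ℝ V)) ^ s) *
        fib W0 ((avoid L).indicator ({x | ENNReal.ofReal (Real.exp (-1418)) ≤ qq V Kl x}.indicator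
          (capS A0 kap q s (l0 ++ L.map Prod.fst) V))) x0 := by
  set l := l0 ++ L.map Prod.fst with hl
  have hLp : (L.map Prod.fst).Pairwise (· < ·) := (List.pairwise_append.mp hL).1
  have hLp0 : ∀ V ∈ L.map Prod.fst, W0 < V := fun V hV => hL0 V (by simp [hV])
  have hchn : Chn L W0 := Chn.of_list hLp hLp0 hD
  have hε10 : 2 * (Real.sqrt 2 * Real.exp (-(q / 4))) ≤ 1 / 10 := hε.trans (by norm_num)
  have hne : (PB (l ++ N) q).Nonempty := PB_nonempty _ hq
  have hregm : MeasurableSet (avoid L) := by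
    rw [← reg_sT]
    exact STree.measurableSet_reg _ (valid_sT hchn)
  have hwm : Measurable (dw (s / 8) (PB l q)) := (continuous_dw _ _).measurable
  -- step 1: the tip inequality
  have hF0 : FlatD (1 / 10) W0 (PB (l ++ N) q) (PB l0 q) (CB W0 (L.map Prod.fst ++ N) q) := by
    rw [hl, List.append_assoc]
    exact flatD_PB hε10 (by norm_num) h1 hW0 hL hL0
  have s1 := cap_tip2 (K := K) (B := PB l q) (B' := PB (l ++ N) q) (S := S) hK hKc hKR
    (isClosed_PB l q) (convex_PB l q) (isClosed_PB _ q) (convex_PB _ q) hne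
    (PB_anti (List.subset_append_left _ _)) hSc hScv hSg
    (a := s / 8) (c := c) (by positivity) hc hsc (T := sT L) (W0 := W0)
    (valid_sT hchn) (healthy_sTN hq hε10 h1 hL hL0 hgood)
    (allInv_sT hSL)
    x0 (P := PB l0 q) (C := CB W0 (L.map Prod.fst ++ N) q) hF0
    (PB_anti (List.subset_append_left _ _)) hSW
    ((ENNReal.ofReal_le_ofReal (by norm_num)).trans hroot)
  rw [reg_sT] at s1
  -- step 2: from the body to the alive mass
  have hwi : Inv V (dw (s / 8) (PB l q)) := by
    intro x w hw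
    unfold dw
    have hcyl : ∀ x, ∀ w ∈ Vᗮ, (x + w ∈ PB l q ↔ x ∈ PB l q) := by
      intro x w hw
      refine PB_cyl (fun U hU => ?_) x w hw
      rcases List.mem_append.mp hU with h | h
      · exact (h1 U h).trans hV0
      · obtain ⟨p, hp, rfl⟩ := List.mem_map.mp h
        exact hVL p hp
    rw [infDist_add hcyl x hw]
  have hindi : ∀ f : E → ℝ≥0∞, Inv V f → Inv V ((avoid L).indicator f) := by
    intro f hf x w hw
    by_cases hx : x ∈ avoid L
    · rw [indicator_of_mem hx, indicator_of_mem ((hVin x w hw).mpr hx), hf x w hw]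
    · rw [indicator_of_notMem hx, indicator_of_notMem (fun h => hx ((hVin x w hw).mp h))]
  have s2 : fib W0 ((avoid L).indicator (K.indicator (dw (s / 8) (PB l q)))) x0 ≤
      fib W0 ((avoid L).indicator fun x => dw (s / 8) (PB l q) x * qq V Kl x) x0 := by
    have hm : Measurable ((avoid L).indicator (Kl.indicator (dw (s / 8) (PB l q)))) :=
      (hwm.indicator hKl.measurableSet).indicator hregm
    have e1 : fib V ((avoid L).indicator (Kl.indicator (dw (s / 8) (PB l q)))) =
        (avoid L).indicator fun x => dw (s / 8) (PB l q) x * qq V Kl x := by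
      funext x
      have e2 : (avoid L).indicator (Kl.indicator (dw (s / 8) (PB l q))) = fun y =>
          (avoid L).indicator (dw (s / 8) (PB l q)) y * Kl.indicator 1 y := by
        funext y
        by_cases h : y ∈ avoid L
        · rw [indicator_of_mem h, indicator_of_mem h]
          by_cases h' : y ∈ Kl
          · rw [indicator_of_mem h', indicator_of_mem h', Pi.one_apply, mul_one]
          · rw [indicator_of_notMem h', indicator_of_notMem h', mul_zero]
        · rw [indicator_of_notMem h, indicator_of_notMem h, zero_mul]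
      rw [e2, fib_mul (hindi _ hwi) (measurable_one.indicator hKl.measurableSet)]
      by_cases h : x ∈ avoid L
      · rw [indicator_of_mem h, indicator_of_mem h]
        rfl
      · rw [indicator_of_notMem h, indicator_of_notMem h, zero_mul]
    rw [← e1, fib_tower hV0 hm]
    refine fib_mono (fun y => indicator_le_indicator ?_) x0
    exact indicator_le_indicator_of_subset hKK (fun _ => bot_le) y
  -- step 3: the very sick labels
  have hgl : ∀ p ∈ L, ∀ x ∈ p.2, ENNReal.ofReal (4 / 5) ≤ fib p.1 (Kl.indicator 1) x :=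
    fun p hp x hx => (hgood p hp x hx).trans
      (fib_mono (fun y => indicator_le_indicator_of_subset hKK (fun _ => bot_le) y) x)
  have hF1 : FlatD (1 / 41) W0 (PB l q) (PB l0 q) (CB W0 (L.map Prod.fst) q) :=
    flatD_PB hε (by norm_num) h1 hW0 hLp hLp0
  have e3 : (kT L).frz ∩ Kl = Kl := by rw [frz_kT, univ_inter]
  have s3 := qtip_unit (c := s / 8) (w := dw (s / 8) (PB l q)) (V := V) (W0 := W0) (K := Kl)
    (T := kT L) (x0 := x0) (by positivity) (by linarith)
    (weight_dw (isClosed_PB l q) (zero_mem_PB l hq) (by positivity) (by linarith)) hKl hKlc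
    (valid_kT hchn) (under_kT hVL) hV0
    (fun y _ => hkq_kT hq hε hs hs1 h1 hLp hLp0 hgl y)
    (QH.root (by
        rw [e3]
        exact hroot.trans
          (fib_mono (fun y => indicator_le_indicator_of_subset hKK (fun _ => bot_le) y) x0))
      (flatAt_dw hF1 (by norm_num) (by norm_num) (by norm_num) (PB_nonempty _ hq)
        (by positivity) (by linarith) x0))
  rw [reg_kT] at s3
  -- assembling
  set G : Set E := {x | ENNReal.ofReal (Real.exp (-1418)) ≤ qq V Kl x} with hG
  have hGm : MeasurableSet G := measurableSet_le measurable_const (measurable_qq hKl.measurableSet)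
  have s4 := s1.trans (mul_le_mul' le_rfl (s2.trans s3))
  have eL : fib W0 ((avoid L).indicator (K.indicator fun x =>
        capS A0 kap q s (l ++ N) W' x * dw c S x)) x0 =
      ENNReal.ofReal ((A0 * kap ^ Module.finrank ℝ W') ^ s) *
        fib W0 ((avoid L).indicator (K.indicator (dw2 (s / 8) c (PB (l ++ N) q) S))) x0 := by
    rw [← fib_mul (inv_const W0 _) (((continuous_dw2 _ _ _ _).measurable.indicator
      hK.measurableSet).indicator hregm)]
    congr 1
    funext y
    by_cases h : y ∈ avoid L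
    · rw [indicator_of_mem h, indicator_of_mem h]
      by_cases h' : y ∈ K
      · rw [indicator_of_mem h', indicator_of_mem h', dw2_eq, ← mul_assoc]
        rfl
      · rw [indicator_of_notMem h', indicator_of_notMem h', mul_zero]
    · rw [indicator_of_notMem h, indicator_of_notMem h, mul_zero]
  have eR : fib W0 ((avoid L).indicator (G.indicator (capS A0 kap q s l V))) x0 =
      ENNReal.ofReal ((A0 * kap ^ Module.finrank ℝ V) ^ s) *
        fib W0 ((avoid L).indicator (G.indicator (dw (s / 8) (PB l q)))) x0 := by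
    rw [← fib_mul (inv_const W0 _) ((hwm.indicator hGm).indicator hregm)]
    congr 1
    funext y
    by_cases h : y ∈ avoid L
    · rw [indicator_of_mem h, indicator_of_mem h]
      by_cases h' : y ∈ G
      · rw [indicator_of_mem h', indicator_of_mem h']
        rfl
      · rw [indicator_of_notMem h', indicator_of_notMem h', mul_zero]
    · rw [indicator_of_notMem h, indicator_of_notMem h, mul_zero]
  have h4 : A0 * kap ^ Module.finrank ℝ W' =
      kap ^ (Module.finrank ℝ W' - Module.finrank ℝ V) * (A0 * kap ^ Module.finrank ℝ V) := by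
    have : kap ^ Module.finrank ℝ W' =
        kap ^ (Module.finrank ℝ W' - Module.finrank ℝ V) * kap ^ Module.finrank ℝ V := by
      rw [← pow_add, Nat.sub_add_cancel (Submodule.finrank_mono hVW)]
    rw [this]; ring
  rw [eL, eR, h4, Real.mul_rpow (by positivity) (by positivity),
    ENNReal.ofReal_mul (by positivity)]
  have e5 : ENNReal.ofReal (cCons * (kap ^ (Module.finrank ℝ W' - Module.finrank ℝ V)) ^ s) =
      ENNReal.ofReal ((kap ^ (Module.finrank ℝ W' - Module.finrank ℝ V)) ^ s) *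
        (ENNReal.ofReal (2 * Real.exp (2 ^ 11)) * 2) := by
    rw [show (2 : ℝ≥0∞) = ENNReal.ofReal 2 by norm_num, ← ENNReal.ofReal_mul (by positivity),
      ← ENNReal.ofReal_mul (by positivity)]
    congr 1
    unfold cCons
    ring
  rw [e5]
  calc ENNReal.ofReal ((kap ^ (Module.finrank ℝ W' - Module.finrank ℝ V)) ^ s) *
        ENNReal.ofReal ((A0 * kap ^ Module.finrank ℝ V) ^ s) *
        fib W0 ((avoid L).indicator (K.indicator (dw2 (s / 8) c (PB (l ++ N) q) S))) x0
      ≤ ENNReal.ofReal ((kap ^ (Module.finrank ℝ W' - Module.finrank ℝ V)) ^ s) *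
        ENNReal.ofReal ((A0 * kap ^ Module.finrank ℝ V) ^ s) *
        (ENNReal.ofReal (2 * Real.exp (2 ^ 11)) *
          (2 * fib W0 ((avoid L).indicator (G.indicator (dw (s / 8) (PB l q)))) x0)) := by
        gcongr
    _ = _ := by ring

/-! ### the charge on a chain -/

/-- one node of the chain below a label: label space, charge, killed labels -/
abbrev NdG (E : Type*) [NormedAddCommGroup E] [InnerProductSpace ℝ E] : Type _ :=
  Submodule ℝ E × (E → ℝ≥0∞) × Set E

/-- points not killed along the chain -/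
def noG (C : List (NdG E)) : Set E := {x | ∀ a ∈ C, x ∉ a.2.2}

/-- the charge of the chain: at every level the charge of the node, on the part of the body which
is not killed before -/
noncomputable def exG : List (NdG E) → Set E → E → ℝ≥0∞
  | [], _ => fun _ => 0
  | a :: C, K => fun x => K.indicator a.2.1 x + exG C (K ∩ (a.2.2)ᶜ) x

omit [FiniteDimensional ℝ E] [MeasurableSpace E] [BorelSpace E] in
lemma exG_inter (C : List (NdG E)) (K Z : Set E) {x : E} (hx : x ∈ Z) :
    exG C (K ∩ Z) x = exG C K x := by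
  induction C generalizing K with
  | nil => rfl
  | cons a C ih =>
    unfold exG
    have e1 : (K ∩ Z).indicator a.2.1 x = K.indicator a.2.1 x := by
      by_cases h : x ∈ K
      · rw [indicator_of_mem h, indicator_of_mem (show x ∈ K ∩ Z from ⟨h, hx⟩)]
      · rw [indicator_of_notMem h, indicator_of_notMem (fun h' : x ∈ K ∩ Z => h h'.1)]
    have e2 : K ∩ Z ∩ (a.2.2)ᶜ = (K ∩ (a.2.2)ᶜ) ∩ Z := by
      ext y
      simp only [mem_inter_iff]
      tauto
    rw [e1, e2, ih]

lemma measurable_exG {C : List (NdG E)} (hC : ∀ a ∈ C, Measurable a.2.1 ∧ MeasurableSet a.2.2)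
    {K : Set E} (hK : MeasurableSet K) : Measurable (exG C K) := by
  induction C generalizing K with
  | nil => exact measurable_const
  | cons a C ih =>
    obtain ⟨h1, h2⟩ := hC a (by simp)
    exact (h1.indicator hK).add (ih (fun b hb => hC b (by simp [hb])) (hK.inter h2.compl))

/-- geometric sums along increasing label spaces -/
lemma sum_geo_g {kap s : ℝ} (hk : 0 < kap) (hk1 : kap ^ s ≤ 1 / 2) (hs : 0 ≤ s) (v : ℕ) :
    ∀ {C : List (NdG E)} {u : ℕ}, (C.map Prod.fst).Pairwise (· < ·) →
    (∀ a ∈ C, u ≤ Module.finrank ℝ a.1) → v ≤ u →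
    (C.map fun a => (kap ^ (Module.finrank ℝ a.1 - v)) ^ s).sum ≤ 2 * (kap ^ (u - v)) ^ s
  | [], u, _, _, _ => by
    simp only [List.map_nil, List.sum_nil]
    positivity
  | a :: C, u, h1, h2, h3 => by
    rw [List.map_cons, List.pairwise_cons] at h1
    have hkle : kap ^ s ≤ 1 := hk1.trans (by norm_num)
    have hu : u ≤ Module.finrank ℝ a.1 := h2 a (by simp)
    have e : ∀ n : ℕ, (kap ^ n) ^ s = (kap ^ s) ^ n := by
      intro n
      rw [← Real.rpow_natCast, ← Real.rpow_natCast, ← Real.rpow_mul hk.le, ← Real.rpow_mul hk.le,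
        mul_comm]
    have ih := sum_geo_g hk hk1 hs v (C := C) (u := Module.finrank ℝ a.1 + 1) h1.2
      (fun b hb => Submodule.finrank_lt_finrank_of_lt (h1.1 b.1 (List.mem_map_of_mem hb)))
      (by omega)
    rw [List.map_cons, List.sum_cons]
    have h4 : (kap ^ (Module.finrank ℝ a.1 - v)) ^ s ≤ (kap ^ (u - v)) ^ s := by
      rw [e, e]
      exact pow_le_pow_of_le_one (by positivity) hkle (by omega)
    have h5 : (kap ^ (Module.finrank ℝ a.1 + 1 - v)) ^ s ≤
        1 / 2 * (kap ^ (Module.finrank ℝ a.1 - v)) ^ s := by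
      rw [e, e, show Module.finrank ℝ a.1 + 1 - v = (Module.finrank ℝ a.1 - v) + 1 by omega,
        pow_succ, mul_comm]
      exact mul_le_mul_of_nonneg_right hk1 (by positivity)
    linarith

section chain

variable {A0 kap q s κ c : ℝ} {l0 : List (Submodule ℝ E)} {W0 V : Submodule ℝ E}
  {L : List (Submodule ℝ E × Set E)} {S : Set E}

/-- the charges of the chain relative to the caps -/
def CapG (A0 kap q s κ : ℝ) : List (Submodule ℝ E) → List (NdG E) → Prop
  | _, [] => True
  | l, a :: C => (∀ x, a.2.1 x ≤ ENNReal.ofReal κ * capS A0 kap q s (l ++ [a.1]) a.1 x) ∧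
      CapG A0 kap q s κ (l ++ [a.1]) C

/-- **REO2, class 0, single time, extra weight**: sum form. -/
theorem reo0_sum_w {Kl : Set E} (hKl : IsClosed Kl) (hKlc : Convex ℝ Kl) {R : ℝ}
    (hq : 0 ≤ q) (hε : 2 * (Real.sqrt 2 * Real.exp (-(q / 4))) ≤ 1 / 41)
    (hs : 0 ≤ s) (hs1 : s ≤ 1) (hA : 0 < A0) (hk : 0 < kap) (hκ : 0 ≤ κ)
    (hSc : IsClosed S) (hScv : Convex ℝ S)
    (hSg : ENNReal.ofReal (1 - 1 / 40) ≤ stdGaussian E S) (hc : 0 ≤ c)
    (hsc : s / 8 + c ≤ 1 / 8) (hSW : TInv W0 S) (hSL : ∀ p ∈ L, TInv p.1 S)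
    (h1 : ∀ V ∈ l0, V ≤ W0) (hW0 : W0 ∈ l0 ∨ W0 = ⊥)
    (hV0 : W0 ≤ V) (hVL : ∀ p ∈ L, p.1 ≤ V) (hVin : InvS V (avoid L))
    (hD : ∀ p ∈ L, MeasurableSet p.2 ∧ InvS p.1 p.2) (x0 : E) :
    ∀ {C : List (NdG E)} {N : List (Submodule ℝ E)} {K : Set E}, IsClosed K → Convex ℝ K →
    K ⊆ Metric.closedBall 0 R → K ⊆ Kl →
    (∀ a ∈ C, V ≤ a.1) →
    ((L.map Prod.fst) ++ (N ++ C.map Prod.fst)).Pairwise (· < ·) →
    (∀ V ∈ L.map Prod.fst ++ (N ++ C.map Prod.fst), W0 < V) →
    (∀ a ∈ C, Measurable a.2.1 ∧ IsClosed (a.2.2)ᶜ ∧ Convex ℝ (a.2.2)ᶜ) →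
    CapG A0 kap q s κ ((l0 ++ L.map Prod.fst) ++ N) C →
    (∀ p ∈ L, ∀ x ∈ p.2, ENNReal.ofReal (4 / 5) ≤ fib p.1 ((K ∩ noG C).indicator 1) x) →
    ENNReal.ofReal (2 / 3) ≤ fib W0 ((K ∩ noG C).indicator 1) x0 →
    fib W0 ((avoid L).indicator fun x => exG C K x * dw c S x) x0 ≤
      ENNReal.ofReal (κ * cCons *
        (C.map fun a => (kap ^ (Module.finrank ℝ a.1 - Module.finrank ℝ V)) ^ s).sum) *
        fib W0 ((avoid L).indicator ({x | ENNReal.ofReal (Real.exp (-1418)) ≤ qq V Kl x}.indicator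
          (capS A0 kap q s (l0 ++ L.map Prod.fst) V))) x0
  | [], N, K, _, _, _, _, _, _, _, _, _, _, _ => by
    have e : ((avoid L).indicator fun x => exG ([] : List (NdG E)) K x * dw c S x) =
        fun _ => (0 : ℝ≥0∞) := by
      funext x
      unfold exG
      simp
    rw [e, fib_const]
    exact bot_le
  | a :: C, N, K, hK, hKc, hKR, hKK, hVC, hP, hP0, hZ, hcap, hgood, hroot => by
    obtain ⟨c1, c4⟩ := hcap
    obtain ⟨m1, z1, z2⟩ := hZ a (by simp)
    have hZm : MeasurableSet a.2.2 := by simpa using z1.measurableSet.compl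
    have hchn : MeasurableSet (avoid L) := by
      rw [← reg_sT]
      refine STree.measurableSet_reg _ (valid_sT (W0 := W0) (Chn.of_list ?_ ?_ hD))
      · exact (List.pairwise_append.mp hP).1
      · exact fun V hV => hP0 V (by simp [hV])
    have hdm : Measurable (dw c S) := (continuous_dw _ _).measurable
    -- the recursive call
    have eN : (N ++ [a.1]) ++ C.map Prod.fst = N ++ (a :: C).map Prod.fst := by simp
    have eK : K ∩ (a.2.2)ᶜ ∩ noG C = K ∩ noG (a :: C) := by
      ext y
      simp only [noG, mem_inter_iff, mem_compl_iff, mem_setOf_eq, List.mem_cons,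
        forall_eq_or_imp]
      tauto
    have ih := reo0_sum_w hKl hKlc (R := R) hq hε hs hs1 hA hk hκ hSc hScv hSg hc hsc hSW hSL
      h1 hW0 hV0 hVL hVin hD x0 (C := C)
      (N := N ++ [a.1]) (K := K ∩ (a.2.2)ᶜ) (hK.inter z1) (hKc.inter z2)
      (inter_subset_left.trans hKR) (inter_subset_left.trans hKK) (fun b hb => hVC b (by simp [hb]))
      (by rw [eN]; exact hP) (by rw [eN]; exact hP0) (fun b hb => hZ b (by simp [hb]))
      (by rw [← List.append_assoc]; exact c4) (by rw [eK]; exact hgood) (by rw [eK]; exact hroot)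
    -- the first node
    have hsub : K ∩ noG (a :: C) ⊆ K := inter_subset_left
    have hN1 : ((L.map Prod.fst) ++ (N ++ [a.1])).Pairwise (· < ·) := by
      refine hP.sublist (List.Sublist.append_left (List.Sublist.append_left ?_ _) _)
      simp
    have hN0 : ∀ V ∈ L.map Prod.fst ++ (N ++ [a.1]), W0 < V := by
      intro U hU
      refine hP0 U ?_
      simp only [List.mem_append, List.map_cons, List.mem_cons, List.not_mem_nil, or_false] at hU ⊢
      tauto
    have key := cons0N_w (K := K) (Kl := Kl) hK hKc hKR hKl hKlc hKK hq hε hs hs1 hA hk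
      hSc hScv hSg hc hsc
      (l0 := l0) (W0 := W0) (V := V) (W' := a.1) (L := L) (N := N ++ [a.1]) hSW hSL
      h1 hW0 hN1 hN0 hV0 hVL
      (hVC a (by simp)) hVin hD
      (fun p hp x hx => (hgood p hp x hx).trans
        (fib_mono (fun y => indicator_le_indicator_of_subset hsub (fun _ => bot_le) y) x))
      x0 (hroot.trans
        (fib_mono (fun y => indicator_le_indicator_of_subset hsub (fun _ => bot_le) y) x0))
    have hfirst : fib W0 ((avoid L).indicator (K.indicator fun x => a.2.1 x * dw c S x)) x0 ≤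
        ENNReal.ofReal κ * fib W0 ((avoid L).indicator (K.indicator fun x =>
        capS A0 kap q s ((l0 ++ L.map Prod.fst) ++ (N ++ [a.1])) a.1 x * dw c S x)) x0 := by
      have hcm : Measurable fun x =>
          capS A0 kap q s ((l0 ++ L.map Prod.fst) ++ (N ++ [a.1])) a.1 x * dw c S x :=
        measurable_capS.mul hdm
      rw [← fib_mul (inv_const W0 _) ((hcm.indicator hK.measurableSet).indicator hchn)]
      refine fib_mono (fun y => ?_) x0
      by_cases h : y ∈ avoid L
      · rw [indicator_of_mem h, indicator_of_mem h]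
        by_cases h' : y ∈ K
        · rw [indicator_of_mem h', indicator_of_mem h']
          have e0 : (l0 ++ L.map Prod.fst) ++ (N ++ [a.1]) =
              ((l0 ++ L.map Prod.fst) ++ N) ++ [a.1] := by rw [List.append_assoc _ N]
          rw [e0, ← mul_assoc]
          exact mul_le_mul' (c1 y) le_rfl
        · rw [indicator_of_notMem h', indicator_of_notMem h', mul_zero]
      · rw [indicator_of_notMem h, indicator_of_notMem h, mul_zero]
    have hsplit : fib W0 ((avoid L).indicator fun x => exG (a :: C) K x * dw c S x) x0 =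
        fib W0 ((avoid L).indicator (K.indicator fun x => a.2.1 x * dw c S x)) x0 +
        fib W0 ((avoid L).indicator fun x => exG C (K ∩ (a.2.2)ᶜ) x * dw c S x) x0 := by
      have hm : Measurable ((avoid L).indicator (K.indicator fun x => a.2.1 x * dw c S x)) :=
        ((m1.mul hdm).indicator hK.measurableSet).indicator hchn
      rw [← fib_add hm]
      congr 1
      funext y
      by_cases h : y ∈ avoid L
      · rw [indicator_of_mem h, indicator_of_mem h, indicator_of_mem h]
        show (K.indicator a.2.1 y + exG C (K ∩ (a.2.2)ᶜ) y) * dw c S y = _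
        rw [add_mul]
        congr 1
        by_cases h' : y ∈ K
        · rw [indicator_of_mem h', indicator_of_mem h']
        · rw [indicator_of_notMem h', indicator_of_notMem h', zero_mul]
      · rw [indicator_of_notMem h, indicator_of_notMem h, indicator_of_notMem h, add_zero]
    rw [hsplit]
    have hsum : 0 ≤ (C.map fun a => (kap ^ (Module.finrank ℝ a.1 - Module.finrank ℝ V)) ^ s).sum :=
      List.sum_nonneg (by
        intro r hr
        obtain ⟨b, _, rfl⟩ := List.mem_map.mp hr
        positivity)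
    set RHS := fib W0 ((avoid L).indicator ({x | ENNReal.ofReal (Real.exp (-1418)) ≤ qq V Kl x}.indicator
          (capS A0 kap q s (l0 ++ L.map Prod.fst) V))) x0 with hRHS
    calc _ ≤ ENNReal.ofReal κ *
          (ENNReal.ofReal (cCons * (kap ^ (Module.finrank ℝ a.1 - Module.finrank ℝ V)) ^ s) * RHS) +
          ENNReal.ofReal (κ * cCons *
            (C.map fun a => (kap ^ (Module.finrank ℝ a.1 - Module.finrank ℝ V)) ^ s).sum) * RHS :=
          add_le_add (hfirst.trans (mul_le_mul' le_rfl key)) ih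
      _ = _ := by
          rw [← mul_assoc, ← ENNReal.ofReal_mul hκ, ← add_mul,
            ← ENNReal.ofReal_add (by have := cCons_pos; positivity)
              (by have := cCons_pos; positivity), List.map_cons, List.sum_cons]
          congr 2
          ring

/-- **REO2, class 0, single time, extra weight**: closed form. -/
theorem reo0_w {Kl : Set E} (hKl : IsClosed Kl) (hKlc : Convex ℝ Kl) {R : ℝ}
    (hq : 0 ≤ q) (hε : 2 * (Real.sqrt 2 * Real.exp (-(q / 4))) ≤ 1 / 41)
    (hs : 0 ≤ s) (hs1 : s ≤ 1) (hA : 0 < A0) (hk : 0 < kap) (hk1 : kap ^ s ≤ 1 / 2) (hκ : 0 ≤ κ)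
    (hSc : IsClosed S) (hScv : Convex ℝ S)
    (hSg : ENNReal.ofReal (1 - 1 / 40) ≤ stdGaussian E S) (hc : 0 ≤ c)
    (hsc : s / 8 + c ≤ 1 / 8) (hSW : TInv W0 S) (hSL : ∀ p ∈ L, TInv p.1 S)
    (h1 : ∀ V ∈ l0, V ≤ W0) (hW0 : W0 ∈ l0 ∨ W0 = ⊥)
    (hV0 : W0 ≤ V) (hVL : ∀ p ∈ L, p.1 ≤ V) (hVin : InvS V (avoid L))
    (hD : ∀ p ∈ L, MeasurableSet p.2 ∧ InvS p.1 p.2) (x0 : E)
    {C : List (NdG E)} {K : Set E} (hK : IsClosed K) (hKc : Convex ℝ K)
    (hKR : K ⊆ Metric.closedBall 0 R) (hKK : K ⊆ Kl)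
    (hVC : ∀ a ∈ C, V ≤ a.1)
    (hP : ((L.map Prod.fst) ++ C.map Prod.fst).Pairwise (· < ·))
    (hP0 : ∀ V ∈ L.map Prod.fst ++ C.map Prod.fst, W0 < V)
    (hZ : ∀ a ∈ C, Measurable a.2.1 ∧ IsClosed (a.2.2)ᶜ ∧ Convex ℝ (a.2.2)ᶜ)
    (hcap : CapG A0 kap q s κ (l0 ++ L.map Prod.fst) C)
    (hgood : ∀ p ∈ L, ∀ x ∈ p.2, ENNReal.ofReal (4 / 5) ≤ fib p.1 ((K ∩ noG C).indicator 1) x)
    (hroot : ENNReal.ofReal (2 / 3) ≤ fib W0 ((K ∩ noG C).indicator 1) x0)
    {u : ℕ} (hu : ∀ a ∈ C, u ≤ Module.finrank ℝ a.1) (huV : Module.finrank ℝ V ≤ u) :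
    fib W0 ((avoid L).indicator fun x => exG C K x * dw c S x) x0 ≤
      ENNReal.ofReal (2 * κ * cCons * (kap ^ (u - Module.finrank ℝ V)) ^ s) *
        fib W0 ((avoid L).indicator ({x | ENNReal.ofReal (Real.exp (-1418)) ≤ qq V Kl x}.indicator
          (capS A0 kap q s (l0 ++ L.map Prod.fst) V))) x0 := by
  have key := reo0_sum_w (N := []) (C := C) (K := K) hKl hKlc hq hε hs hs1 hA hk hκ
    hSc hScv hSg hc hsc hSW hSL h1 hW0 hV0
    hVL hVin hD x0 hK hKc hKR hKK hVC (by simpa using hP) (by simpa using hP0) hZ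
    (by simpa using hcap) hgood hroot
  refine key.trans (mul_le_mul' (ENNReal.ofReal_le_ofReal ?_) le_rfl)
  have h2 := sum_geo_g (E := E) hk hk1 hs (Module.finrank ℝ V) (C := C) (u := u)
    (List.pairwise_append.mp hP).2.1 hu huV
  have h3 : 0 ≤ κ * cCons := mul_nonneg hκ cCons_pos.le
  calc κ * cCons *
        (C.map fun a => (kap ^ (Module.finrank ℝ a.1 - Module.finrank ℝ V)) ^ s).sum
      ≤ κ * cCons * (2 * (kap ^ (u - Module.finrank ℝ V)) ^ s) :=
        mul_le_mul_of_nonneg_left h2 h3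
    _ = _ := by ring

end chain

end Vale.Agent.P262.Cons493
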