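import Vale.Agent.P262.M2.Fld
import Vale.Agent.P262.H395.CS2
import Vale.Agent.P262.H654.CapS
import Vale.Agent.P262.H493.ConvA

/-!
# P262, milestone 2, blocks REO and CVG: the distance between the field and the body at the labels of
one node at one state, integrated over the labels
-/

set_option linter.all false

open MeasureTheory ProbabilityTheory Set
open scoped ENNReal RealInnerProductSpace Classical

namespace Vale.Agent.P262.Cons493

open Vale.Agent.P262.H395 (mix fib Inv Fixes fib_mono fib_mul lintegral_isometry inv_const)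
open Vale.Agent.P262.H847 (UI)
open Vale.Agent.P262.H713 (Pa FT NodeOK LabF sft ch mem_iff_of im)
open Vale.Agent.P262.H654 (tr phi sg Bd InvR fr fr_mono fr_const fr_add fr_tower ofReal_fr)

variable {E : Type*} [NormedAddCommGroup E] [InnerProductSpace ℝ E] [FiniteDimensional ℝ E]
  [MeasurableSpace E] [BorelSpace E] {ι : Type*}

/-! ### trees and isometries -/

lemma PZ_mp (R : E ≃ₗᵢ[ℝ] E) : ∀ (t : FT E ι) (g : ι → E → ℝ) (x : E),
    PZ (FT.mp R t) g (R x) ↔ PZ t (fun i y => g i (R y)) x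
  | .leaf i, g, x => Iff.rfl
  | .node W c Z cls T, g, x => by
    rw [FT.mp_node]
    show (R x ∉ R.symm ⁻¹' Z → 1 / 8 ≤ FT.val (im R W) (fun x => cls (R.symm x))
      (fun k => FT.mp R (T k)) g (R x) → cls (R.symm (R x)) = 0 ∧ PZ (FT.mp R (T 0)) g (R x)) ↔
      (x ∉ Z → 1 / 8 ≤ FT.val W cls T (fun i y => g i (R y)) x → cls x = 0 ∧
        PZ (T 0) (fun i y => g i (R y)) x)
    rw [FT.val_mp, mem_preimage, LinearIsometryEquiv.symm_apply_apply, PZ_mp R (T 0)]

lemma exB_mp (R : E ≃ₗᵢ[ℝ] E) : ∀ (t : FT E ι) (K : Set E) (x : E),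
    exB (zch (FT.mp R t)) K (R x) = exB (zch t) ((fun y => R y) ⁻¹' K) x
  | .leaf i, K, x => rfl
  | .node W c Z cls T, K, x => by
    rw [FT.mp_node]
    show K.indicator (fun x => if x ∈ R.symm ⁻¹' Z then 1 else
        ENNReal.ofReal (3 * c (R.symm x))) (R x) +
        exB (zch (FT.mp R (T 0))) (K ∩ (R.symm ⁻¹' Z)ᶜ) (R x) =
      ((fun y => R y) ⁻¹' K).indicator (fun x => if x ∈ Z then 1 else ENNReal.ofReal (3 * c x)) x +
        exB (zch (T 0)) ((fun y => R y) ⁻¹' K ∩ Zᶜ) x
    rw [exB_mp R (T 0)]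
    congr 1
    · by_cases h : R x ∈ K
      · rw [indicator_of_mem h, indicator_of_mem (show x ∈ (fun y => R y) ⁻¹' K from h)]
        simp only [mem_preimage, LinearIsometryEquiv.symm_apply_apply]
      · rw [indicator_of_notMem h, indicator_of_notMem (show x ∉ (fun y => R y) ⁻¹' K from h)]
    · congr 1
      ext y
      simp only [mem_preimage, mem_inter_iff, mem_compl_iff, LinearIsometryEquiv.symm_apply_apply]

lemma zch_ok {c0 : ℝ} : ∀ {t : FT E ι}, FT.Good c0 t → ∀ a ∈ zch t,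
    (∀ x, 0 ≤ a.2.1 x) ∧ Measurable a.2.1 ∧ MeasurableSet a.2.2
  | .leaf i, _, a, ha => by simp [zch] at ha
  | .node W c Z cls T, ⟨hp, hab, hG⟩, a, ha => by
    rw [zch, List.mem_cons] at ha
    rcases ha with rfl | ha
    · exact ⟨hp.nonneg, hp.meas, hp.measZ⟩
    · exact zch_ok (hG 0) a ha

end Vale.Agent.P262.Cons493

namespace Vale.Agent.P262.M2.Sys

open Vale.Agent.P262.H118 (Iv st en K2 El2 paths)
open Vale.Agent.P262.H274 (Slow Cost)
open Vale.Agent.P262.H395 (mix fib Inv Fixes fib_mono fib_mul lintegral_isometry inv_const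
  lintegral_fib fib_compl_preimage fib_fixes)
open Vale.Agent.P262.H395.CW (pl nk OMp OMc Lab SI)
open Vale.Agent.P262.H847 (UI)
open Vale.Agent.P262.H713 (Pa FT NodeOK LabF sft ch mem_iff_of im fr_congr fib_congr fr_sel)
open Vale.Agent.P262.H654 (tr phi sg Bd InvR fr fr_mono fr_const fr_add fr_tower ofReal_fr)
open Vale.Agent.P262.CF2 (CapF Cp CpI Cf cp_ch cpI_ch cf_ch close_le close_first close_le_ex ex
  ex_UI)
open Vale.Agent.P262.Cons493

variable {E : Type*} [NormedAddCommGroup E] [InnerProductSpace ℝ E] [FiniteDimensional ℝ E]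
  [MeasurableSpace E] [BorelSpace E] {S : Sys E}

section lab

variable {m : ℕ} {k : ℝ}

lemma Cv_meas_v (hL : S.LabOK m) (p : List ℕ) : Measurable (S.Cv p m) :=
  H395.measurable_fib (((S.pf_UI p m).meas.sub (hL.fld_UI (p := p)).meas).abs.ennreal_ofReal)

/-- `|F - D| ≤ Cv` -/
lemma FD_le_Cv_v (hL : S.LabOK m) (p : List ℕ) (x : E) :
    (S.F p m x - S.De p m x) + (S.De p m x - S.F p m x) ≤ S.Cv p m x := by
  have h1 : S.De p m x = ENNReal.ofReal (fr (S.W p m) (S.pf p m) x) :=
    (S.ofReal_fr_pf (S.W p m) p m x).symm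
  have h2 : S.F p m x = ENNReal.ofReal (fr (S.W p m) (S.fld p m) x) := hL.F_eq
  have b1 := Bd.of_UI (S.pf_UI p m)
  have b2 := Bd.of_UI (hL.fld_UI (p := p))
  have h3 : S.Cv p m x = ENNReal.ofReal (fr (S.W p m) (fun y => |S.pf p m y - S.fld p m y|) x) := by
    unfold Cv
    rw [ofReal_fr (b1.sub b2).abs (fun y => abs_nonneg _)]
  have n1 : 0 ≤ fr (S.W p m) (S.pf p m) x := (H654.UI.fr (S.pf_UI p m) _).nonneg x
  have n2 : 0 ≤ fr (S.W p m) (S.fld p m) x := (H654.UI.fr (hL.fld_UI (p := p)) _).nonneg x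
  have key : |fr (S.W p m) (S.pf p m) x - fr (S.W p m) (S.fld p m) x| ≤
      fr (S.W p m) (fun y => |S.pf p m y - S.fld p m y|) x := by
    rw [← H654.fr_sub b1 b2]
    exact H654.abs_fr_le _ x
  rw [h1, h2, h3, ← ENNReal.ofReal_sub _ n1, ← ENNReal.ofReal_sub _ n2]
  rcases le_total (fr (S.W p m) (S.pf p m) x) (fr (S.W p m) (S.fld p m) x) with h | h
  · rw [ENNReal.ofReal_of_nonpos (sub_nonpos.mpr h), add_zero]
    refine ENNReal.ofReal_le_ofReal ?_
    rw [abs_of_nonpos (sub_nonpos.mpr h)] at key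
    linarith
  · rw [ENNReal.ofReal_of_nonpos (sub_nonpos.mpr h), zero_add]
    refine ENNReal.ofReal_le_ofReal ?_
    rw [abs_of_nonneg (sub_nonneg.mpr h)] at key
    linarith

lemma pay_const_v (t : FT E Unit) (g : E → ℝ) (x : E) : FT.pay t (fun _ => g) x = g x := rfl

/-- on the fibre of a label of class `c` -/
lemma Cv_class_v (hL : S.LabOK m) {p : List ℕ} {c : ℕ} {x : E} (hx : S.kl p m x = c) :
    S.Cv p m x = ENNReal.ofReal (fr (S.W p m)
      (fun y => |FT.pay (S.tC p m c) (fun _ => S.pf p m) y -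
        FT.fl (S.tC p m c) (fun _ => S.pf p m) y|) x) := by
  have b1 := Bd.of_UI (S.pf_UI p m)
  have b2 := Bd.of_UI (FT.fl_UI (hL.good_tC (p := p) (k := c)) S.cc_le' fun _ => S.pf_UI p m)
  show S.Cv p m x = ENNReal.ofReal (fr (S.W p m)
      (fun y => |S.pf p m y - FT.fl (S.tC p m c) (fun _ => S.pf p m) y|) x)
  rw [ofReal_fr (b1.sub b2).abs (fun y => abs_nonneg _)]
  refine fib_congr fun y hy => ?_
  rw [hL.fld_fibre hy, hx]

/-- labels of the tree which are neither killed nor truncated have class `0` -/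
lemma PZ_tCn (hL : S.LabOK m) (hC : CapF (S.pa m) (S.cf m) (fun p => S.Z p m) k) (hk0 : 0 ≤ k) (hk : k ≤ 1 / 8) (hm : m ≤ S.mT) :
    ∀ (n : ℕ) (p : List ℕ) (j : ℕ) (x : E), PZ (S.tCn n p m j) (fun _ => S.pf p m) x
  | 0, p, j, x => by rw [tCn_zero]; trivial
  | n + 1, p, j, x => by
    rw [tCn_succ]
    by_cases hl : S.Leaf p m
    · rw [if_pos hl]; trivial
    · rw [if_neg hl]
      set q := j :: p with hq
      obtain ⟨y, rfl⟩ : ∃ y, (S.mv.Q m q) y = x := ⟨(S.mv.Q m q).symm x, by simp⟩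
      rw [PZ_mp]
      have e : (fun (_ : Unit) (y : E) => S.pf p m (S.mv.Q m q y)) = fun _ => S.pf q m := by
        funext _ y
        exact (S.pf_cons _ p m y).symm
      rw [e]
      intro hy hv
      refine ⟨?_, PZ_tCn hL hC hk0 hk hm n q 0 y⟩
      -- the deficit
      have htm := S.tm_lt_f hm
      have e1 : FT.val (S.W q m) (S.kl q m) (S.tCn n q m) (fun _ => S.pf q m) y
          = fr (S.W q m) (FT.fl (S.tCn n q m (S.kl q m y)) fun _ => S.pf q m) y :=
        fr_sel hL.kl_inv (fun k => FT.fl (S.tCn n q m k) fun _ => S.pf q m) y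
      have hC2 : Cp k (S.W q m) (S.cf m q) (S.Z q m) (S.tCn n q m (S.kl q m y)) :=
        cp_ch (S.pa_ok m) hC n q (S.kl q m y)
      have h1 := close_le (W := S.W q m) (c := S.cf m q) (Z := S.Z q m)
        (t := S.tCn n q m (S.kl q m y)) (g := fun _ => S.pf q m) hk0 (by linarith)
        hL.good_tCn S.cc_le' (fun _ => S.pf_UI q m) hL.above_tCn hC2 (S.cf_nonneg m q) hy
      have b1 := Bd.of_UI (S.pf_UI q m)
      have b2 := Bd.of_UI (FT.fl_UI (hL.good_tCn (p := q) (k := S.kl q m y) (n := n)) S.cc_le'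
        fun _ => S.pf_UI q m)
      have h2 : fr (S.W q m) (FT.fl (S.tCn n q m (S.kl q m y)) fun _ => S.pf q m) y ≤
          fr (S.W q m) (S.pf q m) y + fr (S.W q m) (fun z =>
            |FT.pay (S.tCn n q m (S.kl q m y)) (fun _ => S.pf q m) z -
              FT.fl (S.tCn n q m (S.kl q m y)) (fun _ => S.pf q m) z|) y := by
        show fr (S.W q m) (FT.fl (S.tCn n q m (S.kl q m y)) fun _ => S.pf q m) y ≤
          fr (S.W q m) (S.pf q m) y + fr (S.W q m) (fun z =>
            |S.pf q m z - FT.fl (S.tCn n q m (S.kl q m y)) (fun _ => S.pf q m) z|) y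
        rw [← fr_add b1 (b1.sub b2).abs]
        refine fr_mono b2 (b1.add (b1.sub b2).abs) (fun z => ?_) y
        have := neg_abs_le (S.pf q m z - FT.fl (S.tCn n q m (S.kl q m y)) (fun _ => S.pf q m) z)
        linarith
      have h3 : S.cf m q y ≤ 1 / 32 := (S.cf_le hy).trans S.cc_le
      have h4 := S.cf_nonneg m q y
      have h5 : 1 / 10 ≤ fr (S.W q m) (S.pf q m) y := by
        rw [e1] at hv
        have : 4 * k * S.cf m q y ≤ 1 / 64 := by nlinarith
        linarith
      rw [kl_eq_zero_iff hy, thr_zero_c]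
      refine le_trans (ENNReal.ofReal_le_ofReal h5) ?_
      rw [S.ofReal_fr_pf (S.W q m) q m y]
      exact De_le_Dw (Same.refl (S.K.zero_mem_B q 0) htm) y

/-- the class `0` chain of the tree in the coordinates of its last node -/
lemma zch_coord (hL : S.LabOK m) : ∀ (n : ℕ) (p : List ℕ), ∃ (j : ℕ) (U : E ≃ₗᵢ[ℝ] E),
    Fixes U (S.W p m) ∧ (∀ i < j, ¬ S.Leaf (List.replicate i 0 ++ p) m) ∧
    ∀ (K : Set E) (y : E), exB (zch (S.tCn n p m 0)) K (U y) =
      exB (zl (fun r => S.W r m) (S.cf m) (fun r => S.Z r m) j p) ((fun y => U y) ⁻¹' K) y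
  | 0, p => by
    refine ⟨0, LinearIsometryEquiv.refl ℝ E, Fixes.refl _, fun i hi => absurd hi (by omega), ?_⟩
    intro K y
    rw [tCn_zero]
    rfl
  | n + 1, p => by
    by_cases hl : S.Leaf p m
    · refine ⟨0, LinearIsometryEquiv.refl ℝ E, Fixes.refl _, fun i hi => absurd hi (by omega), ?_⟩
      intro K y
      rw [tCn_succ, if_pos hl]
      rfl
    · set q := 0 :: p with hq
      obtain ⟨j, U, hU, hlf, hex⟩ := zch_coord hL n q
      refine ⟨j + 1, U.trans (S.mv.Q m q), (hU.mono (S.W_le 0 p m)).trans (S.Q_fix 0 p m), ?_, ?_⟩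
      · intro i hi
        rcases i with _ | i
        · simpa using hl
        · rw [← rep_cons]
          exact hlf i (by omega)
      · intro K y
        rw [tCn_succ, if_neg hl]
        show exB (zch (FT.mp (S.mv.Q m q) (.node (S.W q m) (S.cf m q) (S.Z q m) (S.kl q m)
          (S.tCn n q m)))) K ((S.mv.Q m q) (U y)) = _
        rw [exB_mp]
        show ((fun y => (S.mv.Q m q) y) ⁻¹' K).indicator (fun x => if x ∈ S.Z q m then 1 else
            ENNReal.ofReal (3 * S.cf m q x)) (U y) +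
            exB (zch (S.tCn n q m 0)) ((fun y => (S.mv.Q m q) y) ⁻¹' K ∩ (S.Z q m)ᶜ) (U y) =
          ((fun y => (U.trans (S.mv.Q m q)) y) ⁻¹' K).indicator (fun x => if x ∈ S.Z q m then 1 else
            ENNReal.ofReal (3 * S.cf m q x)) y +
            exB (zl (fun r => S.W r m) (S.cf m) (fun r => S.Z r m) j q)
              ((fun y => (U.trans (S.mv.Q m q)) y) ⁻¹' K ∩ (S.Z q m)ᶜ) y
        rw [hex]
        have hZ : ∀ y, U y ∈ S.Z q m ↔ y ∈ S.Z q m := fun y =>
          mem_iff_of (S.Z_inv q m) (hU.proj y)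
        have hcf : S.cf m q (U y) = S.cf m q y := (hL.ok q).inv.eq_of (hU.proj y)
        congr 1
        · by_cases h : (S.mv.Q m q) (U y) ∈ K
          · rw [indicator_of_mem (show U y ∈ (fun y => (S.mv.Q m q) y) ⁻¹' K from h),
              indicator_of_mem (show y ∈ (fun y => (U.trans (S.mv.Q m q)) y) ⁻¹' K from h), hcf]
            simp only [hZ]
          · rw [indicator_of_notMem (show U y ∉ (fun y => (S.mv.Q m q) y) ⁻¹' K from h),
              indicator_of_notMem (show y ∉ (fun y => (U.trans (S.mv.Q m q)) y) ⁻¹' K from h)]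
        · congr 1
          ext z
          simp only [mem_preimage, mem_inter_iff, mem_compl_iff, hZ]
          rfl

/-- label spaces are strictly increasing up to the children of a non leaf node -/
lemma SI_cons_v {q : List ℕ} {c : ℕ} (hm : S.mv.tm m < S.T) (hq : ¬ S.Leaf q m) :
    SI (fun r => S.W r m) (c :: q) := by
  intro d r hr
  have hrq' : r <:+ q := by
    rcases List.suffix_cons_iff.mp hr with h | h
    · rw [List.cons.injEq] at h
      rw [h.2]
    · exact (List.suffix_cons d r).trans h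
  have hle : S.W r m ≤ S.W (d :: r) m := S.K.W_le d r _
  have hrq : S.W r m ≤ S.W q m := S.K.W_mono hrq' _
  have h2 : 2 ≤ Module.finrank ℝ (S.W r m)ᗮ := by
    have h3 : 2 ≤ Module.finrank ℝ (S.W q m)ᗮ := by
      unfold Leaf at hq
      omega
    exact h3.trans (Submodule.finrank_mono (Submodule.orthogonal_le hrq))
  have h4 := (S.K.dim_child (c := d) (p := r) hm h2).1
  refine lt_of_le_of_ne hle fun h => ?_
  have h5 : S.K.W r (S.mv.tm m) = S.K.W (d :: r) (S.mv.tm m) := h
  rw [← h5] at h4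
  omega

/-- **CONV, class `0`**: all labels of `p` of class `0`, one state. -/
theorem conv_zero (H : S.ConsC) (hkρ : S.kap ^ S.th ≤ 1 / 2) (hm : m ≤ S.mT) (hC : CapF (S.pa m) (S.cf m) (fun p => S.Z p m) k)
    (hk0 : 0 ≤ k) (hk : k ≤ 1 / 8) (hroot : ∀ x, S.kl [] m x ≠ 0) {p : List ℕ}
    (hp : ¬ S.Leaf p m) :
    ∫⁻ x, (S.Rg p 0 m).indicator 1 x * S.Cv p m x ∂stdGaussian E ≤
      ENNReal.ofReal (2 * kR S.th (S.M + 1) S.b0 * cCons *
        (S.kap ^ (Module.finrank ℝ (S.W (0 :: p) m) - Module.finrank ℝ (S.W p m))) ^ S.th) *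
        S.Vc p 0 m := by
  have hL := S.labOK hm
  have htm := S.tm_lt_f hm
  obtain ⟨j, U, hU, hlf, hex⟩ := zch_coord (S := S) hL (Module.finrank ℝ E) p
  have hRi : H44.InvS (S.W p m) (S.Rg p 0 m) := (lab_c htm).inv_c (SI_c htm hp) 0
  have hRm : MeasurableSet (S.Rg p 0 m) := (lab_c htm).measurable_c 0
  have hind : Inv (S.W p m) ((S.Rg p 0 m).indicator (1 : E → ℝ≥0∞)) := H395.CW.inv_ind hRi
  have hindm : Measurable ((S.Rg p 0 m).indicator (1 : E → ℝ≥0∞)) := measurable_one.indicator hRm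
  set t := S.tC p m 0 with ht
  set g : Unit → E → ℝ := fun _ => S.pf p m with hg
  have hgood : FT.Good S.cc t := hL.good_tC
  have hexU := ex_UI (t := t) (g := g) hgood S.cc_le' (fun _ => S.pf_UI p m)
  have hXm := S.measurableSet_X p m
  -- step 1: to the charge
  have s1 : ∫⁻ x, (S.Rg p 0 m).indicator 1 x * S.Cv p m x ∂stdGaussian E ≤
      ∫⁻ x, (S.Rg p 0 m).indicator 1 x * ENNReal.ofReal (ex t g x) ∂stdGaussian E := by
    have e1 : ∫⁻ x, (S.Rg p 0 m).indicator 1 x * ENNReal.ofReal (ex t g x) ∂stdGaussian E =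
        ∫⁻ x, (S.Rg p 0 m).indicator 1 x *
          fib (S.W p m) (fun y => ENNReal.ofReal (ex t g y)) x ∂stdGaussian E := by
      rw [← lintegral_fib (W := S.W p m)
        (f := fun x => (S.Rg p 0 m).indicator 1 x * ENNReal.ofReal (ex t g x))
        (hindm.mul hexU.meas.ennreal_ofReal)]
      refine lintegral_congr fun x => ?_
      exact fib_mul hind hexU.meas.ennreal_ofReal x
    rw [e1]
    refine lintegral_mono fun x => ?_
    by_cases hx : x ∈ S.Rg p 0 m
    · refine mul_le_mul' le_rfl ?_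
      rw [Cv_class_v hL (show S.kl p m x = 0 from hx.2),
        ← ofReal_fr (Bd.of_UI hexU) hexU.nonneg]
      exact ENNReal.ofReal_le_ofReal (close_le_ex hk0 hk hgood S.cc_le' (fun _ => S.pf_UI p m)
        hL.above_tC (cpI_ch (S.pa_ok m) hC _ p 0) x)
    · simp only []
      rw [indicator_of_notMem hx, zero_mul, zero_mul]
  -- step 2: to the chain
  have hzok := zch_ok hgood
  have hBm : Measurable (exB (zch t) (S.X p m)) :=
    measurable_exB (fun a ha => ⟨(hzok a ha).2.1, (hzok a ha).2.2⟩) hXm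
  have s2 : ∫⁻ x, (S.Rg p 0 m).indicator 1 x * ENNReal.ofReal (ex t g x) ∂stdGaussian E ≤
      ∫⁻ x, (S.Rg p 0 m).indicator 1 x * exB (zch t) (S.X p m) x ∂stdGaussian E := by
    refine lintegral_mono fun x => mul_le_mul' le_rfl ?_
    refine ex_le_exB (PZ_tCn hL hC hk0 hk hm _ p 0 x) (fun hx => S.pf_notMem hx)
      ((S.pf_UI p m).nonneg x) (fun a ha => (hzok a ha).1 x)
  -- step 3: coordinates of the last node
  set K := (fun y => U y) ⁻¹' (S.X p m) with hK
  have s3 : ∫⁻ x, (S.Rg p 0 m).indicator 1 x * exB (zch t) (S.X p m) x ∂stdGaussian E =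
      ∫⁻ x, (S.Rg p 0 m).indicator 1 x *
        exB (zl (fun r => S.W r m) (S.cf m) (fun r => S.Z r m) j p) K x ∂stdGaussian E := by
    rw [← lintegral_isometry U (f := fun x => (S.Rg p 0 m).indicator 1 x *
      exB (zch t) (S.X p m) x) (hindm.mul hBm)]
    refine lintegral_congr fun x => ?_
    rw [H395.Inv.fixes hU hind x]
    congr 1
    exact hex (S.X p m) x
  -- step 4: the class 0 chain
  have hSI : SI (fun r => S.W r m) (List.replicate j 0 ++ p) := by
    rcases j with _ | j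
    · simpa using SI_c htm hp
    · have h1 := hlf j (by omega)
      have h2 : List.replicate (j + 1) 0 ++ p = 0 :: (List.replicate j 0 ++ p) := rfl
      rw [h2]
      exact SI_cons_v htm h1
  have hZn : (fun r => (nk (fun r => S.W r m) S.A0 S.kap S.qq (ENNReal.ofReal S.b0) r)ᶜ) =
      fun r => S.Z r m := by
    funext r
    rw [nk_eq_c, compl_compl]
  have s4 := reo_zero (W := fun r => S.W r m) (cls := fun r => S.kl r m) (om := fun r => S.om r m)
    (p := p) (c := S.cf m) (A0 := S.A0) (kap := S.kap) (q := S.qq) (th := S.th) (b0 := S.b0)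
    (M := S.M + 1) (K := K) j (W_nil_c m) hSI (lab_c htm) S.hqq.le H.qq S.hth.le S.hth1.le S.hA0
    S.hkap H.kap hkρ b0_pos_c S.hAb (by linarith [S.hM])
    ((S.isClosed_X p m).preimage U.continuous)
    ((S.convex_X p m).linear_preimage (U.toLinearEquiv : E →ₗ[ℝ] E)) (R := S.R)
    (fun y hy => by
      have := S.X_subset_ball p m (show U y ∈ S.X p m from hy)
      simpa [U.norm_map] using this) hroot
    (fun r _ x hx => by
      have h := A_le_b0_c (S := S) (p := r) (m := m) (x := x) hx.1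
      rw [mem_setOf_eq, pl_eq_chn_c]
      exact h)
    (fun r _ x h0 hx => by
      rw [nk_eq_c] at hx
      exact om_of_zero_c h0 hx)
    (fun r hr x h0 hx => by
      have h1 : fib (S.W r m) (Kᶜ.indicator 1) x = S.De r m x := by
        rw [hK, fib_compl_preimage (hU.mono (S.W_mono hr m)) hXm x]
        exact S.mv.fib_Bd_compl (fun t => M1.measurableSet_body S.v S.R t) m hr x
      rw [h1]
      exact (good_of_pos_c h0 (In.self_c (zero_B_c r 0) htm)).trans
        (ENNReal.ofReal_le_ofReal (by norm_num)))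
    (fun r => (hL.ok r).meas)
    (fun r x => by
      rw [pl_eq_chn_c]
      exact (S.ofReal_cf m r x).le)
  rw [hZn] at s4
  refine s1.trans (s2.trans ((le_of_eq s3).trans (s4.trans (mul_le_mul' le_rfl ?_))))
  unfold Vc Rg
  refine lintegral_mono fun x => ?_
  refine mul_le_mul' le_rfl ?_
  by_cases h1 : x ∈ {x | ENNReal.ofReal (Real.exp (-1418)) ≤ H439.qq (S.W p m) K x}
  · have h2 : H439.qq (S.W p m) K x = S.q p m x := by
      show fib (S.W p m) (K.indicator 1) x = _
      rw [← show fib (S.W p m) ((S.X p m).indicator 1) x = S.q p m x from rfl,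
        ← fib_fixes hU (measurable_one.indicator hXm) x]
      rfl
    have h3 : ENNReal.ofReal (Real.exp (-1418)) ≤ S.q p m x := by
      rw [← h2]; exact h1
    rw [indicator_of_mem h1, pl_eq_chn_c]
    have h4 : S.psiC p 0 m x = 1 := by
      have hin := In.self_c (zero_B_c (S := S) p 0) htm
      have h5 : 2 * S.q0 ≤ (Finset.Icc (S.mv.sS (S.K.B p 0) m) (S.mv.eS (S.K.B p 0) m)).sup
          fun k => S.q p k x :=
        (H.q0.trans h3).trans (Finset.le_sup (f := fun k => S.q p k x)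
          (Finset.mem_Icc.mpr hin))
      unfold psiC
      rw [if_pos rfl, if_pos h5]
    rw [h4, mul_one]
    exact le_rfl
  · rw [indicator_of_notMem h1]
    exact bot_le

/-- **CONV, class at least one.** `κ` = constant of the first level. -/
theorem conv_pos (hm : m ≤ S.mT) (hC : CapF (S.pa m) (S.cf m) (fun p => S.Z p m) k) (hk0 : 0 ≤ k) (hk : k ≤ 1 / 8)
    {p : List ℕ} {c : ℕ} (hc : c ≠ 0) {κ : ℝ} (hκ : 0 ≤ κ)
    (h1 : ∀ x, x ∉ S.Z p m →
      fr (S.W p m) (fun y => if y ∈ S.Z (c :: p) m then 0 else S.cf m (c :: p) y) x ≤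
        κ * S.cf m p x)
    (h2 : ∀ x, x ∉ S.Z p m →
      fr (S.W p m) (fun y => if y ∈ S.Z (c :: p) m then (1 : ℝ) else 0) x ≤ κ * S.cf m p x) :
    ∫⁻ x, (S.Rg p c m).indicator 1 x * S.Cv p m x ∂stdGaussian E ≤
      ENNReal.ofReal (4 * κ * (S.M + 1)) * S.Vc p c m := by
  have hL := S.labOK hm
  have htm := S.tm_lt_f hm
  have hM := S.hM
  unfold Vc
  have hmm : Measurable fun x => (S.Rg p c m).indicator (1 : E → ℝ≥0∞) x *
      (S.As S.th p m x * S.psiC p c m x) :=
    (measurable_one.indicator (measurableSet_Rg_c htm)).mul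
    ((measurable_As_c S.th p m).mul (measurable_psiC_c p c m))
  rw [← lintegral_const_mul _ hmm]
  refine lintegral_mono fun x => ?_
  by_cases hx : x ∈ S.Rg p c m
  swap
  · simp only []
    rw [indicator_of_notMem hx, zero_mul]
    exact bot_le
  have hxo : x ∈ S.om p m := hx.1.2 p (List.suffix_refl _)
  have hxZ : x ∉ S.Z p m := hxo.1
  have hxc : S.kl p m x = c := hx.2
  simp only []
  rw [indicator_of_mem hx, Pi.one_apply, one_mul, one_mul, Cv_class_v hL hxc]
  have hcf : Cf κ (S.W p m) (S.cf m p) x (S.tC p m c) :=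
    cf_ch (cl := fun p => S.kl p m) (S.pa_ok m) (fun _ => h1 x hxZ) (fun _ => h2 x hxZ) _
  have h3 := close_first (g := fun _ => S.pf p m) hκ hk0 (by linarith)
    (hL.good_tC (p := p) (k := c)) S.cc_le' (fun _ => S.pf_UI p m) hL.above_tC
    (cpI_ch (S.pa_ok m) hC _ p c) hcf (S.cf_nonneg m p x)
  refine (ENNReal.ofReal_le_ofReal h3).trans ?_
  rw [ENNReal.ofReal_mul (by positivity), S.ofReal_cf, ← mul_assoc,
    ← ENNReal.ofReal_mul (by positivity)]
  refine mul_le_mul' le_rfl ?_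
  have h4 : S.A p m x ≤ S.Dw p c m x := A_le_Dw_c htm hxc hxo
  have h5 : S.A p m x = S.As S.th p m x * S.A p m x ^ (1 - S.th) := by
    rw [← S.A_rpow S.hth.le, ← ENNReal.rpow_add_of_nonneg _ _ S.hth.le (by linarith [S.hth1]),
      show S.th + (1 - S.th) = 1 by ring, ENNReal.rpow_one]
  rw [h5]
  unfold psiC
  rw [if_neg hc]
  exact mul_le_mul' le_rfl (ENNReal.rpow_le_rpow h4 (by linarith [S.hth1]))

end lab

end Vale.Agent.P262.M2.Sys
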