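import Vale.Agent.P262.H493.ConvB

/-!
# P262, milestone 2, blocks REO and CVG: the sum over the first and the last states of the lives of the
children

`CL j m`: mean distance between the field and the body at the counted labels of level `j`, if `m` is
the last state of the life of the child of the label; `CF j m`: first state.
`sum_CL`, `sum_CF`: `∑ m, CL j m ≤ kV * U j`.
-/

set_option linter.all false

open MeasureTheory ProbabilityTheory Set
open scoped ENNReal RealInnerProductSpace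

namespace Vale.Agent.P262.M2.Sys

open Vale.Agent.P262.H118 (Iv st en K2 El2 paths mem_paths st_mem st_le lt_en iv_en en_le
  sum_regroup_all)
open Vale.Agent.P262.H274 (Slow Cost)
open Vale.Agent.P262.H395 (mix fib Inv Fixes fib_mono fib_mul)
open Vale.Agent.P262.H395.CW (pl nk OMp OMc Lab SI cons_sum)
open Vale.Agent.P262.H654 (fr Bd)
open Vale.Agent.P262.Cons493

variable {E : Type*} [NormedAddCommGroup E] [InnerProductSpace ℝ E] [FiniteDimensional ℝ E]
  [MeasurableSpace E] [BorelSpace E] {S : Sys E}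

/-- hypotheses of CONV -/
structure ConvH (S : Sys E) : Prop where
  cons : S.ConsC
  kr : S.kap ^ S.th ≤ S.ρ
  kp : S.kp 1 ≤ 1 / 8
  root : ∀ m, m ≤ S.mT → ∀ x, S.kl [] m x ≠ 0

/-- the constant of one state -/
noncomputable def CVc (S : Sys E) : ℝ := 2 * kR S.th (S.M + 1) S.b0 * cCons + 8 / S.b0

/-- the constant of the sums -/
noncomputable def kV (S : Sys E) : ℝ := S.CVc * (S.kap ^ S.th / S.ρ)

lemma CVc_nonneg : 0 ≤ S.CVc := by
  have h1 := kR_nonneg (s := S.th) (M := S.M + 1) (b0 := S.b0) (by linarith [S.hM]) b0_pos_c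
  have h2 := cCons_pos
  have h3 : 0 < S.b0 := b0_pos_c
  unfold CVc
  positivity

lemma ConvH.eps (H : S.ConvH) : 2 * (Real.sqrt 2 * Real.exp (-(S.qq / 4))) ≤ 1 / 2 :=
  H.cons.qq.trans (by norm_num)

/-- **CONV, one state, one node, all classes** -/
theorem conv_one (H : S.ConvH) {p : List ℕ} {c m : ℕ} (hm : m ≤ S.mT) (hp : ¬ S.Leaf p m) :
    ∫⁻ x, (S.Rg p c m).indicator 1 x * S.Cv p m x ∂stdGaussian E ≤
      ENNReal.ofReal (S.CVc *
        (S.kap ^ (Module.finrank ℝ (S.W (c :: p) m) - Module.finrank ℝ (S.W p m))) ^ S.th) *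
        S.Vc p c m := by
  have htm := S.tm_lt_f hm
  have hC := capF H.eps htm
  have hk0 := kp_nonneg (S := S) 1
  have hb : 0 < S.b0 := b0_pos_c
  have hkR := kR_nonneg (s := S.th) (M := S.M + 1) (b0 := S.b0) (by linarith [S.hM]) hb
  have hc0 := cCons_pos
  have hkap := S.hkap
  set d := Module.finrank ℝ (S.W (c :: p) m) - Module.finrank ℝ (S.W p m) with hd
  have hpw : 0 ≤ (S.kap ^ d) ^ S.th := by positivity
  rcases Nat.eq_zero_or_pos c with hc | hc
  · subst hc
    have h1 := conv_zero H.cons (H.kr.trans (by linarith [S.hρ1])) hm hC hk0 H.kp (H.root m hm) hp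
    refine h1.trans (mul_le_mul' (ENNReal.ofReal_le_ofReal ?_) le_rfl)
    unfold CVc
    refine mul_le_mul_of_nonneg_right ?_ hpw
    have : 0 ≤ 8 / S.b0 := by positivity
    linarith
  · have h1 := conv_pos hm hC hk0 H.kp (p := p) (c := c) (by omega)
      (κ := S.kp (S.kdm (c :: p) m)) (kp_nonneg _)
      (fun x hx => fr_cap_child H.eps c htm hp hx) (fun x hx => fr_kil_child H.eps c htm hp hx)
    refine h1.trans (mul_le_mul' (ENNReal.ofReal_le_ofReal ?_) le_rfl)
    have e1 : 4 * S.kp (S.kdm (c :: p) m) * (S.M + 1) = 8 / S.b0 * S.kap ^ d := by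
      have hM : 0 < S.M + 1 := by have := S.hM; linarith
      rw [kdm_cons, ← hd]
      unfold Sys.kp cc
      field_simp
      ring
    rw [e1]
    have h2 : S.kap ^ d ≤ (S.kap ^ d) ^ S.th := by
      have h3 : 0 < S.kap ^ d := pow_pos hkap d
      have h4 : S.kap ^ d ≤ 1 := pow_le_one₀ hkap.le S.hkap1
      calc S.kap ^ d = (S.kap ^ d) ^ (1 : ℝ) := (Real.rpow_one _).symm
        _ ≤ (S.kap ^ d) ^ S.th := Real.rpow_le_rpow_of_exponent_ge h3 h4 S.hth1.le
    unfold CVc
    have h5 : 0 ≤ 2 * kR S.th (S.M + 1) S.b0 * cCons := by positivity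
    have h6 : 0 ≤ 8 / S.b0 := by positivity
    calc 8 / S.b0 * S.kap ^ d ≤ 8 / S.b0 * (S.kap ^ d) ^ S.th := mul_le_mul_of_nonneg_left h2 h6
      _ ≤ _ := mul_le_mul_of_nonneg_right (by linarith) hpw

/-! ### sums over states -/

/-- a sum over states which are determined by the intervals of a partition -/
lemma sum_state_v {B : Set ℕ} (h0 : 0 ∈ B) (F : ℕ → ℝ≥0∞) (P : ℕ → Prop) [DecidablePred P]
    (σ : ℕ → ℕ) (hσ : ∀ m, m ≤ S.mT → P m → σ (st B (S.mv.tm m)) = m) :
    ∑ m ∈ Finset.range (S.mT + 1), (if P m then F m else 0) ≤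
      ∑ a ∈ Finset.range S.T, B.indicator (fun a => F (σ a)) a := by
  classical
  rw [← Finset.sum_filter]
  set A := (Finset.range (S.mT + 1)).filter P with hA
  have hmem : ∀ m ∈ A, m ≤ S.mT ∧ P m := by
    intro m hm
    rw [hA, Finset.mem_filter, Finset.mem_range] at hm
    exact ⟨by omega, hm.2⟩
  set f : ℕ → ℕ := fun m => st B (S.mv.tm m) with hf
  have hinj : ∀ a ∈ A, ∀ b ∈ A, f a = f b → a = b := by
    intro a ha b hb h
    have h1 := hσ a (hmem a ha).1 (hmem a ha).2
    have h2 := hσ b (hmem b hb).1 (hmem b hb).2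
    rw [← h1, ← h2]
    exact congrArg σ h
  have e1 : ∑ m ∈ A, F m = ∑ a ∈ A.image f, F (σ a) := by
    rw [Finset.sum_image hinj]
    refine Finset.sum_congr rfl fun m hm => ?_
    rw [hf, hσ m (hmem m hm).1 (hmem m hm).2]
  have e2 : ∑ a ∈ A.image f, F (σ a) = ∑ a ∈ A.image f, B.indicator (fun a => F (σ a)) a := by
    refine Finset.sum_congr rfl fun a ha => ?_
    rw [Finset.mem_image] at ha
    obtain ⟨m, _, rfl⟩ := ha
    rw [indicator_of_mem (st_mem h0 _)]
  rw [e1, e2]
  refine Finset.sum_le_sum_of_subset ?_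
  intro a ha
  rw [Finset.mem_image] at ha
  obtain ⟨m, hm, rfl⟩ := ha
  rw [Finset.mem_range]
  exact (st_le _).trans_lt (S.tm_lt_f (hmem m hm).1)

/-- state of a life which starts at `a` -/
lemma le_mT_of_In {B : Set ℕ} {m k : ℕ} (hm : S.mv.tm m < S.T) (h : S.In B m k) : k ≤ S.mT := by
  have h1 := S.mv.eS_lt (B := B) hm
  have h2 := h.2
  unfold mT
  omega

open Classical in
/-- **CONV at one node, summed over the lives of the child**, one state `σ a` of each life -/
theorem conv_node (H : S.ConvH) (p : List ℕ) (c : ℕ) (σ : ℕ → ℕ)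
    (hσ : ∀ a ∈ S.K.nw (c :: p), a < S.T → S.In (S.K.nw (c :: p)) (S.mv.n a) (σ a)) :
    ∑ a ∈ Finset.range S.T, (S.K.nw (c :: p)).indicator (fun a => if ¬ S.Leaf p (σ a) then
      ∫⁻ x, (S.Rg p c (σ a)).indicator 1 x * S.Cv p (σ a) x ∂stdGaussian E else 0) a ≤
      ENNReal.ofReal S.kV * S.UtC p c := by
  unfold UtC
  rw [sum_first_c (zero_B_c (S := S) p c) _ (fun m hm => by
    rw [if_neg]
    rintro ⟨_, h⟩
    exact hm h), sum_regroup_all (zero_B_c (S := S) p c) S.T, Finset.mul_sum]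
  refine Finset.sum_le_sum fun s hs => ?_
  rw [Finset.mem_range] at hs
  by_cases hsB : s ∈ S.K.B p c
  swap
  · rw [indicator_of_notMem hsB]
    exact bot_le
  rw [indicator_of_mem hsB, indicator_of_mem hsB]
  have hiv := iv_en hsB hs
  set e := en (S.K.B p c) S.T s with he
  have htn : S.mv.tm (S.mv.n s) = s := S.mv.tm_n s
  have hst : st (S.K.B p c) s = s := H118.st_eq_self hsB
  have hsS : S.mv.sS (S.K.B p c) (S.mv.n s) = S.mv.n s := by
    unfold El2.sS
    rw [htn, hst]
  have htms : S.mv.tm (S.mv.n s) < S.T := by rw [htn]; exact hs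
  -- states of the window
  have hIn : ∀ a, s ≤ a → a < e → S.In (S.K.B p c) (S.mv.n s) (S.mv.n a) := by
    intro a h1 h2
    refine ⟨?_, ?_⟩
    · rw [hsS]; exact S.mv.n_mono h1
    · unfold El2.eS
      rw [htn, hst, ← he]
      have := S.mv.n_strictMono h2
      omega
  have hInσ : ∀ a, a ∈ S.K.nw (c :: p) → s ≤ a → a < e →
      S.In (S.K.B p c) (S.mv.n s) (σ a) := by
    intro a ha h1 h2
    have haT : a < S.T := lt_of_lt_of_le h2 (en_le _ _ _)
    have hta : S.mv.tm (S.mv.n a) < S.T := by rw [S.mv.tm_n]; exact haT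
    have h3 := (hσ a ha haT).mono_c (S.K.B_sub_nw p c) (zero_B_c p c) hta
    obtain ⟨h4, h5⟩ := In.same_c (zero_B_c p c) htms (hIn a h1 h2)
    exact ⟨by rw [← h4]; exact h3.1, by rw [← h5]; exact h3.2⟩
  by_cases hleaf : S.Leaf p (S.mv.n s)
  · have hz : ∀ a ∈ Finset.Ico s e, (S.K.nw (c :: p)).indicator (fun a =>
        if ¬ S.Leaf p (σ a) then
          ∫⁻ x, (S.Rg p c (σ a)).indicator 1 x * S.Cv p (σ a) x ∂stdGaussian E else 0) a = 0 := by
      intro a ha
      rw [Finset.mem_Ico] at ha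
      by_cases hn : a ∈ S.K.nw (c :: p)
      · rw [indicator_of_mem hn, if_neg]
        intro h
        apply h
        have h1 : S.W p (σ a) = S.W p (S.mv.n s) :=
          W_In_c (S.K.nw_sub_B p c) htms (hInσ a hn ha.1 ha.2)
        unfold Leaf at hleaf ⊢
        rw [h1]
        exact hleaf
      · rw [indicator_of_notMem hn]
    rw [Finset.sum_eq_zero hz]
    exact bot_le
  · rw [if_pos ⟨hleaf, hsS⟩]
    have h2 : 2 ≤ Module.finrank ℝ (S.K.W p s)ᗮ := by
      unfold Leaf W at hleaf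
      rw [htn] at hleaf
      omega
    have hcs := cons_sum S.K S.hv S.hδ S.hρ (kap := S.kap) (th := S.th) (CC := S.CVc) S.hkap H.kr
      CVc_nonneg h2 hiv (F := fun a =>
        if ¬ S.Leaf p (σ a) then
          ∫⁻ x, (S.Rg p c (σ a)).indicator 1 x * S.Cv p (σ a) x ∂stdGaussian E else 0)
      (U := S.Vc p c (S.mv.n s)) (by
        intro a ha ha1 ha2
        by_cases hcond : ¬ S.Leaf p (σ a)
        · simp only [hcond, not_false_eq_true, if_true]
          have haT : a < S.T := lt_of_lt_of_le ha2 (en_le _ _ _)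
          have hta : S.mv.tm (S.mv.n a) < S.T := by rw [S.mv.tm_n]; exact haT
          have hin := hσ a ha haT
          have h3 := conv_one H (p := p) (c := c) (m := σ a) (le_mT_of_In hta hin) hcond
          rw [Vc_In_c htms (hInσ a ha ha1 ha2)] at h3
          refine h3.trans (le_of_eq ?_)
          rw [W_In_c subset_rfl hta hin,
            W_suffix_c (List.suffix_cons c p) subset_rfl hta hin]
          unfold W
          rw [S.mv.tm_n]
        · simp only [hcond, if_false]
          exact bot_le)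
    refine hcs.trans (le_of_eq ?_)
    unfold cstC kV
    rw [htn, hst, ← he, ← mul_assoc, ← ENNReal.ofReal_mul (by
      have h1 := CVc_nonneg (S := S)
      have h2 := S.hρ
      have h3 : 0 ≤ S.kap ^ S.th := Real.rpow_nonneg S.hkap.le _
      positivity)]

/-! ### the sums of one level -/

/-- distance between the field and the body at the counted labels of level `j` which satisfy `P` -/
noncomputable def CX (S : Sys E) (P : ℕ → List ℕ → ℕ → Prop) (j m : ℕ) : ℝ≥0∞ :=
  ∫⁻ x, iw (S.NL j m ∩ S.OL j m ∩ {x | x ∈ S.om (S.nd m x j) m} ∩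
    {x | P (S.kl (S.nd m x j) m x) (S.nd m x j) m}) x * S.Cv (S.nd m x j) m x ∂stdGaussian E

/-- the child of the label of level `j` ends at the state `m` -/
noncomputable def CL (S : Sys E) (j m : ℕ) : ℝ≥0∞ :=
  S.CX (fun c p m => S.mv.eS (S.K.nw (c :: p)) m = m) j m

/-- the child of the label of level `j` starts at the state `m` -/
noncomputable def CF (S : Sys E) (j m : ℕ) : ℝ≥0∞ :=
  S.CX (fun c p m => S.mv.sS (S.K.nw (c :: p)) m = m) j m

open Classical in
lemma CX_eq (P : ℕ → List ℕ → ℕ → Prop) (j : ℕ) {m : ℕ} (hm : m ≤ S.mT) :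
    S.CX P j m = ∑ z ∈ S.PC j, if ¬ S.Leaf z.2 m ∧ P z.1 z.2 m then
      ∫⁻ x, (S.Rg z.2 z.1 m).indicator 1 x * S.Cv z.2 m x ∂stdGaussian E else 0 := by
  have htm := S.tm_lt_f hm
  have hL := S.labOK hm
  unfold CX
  set g : ℕ → List ℕ → E → ℝ≥0∞ := fun c p x =>
    if ¬ S.Leaf p m ∧ P c p m then S.Cv p m x else 0 with hg
  have hgm : ∀ c p, Measurable (g c p) := by
    intro c p
    simp only [hg]
    by_cases h : ¬ S.Leaf p m ∧ P c p m
    · simp only [h, not_false_eq_true, and_self, if_true]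
      exact Cv_meas_v hL p
    · simp only [h, if_false]
      exact measurable_const
  have hOL : ∀ x, x ∈ S.OL (j + 1) m ↔ x ∈ S.OL j m ∧ x ∈ S.om (S.nd m x j) m := by
    intro x
    constructor
    · intro h
      exact ⟨fun i hi => h i (by omega), h j (by omega)⟩
    · rintro ⟨h1, h2⟩ i hi
      rcases Nat.lt_succ_iff_lt_or_eq.mp hi with h | rfl
      · exact h1 i h
      · exact h2
  have e1 : ∀ x, iw (S.NL j m ∩ S.OL j m ∩ {x | x ∈ S.om (S.nd m x j) m} ∩
      {x | P (S.kl (S.nd m x j) m x) (S.nd m x j) m}) x * S.Cv (S.nd m x j) m x =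
      ∑ z ∈ S.PC j, (S.Rg z.2 z.1 m).indicator 1 x * g z.1 z.2 x := by
    intro x
    rw [← decomp_c]
    by_cases h1 : x ∈ S.OL (j + 1) m
    · rw [indicator_of_mem h1]
      obtain ⟨h5, h6⟩ := (hOL x).mp h1
      simp only [hg]
      by_cases h2 : ¬ S.Leaf (S.nd m x j) m ∧ P (S.kl (S.nd m x j) m x) (S.nd m x j) m
      · have h3 : x ∈ S.NL j m ∩ S.OL j m ∩ {x | x ∈ S.om (S.nd m x j) m} ∩
            {x | P (S.kl (S.nd m x j) m x) (S.nd m x j) m} := ⟨⟨⟨h2.1, h5⟩, h6⟩, h2.2⟩
        unfold iw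
        rw [indicator_of_mem h3, Pi.one_apply, one_mul, if_pos h2]
      · have h3 : x ∉ S.NL j m ∩ S.OL j m ∩ {x | x ∈ S.om (S.nd m x j) m} ∩
            {x | P (S.kl (S.nd m x j) m x) (S.nd m x j) m} := fun h => h2 ⟨h.1.1.1, h.2⟩
        unfold iw
        rw [indicator_of_notMem h3, zero_mul, if_neg h2]
    · have h3 : x ∉ S.NL j m ∩ S.OL j m ∩ {x | x ∈ S.om (S.nd m x j) m} ∩
          {x | P (S.kl (S.nd m x j) m x) (S.nd m x j) m} := fun h => h1 ((hOL x).mpr
          ⟨h.1.1.2, h.1.2⟩)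
      unfold iw
      rw [indicator_of_notMem h1, indicator_of_notMem h3, zero_mul]
  simp_rw [e1]
  have hmz : ∀ z ∈ S.PC j, Measurable fun x =>
      (S.Rg z.2 z.1 m).indicator (1 : E → ℝ≥0∞) x * g z.1 z.2 x := fun z _ =>
    (measurable_one.indicator (measurableSet_Rg_c htm)).mul (hgm z.1 z.2)
  rw [lintegral_finset_sum _ hmz]
  refine Finset.sum_congr rfl fun z _ => ?_
  simp only [hg]
  by_cases h : ¬ S.Leaf z.2 m ∧ P z.1 z.2 m
  · simp only [h, not_false_eq_true, and_self, if_true]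
  · simp only [h, if_false, mul_zero, lintegral_zero]

open Classical in
/-- the sum over the states which are determined by the lives of the children -/
theorem sum_CX (H : S.ConvH) (j : ℕ) (P : ℕ → List ℕ → ℕ → Prop) (σ : ℕ → List ℕ → ℕ → ℕ)
    (h1 : ∀ c p m, m ≤ S.mT → P c p m → σ c p (st (S.K.nw (c :: p)) (S.mv.tm m)) = m)
    (h2 : ∀ c p, ∀ a ∈ S.K.nw (c :: p), a < S.T →
      S.In (S.K.nw (c :: p)) (S.mv.n a) (σ c p a)) :
    ∑ m ∈ Finset.range (S.mT + 1), S.CX P j m ≤ ENNReal.ofReal S.kV * S.Ut j := by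
  have e1 : ∑ m ∈ Finset.range (S.mT + 1), S.CX P j m =
      ∑ z ∈ S.PC j, ∑ m ∈ Finset.range (S.mT + 1), if ¬ S.Leaf z.2 m ∧ P z.1 z.2 m then
      ∫⁻ x, (S.Rg z.2 z.1 m).indicator 1 x * S.Cv z.2 m x ∂stdGaussian E else 0 := by
    rw [Finset.sum_comm]
    refine Finset.sum_congr rfl fun m hm => ?_
    rw [Finset.mem_range] at hm
    exact CX_eq P j (by omega)
  rw [e1, Ut_eq_c, Finset.mul_sum]
  refine Finset.sum_le_sum fun z _ => ?_
  obtain ⟨c, p⟩ := z
  refine le_trans ?_ (conv_node H p c (σ c p) (h2 c p))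
  refine le_trans (le_of_eq ?_) (sum_state_v (S := S) (zero_nw_c (S := S) (c :: p))
    (fun m => if ¬ S.Leaf p m then
      ∫⁻ x, (S.Rg p c m).indicator 1 x * S.Cv p m x ∂stdGaussian E else 0) (P c p) (σ c p)
    (h1 c p))
  refine Finset.sum_congr rfl fun m _ => ?_
  by_cases ha : S.Leaf p m
  · simp [ha]
  · by_cases hb : P c p m
    · simp [ha, hb]
    · simp [hb]

/-- **last states of the lives of the children** -/
theorem sum_CL (H : S.ConvH) (j : ℕ) :
    ∑ m ∈ Finset.range (S.mT + 1), S.CL j m ≤ ENNReal.ofReal S.kV * S.Ut j := by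
  classical
  refine sum_CX H j _ (fun c p a => S.mv.n (en (S.K.nw (c :: p)) S.T a) - 1)
    (fun c p m _ h => h) (fun c p a ha haT => ?_)
  have hta : S.mv.tm (S.mv.n a) < S.T := by rw [S.mv.tm_n]; exact haT
  have h0 := zero_nw_c (S := S) (c :: p)
  have e : S.mv.n (en (S.K.nw (c :: p)) S.T a) - 1 = S.mv.eS (S.K.nw (c :: p)) (S.mv.n a) := by
    unfold El2.eS
    rw [S.mv.tm_n, H118.st_eq_self ha]
  rw [e]
  exact ⟨(S.mv.sS_le _ _).trans (S.mv.le_eS h0 hta), le_rfl⟩

/-- **first states of the lives of the children** -/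
theorem sum_CF (H : S.ConvH) (j : ℕ) :
    ∑ m ∈ Finset.range (S.mT + 1), S.CF j m ≤ ENNReal.ofReal S.kV * S.Ut j := by
  classical
  refine sum_CX H j _ (fun c p a => S.mv.n a) (fun c p m _ h => h) (fun c p a ha haT => ?_)
  exact In.self_c (zero_nw_c (S := S) (c :: p)) (by rw [S.mv.tm_n]; exact haT)

end Vale.Agent.P262.M2.Sys
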