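import Vale.Agent.P262.H493.ConvC
import Vale.Agent.P262.M2.Blocks

/-!
# P262, milestone 2: block CVG, and block REO from the one move inequality
-/

set_option linter.all false

open MeasureTheory ProbabilityTheory Set
open scoped ENNReal RealInnerProductSpace

namespace Vale.Agent.P262.M2.Sys

open Vale.Agent.P262.H118 (Iv st en K2 El2 paths)
open Vale.Agent.P262.H395 (mix fib Inv Fixes fib_mono fib_mul)

variable {E : Type*} [NormedAddCommGroup E] [InnerProductSpace ℝ E] [FiniteDimensional ℝ E]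
  [MeasurableSpace E] [BorelSpace E] {S : Sys E}

lemma kV_nonneg : 0 ≤ S.kV := by
  have h1 := CVc_nonneg (S := S)
  have h2 := S.hρ
  have h3 : 0 ≤ S.kap ^ S.th := Real.rpow_nonneg S.hkap.le _
  unfold kV
  positivity

lemma slp_le_one_v (p : List ℕ) (m : ℕ) (x : E) (s : ℝ≥0∞) : S.slp p m x s ≤ 1 := by
  unfold slp
  refine ENNReal.rpow_le_one ?_ S.hth.le
  refine ENNReal.div_le_of_le_mul ?_
  rw [one_mul]
  exact le_max_left _ _

/-- the first state of a block is the first state of a life of the child -/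
lemma first_of_bs {p : List ℕ} {m : ℕ} {x : E} (h : S.bs p m x = m) :
    S.mv.sS (S.K.nw (S.kl p m x :: p)) m = m := by
  refine le_antisymm (S.mv.sS_le _ m) ?_
  have h1 := S.mv.sS_mono (S.K.B_sub_nw p (S.kl p m x)) (zero_B_c (S := S) p (S.kl p m x)) m
  have h2 : S.mv.sS (S.K.B p (S.kl p m x)) m = m := h
  omega

/-- the last state of a block is the last state of a life of the child -/
lemma last_of_be {p : List ℕ} {m : ℕ} (hm : S.mv.tm m < S.T) {x : E} (h : S.be p m x = m) :
    S.mv.eS (S.K.nw (S.kl p m x :: p)) m = m := by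
  refine le_antisymm ?_ (S.mv.le_eS (zero_nw_c (S := S) _) hm)
  have h1 := S.mv.eS_anti (S.K.B_sub_nw p (S.kl p m x)) (zero_B_c (S := S) p (S.kl p m x)) hm
  have h2 : S.mv.eS (S.K.B p (S.kl p m x)) m = m := h
  omega

lemma edg_le (j : ℕ) {m : ℕ} (hm : m ≤ S.mT) :
    ∫⁻ x, iw (S.omj j m ∩ S.edg j m) x *
      (S.slp (S.nd m x j) m x (S.De (S.nd m x j) m x) * S.hf (S.nd m x j) m x) ∂stdGaussian E ≤
      S.CF j m + S.CL j m := by
  have htm := S.tm_lt_f hm
  have hL := S.labOK hm
  have hCFm : Measurable fun x => iw (S.NL j m ∩ S.OL j m ∩ {x | x ∈ S.om (S.nd m x j) m} ∩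
      {x | S.mv.sS (S.K.nw (S.kl (S.nd m x j) m x :: S.nd m x j)) m = m}) x *
      S.Cv (S.nd m x j) m x := by
    refine Measurable.mul ?_ (measurable_nd m j (F := fun r => S.Cv r m) (fun r => Cv_meas_v hL r))
    refine measurable_one.indicator (((measurableSet_NL j m).inter (measurableSet_OL j m)).inter
      ?_ |>.inter ?_)
    · exact measurableSet_nd m j (s := fun r => S.om r m) (fun r => measurableSet_om_c r m)
    · refine measurableSet_nd m j (s := fun r => {x | S.mv.sS (S.K.nw (S.kl r m x :: r)) m = m})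
        (fun r => ?_)
      exact (measurable_kl_c r m) (MeasurableSet.of_discrete (s := {c | S.mv.sS (S.K.nw (c :: r)) m = m}))
  show _ ≤ (∫⁻ x, iw (S.NL j m ∩ S.OL j m ∩ {x | x ∈ S.om (S.nd m x j) m} ∩
      {x | S.mv.sS (S.K.nw (S.kl (S.nd m x j) m x :: S.nd m x j)) m = m}) x *
      S.Cv (S.nd m x j) m x ∂stdGaussian E) +
    ∫⁻ x, iw (S.NL j m ∩ S.OL j m ∩ {x | x ∈ S.om (S.nd m x j) m} ∩
      {x | S.mv.eS (S.K.nw (S.kl (S.nd m x j) m x :: S.nd m x j)) m = m}) x *
      S.Cv (S.nd m x j) m x ∂stdGaussian E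
  rw [← lintegral_add_left hCFm]
  refine lintegral_mono fun x => ?_
  by_cases hx : x ∈ S.omj j m ∩ S.edg j m
  swap
  · simp only [iw]
    rw [indicator_of_notMem hx, zero_mul]
    exact bot_le
  have hv : S.slp (S.nd m x j) m x (S.De (S.nd m x j) m x) * S.hf (S.nd m x j) m x ≤
      S.Cv (S.nd m x j) m x := by
    calc _ ≤ 1 * S.Cv (S.nd m x j) m x := by
          refine mul_le_mul' (slp_le_one_v _ _ _ _) ?_
          exact FD_le_Cv_v hL _ x
      _ = _ := one_mul _
  simp only [iw]
  rw [indicator_of_mem hx, Pi.one_apply, one_mul]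
  refine hv.trans ?_
  rcases hx.2 with h | h
  · have h1 : x ∈ S.NL j m ∩ S.OL j m ∩ {x | x ∈ S.om (S.nd m x j) m} ∩
      {x | S.mv.sS (S.K.nw (S.kl (S.nd m x j) m x :: S.nd m x j)) m = m} :=
      ⟨hx.1, first_of_bs h⟩
    rw [indicator_of_mem h1, Pi.one_apply, one_mul]
    exact le_self_add
  · have h1 : x ∈ S.NL j m ∩ S.OL j m ∩ {x | x ∈ S.om (S.nd m x j) m} ∩
      {x | S.mv.eS (S.K.nw (S.kl (S.nd m x j) m x :: S.nd m x j)) m = m} :=
      ⟨hx.1, last_of_be htm h⟩
    rw [indicator_of_mem h1, Pi.one_apply, one_mul]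
    exact le_add_self

/-- **block CVG** -/
theorem cvg (H : S.ConvH) {b : ℝ} (hb : 0 ≤ b) : S.CVG (2 * S.kV) b := by
  intro l hl
  have h1 : S.Et l ≤ ENNReal.ofReal (2 * S.kV) * S.Ut l := by
    calc S.Et l ≤ ∑ m ∈ Finset.range (S.mT + 1), (S.CF l m + S.CL l m) := by
          unfold Et
          refine Finset.sum_le_sum fun m hm => ?_
          rw [Finset.mem_range] at hm
          exact edg_le l (by omega)
      _ = (∑ m ∈ Finset.range (S.mT + 1), S.CF l m) + ∑ m ∈ Finset.range (S.mT + 1), S.CL l m :=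
          Finset.sum_add_distrib
      _ ≤ ENNReal.ofReal S.kV * S.Ut l + ENNReal.ofReal S.kV * S.Ut l :=
          add_le_add (sum_CF H l) (sum_CL H l)
      _ = _ := by
          rw [← add_mul, ← ENNReal.ofReal_add kV_nonneg kV_nonneg]
          congr 2
          ring
  refine h1.trans (mul_le_mul' le_rfl ?_)
  have h2 := Finset.single_le_sum (f := fun i => ENNReal.ofReal (b ^ (i - l)) * S.Ut i)
    (s := Finset.Ico l S.nl) (fun i _ => zero_le) (Finset.mem_Ico.mpr ⟨le_rfl, hl⟩)
  simpa using h2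

open Classical in
/-- **block REO** from the one move inequality -/
theorem reo_of (H : S.ConvH) {G : List ℕ → ℕ → E → ℝ≥0∞} {b : ℝ}
    (hG : ∀ m, m < S.mT → S.mv.IsRe m → ∀ l, l < S.nl → S.Pt G l m ≤
      ∑ i ∈ Finset.Ico l S.nl, ENNReal.ofReal (b ^ (i - l)) * (S.CL i m + S.CF i (m + 1))) :
    S.REO G (2 * S.kV) b := by
  intro l hl
  calc (∑ m ∈ Finset.range S.mT, if S.mv.IsRe m then S.Pt G l m else 0)
      ≤ ∑ m ∈ Finset.range S.mT, ∑ i ∈ Finset.Ico l S.nl,
          ENNReal.ofReal (b ^ (i - l)) * (S.CL i m + S.CF i (m + 1)) := by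
        refine Finset.sum_le_sum fun m hm => ?_
        rw [Finset.mem_range] at hm
        split_ifs with h
        · exact hG m hm h l hl
        · exact zero_le
    _ = ∑ i ∈ Finset.Ico l S.nl, ENNReal.ofReal (b ^ (i - l)) *
          ∑ m ∈ Finset.range S.mT, (S.CL i m + S.CF i (m + 1)) := by
        rw [Finset.sum_comm]
        refine Finset.sum_congr rfl fun i _ => ?_
        rw [Finset.mul_sum]
    _ ≤ ∑ i ∈ Finset.Ico l S.nl, ENNReal.ofReal (b ^ (i - l)) *
          (ENNReal.ofReal (2 * S.kV) * S.Ut i) := by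
        refine Finset.sum_le_sum fun i _ => mul_le_mul' le_rfl ?_
        rw [Finset.sum_add_distrib]
        have h1 : ∑ m ∈ Finset.range S.mT, S.CL i m ≤ ∑ m ∈ Finset.range (S.mT + 1), S.CL i m :=
          Finset.sum_le_sum_of_subset (Finset.range_subset_range.mpr (Nat.le_succ _))
        have h2 : ∑ m ∈ Finset.range S.mT, S.CF i (m + 1) ≤
            ∑ m ∈ Finset.range (S.mT + 1), S.CF i m := by
          rw [Finset.sum_range_succ']
          exact le_self_add
        calc _ ≤ ENNReal.ofReal S.kV * S.Ut i + ENNReal.ofReal S.kV * S.Ut i :=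
              add_le_add (h1.trans (sum_CL H i)) (h2.trans (sum_CF H i))
          _ = _ := by
              rw [← add_mul, ← ENNReal.ofReal_add kV_nonneg kV_nonneg]
              congr 2
              ring
    _ = _ := by
        rw [Finset.mul_sum]
        refine Finset.sum_congr rfl fun i _ => ?_
        ring

end Vale.Agent.P262.M2.Sys
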