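import Vale.Agent.P262.H493.ConvAW
import Vale.Agent.P262.H493.ConvB
import Vale.Agent.P262.H712.BW

/-!
# P262, milestone 2, block HMOM, parent of class `0`: the moment charge of the class 0 chain

`mom_zero`: over all counted labels of class `0` of one node, the charge `exw` of `H712/BW.lean` times
`1 + |⟪a, x⟫| + |⟪b, x⟫|`, `a`, `b` unit vectors orthogonal to the label space, is paid by the caps
of the labels.
-/

set_option linter.all false

open MeasureTheory ProbabilityTheory Set
open scoped ENNReal RealInnerProductSpace Classical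

namespace Vale.Agent.P262.Cons493

open Vale.Agent.P262.H395 (mix fib Inv Fixes fib_mono fib_mul lintegral_isometry inv_const)
open Vale.Agent.P262.H847 (UI)
open Vale.Agent.P262.H713 (Pa FT NodeOK LabF sft ch mem_iff_of im)
open Vale.Agent.P262.H712.BW (wd exw exw_node)
open Vale.Agent.P262.H606 (dw TInv)

variable {E : Type*} [NormedAddCommGroup E] [InnerProductSpace ℝ E] [FiniteDimensional ℝ E]
  [MeasurableSpace E] [BorelSpace E] {ι : Type*}

/-! ### the chain of a tree with the moment charges -/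

/-- the moment charge of one node -/
noncomputable def chq (c : E → ℝ) (Z : Set E) : E → ℝ≥0∞ :=
  fun x => if x ∈ Z then 1 else ENNReal.ofReal (20 * Real.sqrt (c x))

omit [NormedAddCommGroup E] [InnerProductSpace ℝ E] [FiniteDimensional ℝ E] [BorelSpace E] in
lemma measurable_chq {c : E → ℝ} {Z : Set E} (hc : Measurable c) (hZ : MeasurableSet Z) :
    Measurable (chq c Z) :=
  Measurable.ite hZ measurable_const
    (((Real.continuous_sqrt.measurable.comp hc).const_mul 20).ennreal_ofReal)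

/-- the class 0 chain of a field tree with the moment charges -/
noncomputable def zchG : FT E ι → List (NdG E)
  | .leaf _ => []
  | .node W c Z _ T => (W, chq c Z, Z) :: zchG (T 0)

/-- the moment charge of a tree is at most the charge of its class 0 chain -/
theorem exw_le_exG : ∀ {t : FT E ι} {g : ι → E → ℝ} {K : Set E} {x : E}, PZ t g x →
    (x ∉ K → FT.pay t g x = 1) → 0 ≤ FT.pay t g x →
    ENNReal.ofReal (exw t g x) ≤ exG (zchG t) K x
  | .leaf i, g, K, x, _, _, _ => by
    simp [exw]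
  | .node W c Z cls T, g, K, x, hP, hK, h0 => by
    rw [exw_node]
    have hpay : FT.pay (.node W c Z cls T) g x = FT.pay (T (cls x)) g x := rfl
    have h1 : ENNReal.ofReal (1 - FT.pay (T (cls x)) g x) ≤ K.indicator 1 x := by
      rw [← hpay]
      by_cases h : x ∈ K
      · rw [indicator_of_mem h, Pi.one_apply, ENNReal.ofReal_le_one]
        linarith
      · rw [hK h, sub_self, ENNReal.ofReal_zero]
        exact bot_le
    show _ ≤ K.indicator (chq c Z) x + exG (zchG (T 0)) (K ∩ Zᶜ) x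
    split_ifs with hx hv
    · refine h1.trans (le_trans (le_of_eq ?_) le_self_add)
      by_cases h : x ∈ K
      · rw [indicator_of_mem h, indicator_of_mem h]
        unfold chq
        rw [if_pos hx]
        rfl
      · rw [indicator_of_notMem h, indicator_of_notMem h]
    · refine le_trans ?_ le_self_add
      rw [ENNReal.ofReal_mul (by positivity)]
      refine (mul_le_mul' le_rfl h1).trans (le_of_eq ?_)
      by_cases h : x ∈ K
      · rw [indicator_of_mem h, indicator_of_mem h]
        unfold chq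
        rw [if_neg hx, Pi.one_apply, mul_one]
      · rw [indicator_of_notMem h, indicator_of_notMem h, mul_zero]
    · obtain ⟨h2, h3⟩ := hP hx (not_lt.mp hv)
      rw [h2]
      refine le_trans ?_ le_add_self
      rw [exG_inter (zchG (T 0)) K Zᶜ (show x ∈ Zᶜ from hx)]
      rw [hpay, h2] at hK h0
      exact exw_le_exG h3 hK h0

lemma exG_mp (R : E ≃ₗᵢ[ℝ] E) : ∀ (t : FT E ι) (K : Set E) (x : E),
    exG (zchG (FT.mp R t)) K (R x) = exG (zchG t) ((fun y => R y) ⁻¹' K) x
  | .leaf i, K, x => rfl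
  | .node W c Z cls T, K, x => by
    rw [FT.mp_node]
    show K.indicator (chq (fun x => c (R.symm x)) (R.symm ⁻¹' Z)) (R x) +
        exG (zchG (FT.mp R (T 0))) (K ∩ (R.symm ⁻¹' Z)ᶜ) (R x) =
      ((fun y => R y) ⁻¹' K).indicator (chq c Z) x +
        exG (zchG (T 0)) ((fun y => R y) ⁻¹' K ∩ Zᶜ) x
    rw [exG_mp R (T 0)]
    congr 1
    · by_cases h : R x ∈ K
      · rw [indicator_of_mem h, indicator_of_mem (show x ∈ (fun y => R y) ⁻¹' K from h)]
        unfold chq
        simp only [mem_preimage, LinearIsometryEquiv.symm_apply_apply]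
      · rw [indicator_of_notMem h, indicator_of_notMem (show x ∉ (fun y => R y) ⁻¹' K from h)]
    · congr 1
      ext y
      simp only [mem_preimage, mem_inter_iff, mem_compl_iff, LinearIsometryEquiv.symm_apply_apply]

lemma zchG_ok {c0 : ℝ} : ∀ {t : FT E ι}, FT.Good c0 t → ∀ a ∈ zchG t,
    Measurable a.2.1 ∧ MeasurableSet a.2.2
  | .leaf i, _, a, ha => by simp [zchG] at ha
  | .node W c Z cls T, ⟨hp, hab, hG⟩, a, ha => by
    rw [zchG, List.mem_cons] at ha
    rcases ha with rfl | ha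
    · exact ⟨measurable_chq hp.meas hp.measZ, hp.measZ⟩
    · exact zchG_ok (hG 0) a ha

/-! ### two slabs -/

/-- two slabs -/
def sl2 (a b : E) : Set E := H633.slab a 5 ∩ H633.slab b 5

omit [FiniteDimensional ℝ E] [MeasurableSpace E] [BorelSpace E] in
lemma convex_slab5 (e : E) : Convex ℝ (H633.slab e 5) := H606.convex_slab e 5

lemma isClosed_sl2 (a b : E) : IsClosed (sl2 a b) :=
  (H633.isClosed_slab a 5).inter (H633.isClosed_slab b 5)

omit [FiniteDimensional ℝ E] [MeasurableSpace E] [BorelSpace E] in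
lemma convex_sl2 (a b : E) : Convex ℝ (sl2 a b) := (convex_slab5 a).inter (convex_slab5 b)

omit [FiniteDimensional ℝ E] [MeasurableSpace E] [BorelSpace E] in
lemma zero_mem_sl2 (a b : E) : (0 : E) ∈ sl2 a b :=
  ⟨H606.zero_mem_slab a (by norm_num), H606.zero_mem_slab b (by norm_num)⟩

omit [FiniteDimensional ℝ E] [MeasurableSpace E] [BorelSpace E] in
lemma tinv_sl2 {W : Submodule ℝ E} {a b : E} (ha : a ∈ Wᗮ) (hb : b ∈ Wᗮ) : TInv W (sl2 a b) :=
  H606.TInv.inter (H606.tinv_slab ha 5) (H606.tinv_slab hb 5)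

lemma gam_slab5 {b : E} (hb : ‖b‖ ≤ 1) :
    ENNReal.ofReal (1 - 1 / 300) ≤ stdGaussian E (H633.slab b 5) := by
  have hm : MeasurableSet (H633.slab b 5) := (H633.isClosed_slab b 5).measurableSet
  have h2 := H633.lin_tail hb (k := 5) (by norm_num)
  have h3 : stdGaussian E (H633.slab b 5)ᶜ ≤ ENNReal.ofReal (1 / 300) := by
    refine (measure_mono ?_).trans (h2.trans (ENNReal.ofReal_le_ofReal
      (H633.exp_tail_bound (by norm_num))))
    intro x hx
    have hx' : ¬ |⟪b, x⟫| ≤ 5 := hx
    exact not_le.mp hx'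
  have h4 : stdGaussian E (H633.slab b 5) = 1 - stdGaussian E (H633.slab b 5)ᶜ := by
    rw [prob_compl_eq_one_sub hm, ENNReal.sub_sub_cancel ENNReal.one_ne_top prob_le_one]
  rw [h4, ENNReal.ofReal_sub _ (by norm_num), ENNReal.ofReal_one]
  exact tsub_le_tsub_left h3 1

lemma gam_sl2 {a b : E} (ha : ‖a‖ ≤ 1) (hb : ‖b‖ ≤ 1) :
    ENNReal.ofReal (1 - 1 / 40) ≤ stdGaussian E (sl2 a b) := by
  refine le_trans (ENNReal.ofReal_le_ofReal ?_) (H606.gam_inter2
    (H633.isClosed_slab a 5).measurableSet (H633.isClosed_slab b 5).measurableSet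
    (by norm_num) (by norm_num) (gam_slab5 ha) (gam_slab5 hb))
  norm_num

omit [FiniteDimensional ℝ E] [MeasurableSpace E] [BorelSpace E] in
lemma abs_inner_le_slab5 {e : E} (he : ‖e‖ ≤ 1) {S : Set E} (hS : S ⊆ H633.slab e 5)
    (hne : S.Nonempty) (x : E) : |⟪e, x⟫| ≤ 5 + Metric.infDist x S := by
  have h : |⟪e, x⟫| - 5 ≤ Metric.infDist x S := by
    rw [Metric.le_infDist hne]
    intro y hy
    have h1 : |⟪e, y⟫| ≤ 5 := hS hy
    have h2 : |⟪e, x - y⟫| ≤ ‖x - y‖ := by
      have := abs_real_inner_le_norm e (x - y)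
      have h3 := norm_nonneg (x - y)
      nlinarith
    have h3 : |⟪e, x⟫| ≤ |⟪e, x - y⟫| + |⟪e, y⟫| := by
      have : ⟪e, x⟫ = ⟪e, x - y⟫ + ⟪e, y⟫ := by rw [← inner_add_right]; simp
      rw [this]
      exact abs_add_le _ _
    rw [dist_eq_norm]
    linarith
  linarith

omit [FiniteDimensional ℝ E] [MeasurableSpace E] [BorelSpace E] in
/-- the moment weight is dominated by the distance weight -/
lemma wd_le_dw {a b : E} (ha : ‖a‖ ≤ 1) (hb : ‖b‖ ≤ 1) (x : E) :
    ENNReal.ofReal (wd a b x) ≤ ENNReal.ofReal 16 * dw (1 / 16) (sl2 a b) x := by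
  unfold H606.dw
  rw [← ENNReal.ofReal_mul (by norm_num)]
  apply ENNReal.ofReal_le_ofReal
  have hne : (sl2 a b).Nonempty := ⟨0, zero_mem_sl2 a b⟩
  have h1 : |⟪a, x⟫| ≤ 5 + Metric.infDist x (sl2 a b) :=
    abs_inner_le_slab5 ha inter_subset_left hne x
  have h2 : |⟪b, x⟫| ≤ 5 + Metric.infDist x (sl2 a b) :=
    abs_inner_le_slab5 hb inter_subset_right hne x
  have h3 := Real.add_one_le_exp (1 / 16 * Metric.infDist x (sl2 a b) ^ 2)
  unfold H712.BW.wd
  nlinarith [sq_nonneg (Metric.infDist x (sl2 a b) - 1)]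

omit [FiniteDimensional ℝ E] [MeasurableSpace E] [BorelSpace E] in
lemma wd_isometry (U : E ≃ₗᵢ[ℝ] E) (a b x : E) : wd a b (U x) = wd (U.symm a) (U.symm b) x := by
  unfold H712.BW.wd
  have h : ∀ e : E, ⟪e, U x⟫ = ⟪U.symm e, x⟫ := by
    intro e
    have := U.inner_map_map (U.symm e) x
    rw [LinearIsometryEquiv.apply_symm_apply] at this
    exact this
  rw [h, h]

omit [MeasurableSpace E] [BorelSpace E] in
lemma symm_mem_orth {U : E ≃ₗᵢ[ℝ] E} {W : Submodule ℝ E} (hU : Fixes U W) {e : E}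
    (he : e ∈ Wᗮ) : U.symm e ∈ Wᗮ := by
  rw [Submodule.mem_orthogonal]
  intro w hw
  have h1 : U w = w := hU w hw
  have h2 := U.inner_map_map w (U.symm e)
  rw [LinearIsometryEquiv.apply_symm_apply, h1] at h2
  rw [← h2]
  exact (Submodule.mem_orthogonal _ _).1 he w hw

end Vale.Agent.P262.Cons493

namespace Vale.Agent.P262.M2.Sys

open Vale.Agent.P262.H118 (Iv st en K2 El2 paths)
open Vale.Agent.P262.H274 (Slow Cost)
open Vale.Agent.P262.H395 (mix fib Inv Fixes fib_mono fib_mul lintegral_isometry inv_const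
  lintegral_fib fib_compl_preimage fib_fixes)
open Vale.Agent.P262.H395.CW (pl nk OMp OMc Lab SI)
open Vale.Agent.P262.H847 (UI)
open Vale.Agent.P262.H713 (Pa FT NodeOK LabF sft ch mem_iff_of im fr_congr fib_congr fr_sel)
open Vale.Agent.P262.H654 (tr phi sg Bd InvR fr fr_mono fr_const fr_add fr_tower ofReal_fr)
open Vale.Agent.P262.CF2 (CapF Cp CpI Cf cp_ch cpI_ch cf_ch close_le close_first close_le_ex ex
  ex_UI)
open Vale.Agent.P262.H712.BW (wd exw exw_node measurable_exw measurable_wd exw_nonneg wd_nonneg)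
open Vale.Agent.P262.H606 (dw TInv)
open Vale.Agent.P262.Cons493

variable {E : Type*} [NormedAddCommGroup E] [InnerProductSpace ℝ E] [FiniteDimensional ℝ E]
  [MeasurableSpace E] [BorelSpace E] {S : Sys E}

section lab

variable {m : ℕ} {k : ℝ}

/-- the class `0` chain of the tree in the coordinates of its last node, moment charges -/
lemma zchG_coord (hL : S.LabOK m) : ∀ (n : ℕ) (p : List ℕ), ∃ (j : ℕ) (U : E ≃ₗᵢ[ℝ] E),
    Fixes U (S.W p m) ∧ (∀ i < j, ¬ S.Leaf (List.replicate i 0 ++ p) m) ∧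
    ∀ (K : Set E) (y : E), exG (zchG (S.tCn n p m 0)) K (U y) =
      exG (zg (fun r => S.W r m) (fun r => chq (S.cf m r) (S.Z r m)) (fun r => S.Z r m) j p)
        ((fun y => U y) ⁻¹' K) y
  | 0, p => by
    refine ⟨0, LinearIsometryEquiv.refl ℝ E, Fixes.refl _, fun i hi => absurd hi (by omega), ?_⟩
    intro K y
    rw [tCn_zero]
    rfl
  | n + 1, p => by
    by_cases hl : S.Leaf p m
    · refine ⟨0, LinearIsometryEquiv.refl ℝ E, Fixes.refl _, fun i hi => absurd hi (by omega), ?_⟩
      intro K y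
      rw [tCn_succ, if_pos hl]
      rfl
    · set q := 0 :: p with hq
      obtain ⟨j, U, hU, hlf, hex⟩ := zchG_coord hL n q
      refine ⟨j + 1, U.trans (S.mv.Q m q), (hU.mono (S.W_le 0 p m)).trans (S.Q_fix 0 p m), ?_, ?_⟩
      · intro i hi
        rcases i with _ | i
        · simpa using hl
        · rw [← rep_cons]
          exact hlf i (by omega)
      · intro K y
        rw [tCn_succ, if_neg hl]
        show exG (zchG (FT.mp (S.mv.Q m q) (.node (S.W q m) (S.cf m q) (S.Z q m) (S.kl q m)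
          (S.tCn n q m)))) K ((S.mv.Q m q) (U y)) = _
        rw [exG_mp]
        show ((fun y => (S.mv.Q m q) y) ⁻¹' K).indicator (chq (S.cf m q) (S.Z q m)) (U y) +
            exG (zchG (S.tCn n q m 0)) ((fun y => (S.mv.Q m q) y) ⁻¹' K ∩ (S.Z q m)ᶜ) (U y) =
          ((fun y => (U.trans (S.mv.Q m q)) y) ⁻¹' K).indicator (chq (S.cf m q) (S.Z q m)) y +
            exG (zg (fun r => S.W r m) (fun r => chq (S.cf m r) (S.Z r m)) (fun r => S.Z r m) j q)
              ((fun y => (U.trans (S.mv.Q m q)) y) ⁻¹' K ∩ (S.Z q m)ᶜ) y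
        rw [hex]
        have hZ : ∀ y, U y ∈ S.Z q m ↔ y ∈ S.Z q m := fun y =>
          mem_iff_of (S.Z_inv q m) (hU.proj y)
        have hcf : S.cf m q (U y) = S.cf m q y := (hL.ok q).inv.eq_of (hU.proj y)
        have hch : chq (S.cf m q) (S.Z q m) (U y) = chq (S.cf m q) (S.Z q m) y := by
          unfold chq
          rw [hcf]
          simp only [hZ]
        congr 1
        · by_cases h : (S.mv.Q m q) (U y) ∈ K
          · rw [indicator_of_mem (show U y ∈ (fun y => (S.mv.Q m q) y) ⁻¹' K from h),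
              indicator_of_mem (show y ∈ (fun y => (U.trans (S.mv.Q m q)) y) ⁻¹' K from h), hch]
          · rw [indicator_of_notMem (show U y ∉ (fun y => (S.mv.Q m q) y) ⁻¹' K from h),
              indicator_of_notMem (show y ∉ (fun y => (U.trans (S.mv.Q m q)) y) ⁻¹' K from h)]
        · congr 1
          ext z
          simp only [mem_preimage, mem_inter_iff, mem_compl_iff, hZ]
          rfl

/-- the constant of the moment charge -/
noncomputable def kMom (S : Sys E) : ℝ := (1 / S.b0) ^ S.th + 20 * (S.M + 1) ^ (1 / 2 : ℝ)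

lemma kMom_nonneg : 0 ≤ S.kMom := by
  unfold kMom
  have := S.b0_pos_f
  have := S.hM
  positivity

/-- the moment charges against the caps -/
lemma chq_le_cap (hth : S.th ≤ 1 / 2) (r : List ℕ) (x : E) (hx : x ∉ S.Z r m) :
    chq (S.cf m (0 :: r)) (S.Z (0 :: r) m) x ≤ ENNReal.ofReal S.kMom * S.As S.th (0 :: r) m x := by
  set q := 0 :: r with hq
  have hb0 := S.b0_pos_f
  have hM := S.hM
  have hb1 : S.b0 ≤ 1 := by
    have := S.hMb
    nlinarith
  unfold chq
  rw [← S.A_rpow S.hth.le]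
  split_ifs with h
  · have h1 : ENNReal.ofReal S.b0 ≤ S.A q m x := by
      by_contra hcon
      rw [hq, Z_cons, mem_union, mem_setOf_eq] at h
      rcases h with h | h
      · exact hx h
      · exact hcon h.le
    calc (1 : ℝ≥0∞) = ENNReal.ofReal ((1 / S.b0) ^ S.th) * ENNReal.ofReal S.b0 ^ S.th := by
          rw [ENNReal.ofReal_rpow_of_pos hb0, ← ENNReal.ofReal_mul (by positivity),
            ← Real.mul_rpow (by positivity) hb0.le]
          rw [one_div_mul_cancel hb0.ne', Real.one_rpow, ENNReal.ofReal_one]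
      _ ≤ ENNReal.ofReal S.kMom * S.A q m x ^ S.th := by
          refine mul_le_mul' (ENNReal.ofReal_le_ofReal ?_) (ENNReal.rpow_le_rpow h1 S.hth.le)
          unfold kMom
          have : 0 ≤ 20 * (S.M + 1) ^ (1 / 2 : ℝ) := by positivity
          linarith
  · have h1 : S.A q m x ≤ 1 := by
      refine (A_le_b0_c h).trans ?_
      rw [← ENNReal.ofReal_one]
      exact ENNReal.ofReal_le_ofReal hb1
    have h2 : ENNReal.ofReal (Real.sqrt (S.cf m q x)) =
        ENNReal.ofReal ((S.M + 1) ^ (1 / 2 : ℝ)) * S.A q m x ^ (1 / 2 : ℝ) := by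
      rw [Real.sqrt_eq_rpow, ← ENNReal.ofReal_rpow_of_nonneg (S.cf_nonneg m q x) (by norm_num),
        S.ofReal_cf, ENNReal.mul_rpow_of_nonneg _ _ (by norm_num),
        ENNReal.ofReal_rpow_of_nonneg (by linarith) (by norm_num)]
    rw [ENNReal.ofReal_mul (by norm_num), h2, ← mul_assoc, ← ENNReal.ofReal_mul (by norm_num)]
    refine mul_le_mul' (ENNReal.ofReal_le_ofReal ?_)
      (ENNReal.rpow_le_rpow_of_exponent_ge h1 hth)
    unfold kMom
    have : 0 ≤ (1 / S.b0) ^ S.th := by positivity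
    linarith

/-- **the moment charge, class `0`**: all labels of `p` of class `0`, one state. -/
theorem mom_zero (H : S.ConsC) (hkρ : S.kap ^ S.th ≤ 1 / 2) (hth : S.th ≤ 1 / 2) (hm : m ≤ S.mT)
    (hC : CapF (S.pa m) (S.cf m) (fun p => S.Z p m) k)
    (hk0 : 0 ≤ k) (hk : k ≤ 1 / 8) (hroot : ∀ x, S.kl [] m x ≠ 0) {p : List ℕ}
    (hp : ¬ S.Leaf p m) {a b : E} (ha : ‖a‖ ≤ 1) (hb : ‖b‖ ≤ 1) (haW : a ∈ (S.W p m)ᗮ)
    (hbW : b ∈ (S.W p m)ᗮ) :
    ∫⁻ x, (S.Rg p 0 m).indicator 1 x *
        ENNReal.ofReal (exw (S.tC p m 0) (fun _ => S.pf p m) x * wd a b x) ∂stdGaussian E ≤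
      ENNReal.ofReal (32 * S.kMom * cCons *
        (S.kap ^ (Module.finrank ℝ (S.W (0 :: p) m) - Module.finrank ℝ (S.W p m))) ^ S.th) *
      ∫⁻ x, (S.Rg p 0 m).indicator 1 x *
        ({x | ENNReal.ofReal (Real.exp (-1418)) ≤ S.q p m x}.indicator (S.As S.th p m) x)
        ∂stdGaussian E := by
  have hL := S.labOK hm
  have htm := S.tm_lt_f hm
  obtain ⟨j, U, hU, hlf, hex⟩ := zchG_coord (S := S) hL (Module.finrank ℝ E) p
  have hRi : H44.InvS (S.W p m) (S.Rg p 0 m) := (lab_c htm).inv_c (SI_c htm hp) 0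
  have hRm : MeasurableSet (S.Rg p 0 m) := (lab_c htm).measurable_c 0
  have hind : Inv (S.W p m) ((S.Rg p 0 m).indicator (1 : E → ℝ≥0∞)) := H395.CW.inv_ind hRi
  have hindm : Measurable ((S.Rg p 0 m).indicator (1 : E → ℝ≥0∞)) := measurable_one.indicator hRm
  set t := S.tC p m 0 with ht
  set g : Unit → E → ℝ := fun _ => S.pf p m with hg
  have hgood : FT.Good S.cc t := hL.good_tC
  have hXm := S.measurableSet_X p m
  have hzok := zchG_ok hgood
  have hBm : Measurable (exG (zchG t) (S.X p m)) :=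
    measurable_exG (fun a ha => ⟨(hzok a ha).1, (hzok a ha).2⟩) hXm
  -- step 2: to the chain
  have hwm : Measurable fun x => ENNReal.ofReal (wd a b x) := (measurable_wd a b).ennreal_ofReal
  have s2 : ∫⁻ x, (S.Rg p 0 m).indicator 1 x *
        ENNReal.ofReal (exw t g x * wd a b x) ∂stdGaussian E ≤
      ∫⁻ x, (S.Rg p 0 m).indicator 1 x *
        (exG (zchG t) (S.X p m) x * ENNReal.ofReal (wd a b x)) ∂stdGaussian E := by
    refine lintegral_mono fun x => mul_le_mul' le_rfl ?_
    rw [ENNReal.ofReal_mul (exw_nonneg hgood (fun _ => S.pf_UI p m) x)]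
    exact mul_le_mul' (exw_le_exG (PZ_tCn hL hC hk0 hk hm _ p 0 x) (fun hx => S.pf_notMem hx)
      ((S.pf_UI p m).nonneg x)) le_rfl
  -- step 3: coordinates of the last node
  set K := (fun y => U y) ⁻¹' (S.X p m) with hK
  set a' := U.symm a with ha'
  set b' := U.symm b with hb'
  have na : ‖a'‖ ≤ 1 := by rw [ha', LinearIsometryEquiv.norm_map]; exact ha
  have nb : ‖b'‖ ≤ 1 := by rw [hb', LinearIsometryEquiv.norm_map]; exact hb
  have pa : a' ∈ (S.W p m)ᗮ := symm_mem_orth hU haW
  have pb : b' ∈ (S.W p m)ᗮ := symm_mem_orth hU hbW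
  have s3 : ∫⁻ x, (S.Rg p 0 m).indicator 1 x *
        (exG (zchG t) (S.X p m) x * ENNReal.ofReal (wd a b x)) ∂stdGaussian E =
      ∫⁻ x, (S.Rg p 0 m).indicator 1 x *
        (exG (zg (fun r => S.W r m) (fun r => chq (S.cf m r) (S.Z r m)) (fun r => S.Z r m) j p) K x *
          ENNReal.ofReal (wd a' b' x)) ∂stdGaussian E := by
    rw [← lintegral_isometry U (f := fun x => (S.Rg p 0 m).indicator 1 x *
      (exG (zchG t) (S.X p m) x * ENNReal.ofReal (wd a b x))) (hindm.mul (hBm.mul hwm))]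
    refine lintegral_congr fun x => ?_
    rw [H395.Inv.fixes hU hind x, wd_isometry]
    congr 2
    exact hex (S.X p m) x
  -- step 4: the weight
  have s3' : ∫⁻ x, (S.Rg p 0 m).indicator 1 x *
        (exG (zg (fun r => S.W r m) (fun r => chq (S.cf m r) (S.Z r m)) (fun r => S.Z r m) j p) K x *
          ENNReal.ofReal (wd a' b' x)) ∂stdGaussian E ≤
      ENNReal.ofReal 16 * ∫⁻ x, (S.Rg p 0 m).indicator 1 x *
        (exG (zg (fun r => S.W r m) (fun r => chq (S.cf m r) (S.Z r m)) (fun r => S.Z r m) j p) K x *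
          dw (1 / 16) (sl2 a' b') x) ∂stdGaussian E := by
    rw [← lintegral_const_mul' _ _ ENNReal.ofReal_ne_top]
    refine lintegral_mono fun x => ?_
    simp only []
    calc _ ≤ (S.Rg p 0 m).indicator 1 x *
          (exG (zg (fun r => S.W r m) (fun r => chq (S.cf m r) (S.Z r m)) (fun r => S.Z r m) j p)
            K x * (ENNReal.ofReal 16 * dw (1 / 16) (sl2 a' b') x)) :=
          mul_le_mul' le_rfl (mul_le_mul' le_rfl (wd_le_dw na nb x))
      _ = _ := by ring
  -- step 5: the class 0 chain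
  have hSI : SI (fun r => S.W r m) (List.replicate j 0 ++ p) := by
    rcases j with _ | j
    · simpa using SI_c htm hp
    · have h1 := hlf j (by omega)
      have h2 : List.replicate (j + 1) 0 ++ p = 0 :: (List.replicate j 0 ++ p) := rfl
      rw [h2]
      exact SI_cons_v htm h1
  have hZn : (fun r => (nk (fun r => S.W r m) S.A0 S.kap S.qq (ENNReal.ofReal S.b0) r)ᶜ) =
      fun r => S.Z r m := by
    funext r
    rw [nk_eq_c, compl_compl]
  have s4 := reo_zero_w (W := fun r => S.W r m) (cls := fun r => S.kl r m)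
    (om := fun r => S.om r m)
    (p := p) (ch := fun r => chq (S.cf m r) (S.Z r m)) (A0 := S.A0) (kap := S.kap) (q := S.qq)
    (th := S.th) (b0 := S.b0) (κ := S.kMom) (K := K) j (W_nil_c m) hSI (lab_c htm) S.hqq.le H.qq
    S.hth.le S.hth1.le S.hA0
    S.hkap H.kap hkρ b0_pos_c S.hAb kMom_nonneg
    (S := sl2 a' b') (isClosed_sl2 a' b') (convex_sl2 a' b') (gam_sl2 na nb)
    (e := 1 / 16) (by norm_num) (by linarith)
    (fun r hr => tinv_sl2 (Submodule.orthogonal_le (S.W_mono hr m) pa)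
      (Submodule.orthogonal_le (S.W_mono hr m) pb))
    ((S.isClosed_X p m).preimage U.continuous)
    ((S.convex_X p m).linear_preimage (U.toLinearEquiv : E →ₗ[ℝ] E)) (R := S.R)
    (fun y hy => by
      have := S.X_subset_ball p m (show U y ∈ S.X p m from hy)
      simpa [U.norm_map] using this) hroot
    (fun r _ x hx => by
      have h := A_le_b0_c (S := S) (p := r) (m := m) (x := x) hx.1
      rw [mem_setOf_eq, pl_eq_chn_c]
      exact h)
    (fun r _ x h0 hx => by
      rw [nk_eq_c] at hx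
      exact om_of_zero_c h0 hx)
    (fun r hr x h0 hx => by
      have h1 : fib (S.W r m) (Kᶜ.indicator 1) x = S.De r m x := by
        rw [hK, fib_compl_preimage (hU.mono (S.W_mono hr m)) hXm x]
        exact S.mv.fib_Bd_compl (fun t => M1.measurableSet_body S.v S.R t) m hr x
      rw [h1]
      exact (good_of_pos_c h0 (In.self_c (zero_B_c r 0) htm)).trans
        (ENNReal.ofReal_le_ofReal (by norm_num)))
    (fun r => measurable_chq (hL.ok r).meas (hL.ok r).measZ)
    (fun r x hx => by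
      rw [nk_eq_c] at hx
      rw [pl_eq_chn_c]
      exact chq_le_cap hth r x hx)
  rw [hZn] at s4
  refine s2.trans ((le_of_eq s3).trans (s3'.trans ((mul_le_mul' le_rfl s4).trans ?_)))
  rw [← mul_assoc, ← ENNReal.ofReal_mul (by norm_num)]
  refine mul_le_mul' (ENNReal.ofReal_le_ofReal (le_of_eq (by ring))) ?_
  show ∫⁻ x, (OMc (fun r => S.kl r m) (fun r => S.om r m) p 0).indicator 1 x * _ ∂stdGaussian E ≤ _
  refine lintegral_mono fun x => ?_
  refine mul_le_mul' le_rfl ?_
  by_cases h1 : x ∈ {x | ENNReal.ofReal (Real.exp (-1418)) ≤ H439.qq (S.W p m) K x}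
  · have h2 : H439.qq (S.W p m) K x = S.q p m x := by
      show fib (S.W p m) (K.indicator 1) x = _
      rw [← show fib (S.W p m) ((S.X p m).indicator 1) x = S.q p m x from rfl,
        ← fib_fixes hU (measurable_one.indicator hXm) x]
      rfl
    have h3 : x ∈ {x | ENNReal.ofReal (Real.exp (-1418)) ≤ S.q p m x} := by
      rw [mem_setOf_eq, ← h2]; exact h1
    rw [indicator_of_mem h1, indicator_of_mem h3, pl_eq_chn_c]
    exact le_rfl
  · rw [indicator_of_notMem h1]
    exact bot_le

end lab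

end Vale.Agent.P262.M2.Sys
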