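import Mathlib
import Vale.Agent.P262.H44.StarTree
import Vale.Agent.P262.H502.TreeW

/-!
# P262, block PERW, part A: line functionals of a convex body with a weight
-/

set_option linter.all false

open MeasureTheory Set Filter ProbabilityTheory
open scoped ENNReal NNReal Topology RealInnerProductSpace

namespace Vale.Agent.P262.PerW

open Vale.Agent.P262.H493 hiding fib
open Vale.Agent.P262.H395
open Vale.Agent.P262.H44
open Vale.Agent.P262.H502

variable {E : Type*} [NormedAddCommGroup E] [InnerProductSpace ℝ E] [FiniteDimensional ℝ E]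
  [MeasurableSpace E] [BorelSpace E] {K : Set E} {w : E → ℝ≥0∞} {e : E}

/-- weight times the Gaussian density of the coordinate along `e`, on `K` -/
noncomputable def ffk (K : Set E) (w : E → ℝ≥0∞) (e : E) : E → ℝ≥0∞ :=
  K.indicator fun y => w y * ee ⟪e, y⟫

/-- the supremum along the line -/
noncomputable def mm (K : Set E) (w : E → ℝ≥0∞) (e : E) (x : E) : ℝ≥0∞ :=
  ⨆ t : ℝ, ffk K w e (x + t • e)

/-- chord of length at least `L` -/
def CLe (K : Set E) (e : E) (L : ℝ) : Set E :=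
  {x | ∃ t : ℝ, x + t • e ∈ K ∧ x + (t + L) • e ∈ K}

lemma ffk_le_mm (K : Set E) (w : E → ℝ≥0∞) (e x : E) (t : ℝ) :
    ffk K w e (x + t • e) ≤ mm K w e x := le_iSup (fun t : ℝ => ffk K w e (x + t • e)) t

lemma ffk_le_mm' (K : Set E) (w : E → ℝ≥0∞) (e x : E) : ffk K w e x ≤ mm K w e x := by
  have := ffk_le_mm K w e x 0
  simpa using this

lemma mm_add (K : Set E) (w : E → ℝ≥0∞) (e x : E) (s : ℝ) :
    mm K w e (x + s • e) = mm K w e x := by
  apply le_antisymm
  · refine iSup_le fun t => ?_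
    have := ffk_le_mm K w e x (s + t)
    rwa [add_smul, ← add_assoc] at this
  · refine iSup_le fun t => ?_
    have := ffk_le_mm K w e (x + s • e) (t - s)
    rwa [add_assoc, ← add_smul, add_sub_cancel] at this

lemma mem_CLe_add (K : Set E) (e x : E) (L s : ℝ) : x + s • e ∈ CLe K e L ↔ x ∈ CLe K e L := by
  constructor
  · rintro ⟨t, h1, h2⟩
    refine ⟨s + t, ?_, ?_⟩
    · rwa [add_smul, ← add_assoc]
    · rwa [add_assoc s t L, add_smul, ← add_assoc]
  · rintro ⟨t, h1, h2⟩
    refine ⟨t - s, ?_, ?_⟩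
    · rwa [add_assoc, ← add_smul, add_sub_cancel]
    · rw [add_assoc, ← add_smul]
      have : s + (t - s + L) = t + L := by ring
      rwa [this]

lemma exists_smul_of_mem {u : E} (hu : u ∈ (ℝ ∙ e)ᗮᗮ) : ∃ s : ℝ, s • e = u := by
  rw [Submodule.orthogonal_orthogonal] at hu
  exact Submodule.mem_span_singleton.mp hu

lemma inv_mm (K : Set E) (w : E → ℝ≥0∞) (e : E) : Inv (ℝ ∙ e)ᗮ (mm K w e) := by
  intro x u hu
  obtain ⟨s, rfl⟩ := exists_smul_of_mem hu
  exact mm_add K w e x s

lemma invS_CLe (K : Set E) (e : E) (L : ℝ) : InvS (ℝ ∙ e)ᗮ (CLe K e L) := by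
  intro x u hu
  obtain ⟨s, rfl⟩ := exists_smul_of_mem hu
  exact mem_CLe_add K e x L s

/-! ### the line as a fibre -/

lemma mix_line (he : ‖e‖ = 1) (x z : E) :
    Vale.Agent.P262.H395.mix (ℝ ∙ e)ᗮ x z = x + (⟪e, z⟫ - ⟪e, x⟫) • e := by
  have h1 : ∀ y : E, (ℝ ∙ e)ᗮ.starProjection y = y - ⟪e, y⟫ • e := by
    intro y
    rw [Submodule.starProjection_orthogonal]
    simp [Submodule.starProjection_unit_singleton ℝ he]
  unfold Vale.Agent.P262.H395.mix
  rw [h1, h1, sub_smul]
  abel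

lemma map_inner_unit (he : ‖e‖ = 1) :
    (stdGaussian E).map (fun x => ⟪e, x⟫) = gaussianReal 0 1 := by
  have h1 := IsGaussian.map_eq_gaussianReal (μ := stdGaussian E) (innerSL ℝ e)
  have h2 : (fun x => ⟪e, x⟫) = ⇑(innerSL ℝ e) := by
    ext x; simp
  rw [h2, h1, integral_strongDual_stdGaussian, variance_dual_stdGaussian, innerSL_apply_norm, he]
  simp

lemma fib_unit (he : ‖e‖ = 1) {f : E → ℝ≥0∞} (hf : Measurable f) (x : E) :
    fib (ℝ ∙ e)ᗮ f x = ∫⁻ t, f (x + (t - ⟪e, x⟫) • e) ∂(gaussianReal 0 1) := by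
  unfold fib
  simp only [mix_line he]
  rw [← map_inner_unit he, lintegral_map]
  · exact hf.comp (by fun_prop)
  · fun_prop

lemma measurable_ee : Measurable ee := by
  unfold ee
  fun_prop

/-- fibre average along the line with respect to the Lebesgue measure -/
lemma fib_unit' (he : ‖e‖ = 1) {f : E → ℝ≥0∞} (hf : Measurable f) (x : E) :
    fib (ℝ ∙ e)ᗮ f x = kk * ∫⁻ t : ℝ, f (x + t • e) * ee ⟪e, x + t • e⟫ := by
  have hg : Measurable fun t : ℝ => f (x + (t - ⟪e, x⟫) • e) := hf.comp (by fun_prop)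
  rw [fib_unit he hf, gaussianReal_of_var_ne_zero 0 one_ne_zero,
    lintegral_withDensity_eq_lintegral_mul _ (measurable_gaussianPDF 0 1) hg]
  simp only [Pi.mul_apply, gpdf_eq]
  have h1 : ∀ t : ℝ, ⟪e, x + t • e⟫ = ⟪e, x⟫ + t := by
    intro t
    rw [inner_add_right, inner_smul_right, real_inner_self_eq_norm_sq, he]
    ring
  simp only [h1]
  have h2 := lintegral_add_right_eq_self (μ := (volume : Measure ℝ))
    (fun t => kk * (f (x + (t - ⟪e, x⟫) • e) * ee t)) ⟪e, x⟫
  rw [← lintegral_const_mul _ (by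
    refine Measurable.mul (hf.comp (by fun_prop)) (measurable_ee.comp (by fun_prop)))]
  have h3 : ∀ t : ℝ, kk * (f (x + t • e) * ee (⟪e, x⟫ + t)) =
      kk * (f (x + (t + ⟪e, x⟫ - ⟪e, x⟫) • e) * ee (t + ⟪e, x⟫)) := by
    intro t
    rw [add_sub_cancel_right, add_comm t]
  simp only [h3]
  rw [h2]
  refine lintegral_congr fun t => ?_
  rw [mul_comm (f _), ← mul_assoc]
  rfl

/-! ### chords -/

lemma mem_btw (hKc : Convex ℝ K) {x : E} {l r t : ℝ} (hl : x + l • e ∈ K) (hr : x + r • e ∈ K)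
    (h1 : l ≤ t) (h2 : t ≤ r) : x + t • e ∈ K := by
  rcases eq_or_lt_of_le (h1.trans h2) with h | h
  · have : t = l := by linarith
    rwa [this]
  · have h3 : 0 < r - l := by linarith
    have h4 := hKc hl hr (a := (r - t) / (r - l)) (b := (t - l) / (r - l))
      (div_nonneg (by linarith) h3.le) (div_nonneg (by linarith) h3.le) (by
        rw [← add_div, div_eq_one_iff_eq h3.ne']; ring)
    convert h4 using 1
    rw [smul_add, smul_add, smul_smul, smul_smul]
    have e1 : ((r - t) / (r - l)) • x + ((r - t) / (r - l) * l) • e +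
        (((t - l) / (r - l)) • x + ((t - l) / (r - l) * r) • e) =
        ((r - t) / (r - l) + (t - l) / (r - l)) • x +
        ((r - t) / (r - l) * l + (t - l) / (r - l) * r) • e := by
      rw [add_smul, add_smul]; abel
    rw [e1]
    have e2 : (r - t) / (r - l) + (t - l) / (r - l) = 1 := by
      rw [← add_div, div_eq_one_iff_eq h3.ne']; ring
    have e3 : (r - t) / (r - l) * l + (t - l) / (r - l) * r = t := by
      field_simp
      ring
    rw [e2, e3, one_smul]

lemma isCompact_line (hK : IsCompact K) (he : ‖e‖ = 1) (x : E) :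
    IsCompact {t : ℝ | x + t • e ∈ K} := by
  obtain ⟨M, hM⟩ := hK.isBounded.subset_closedBall 0
  refine Metric.isCompact_of_isClosed_isBounded (hK.isClosed.preimage (by fun_prop)) ?_
  refine (Metric.isBounded_closedBall (x := (0 : ℝ)) (r := M + ‖x‖)).subset fun t ht => ?_
  have h1 := hM ht
  rw [mem_closedBall_zero_iff] at h1 ⊢
  have h2 : ‖t • e‖ = ‖t‖ := by rw [norm_smul, he, mul_one]
  rw [← h2]
  calc ‖t • e‖ = ‖(x + t • e) - x‖ := by rw [add_sub_cancel_left]
    _ ≤ ‖x + t • e‖ + ‖x‖ := norm_sub_le _ _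
    _ ≤ M + ‖x‖ := by linarith

lemma chordE (hK : IsCompact K) (he : ‖e‖ = 1) {x : E} {t1 : ℝ} (h : x + t1 • e ∈ K) :
    ∃ l r : ℝ, x + l • e ∈ K ∧ x + r • e ∈ K ∧ ∀ t : ℝ, x + t • e ∈ K → t ∈ Icc l r := by
  have hc := isCompact_line hK he x
  have hne : {t : ℝ | x + t • e ∈ K}.Nonempty := ⟨t1, h⟩
  obtain ⟨l, hl1, hl2⟩ := hc.exists_isLeast hne
  obtain ⟨r, hr1, hr2⟩ := hc.exists_isGreatest hne
  exact ⟨l, r, hl1, hr1, fun t ht => ⟨hl2 ht, hr2 ht⟩⟩

lemma continuous_ee : Continuous ee := by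
  unfold ee
  exact ENNReal.continuous_ofReal.comp (by fun_prop)

lemma continuous_ffu (hw : Continuous w) (hfin : ∀ x, w x ≠ ⊤) (e : E) :
    Continuous fun y => w y * ee ⟪e, y⟫ := by
  rw [continuous_iff_continuousAt]
  intro y
  refine ENNReal.Tendsto.mul (hw.tendsto y) (Or.inr (ee_ne_top _)) ?_ (Or.inr (hfin y))
  exact (continuous_ee.comp (by fun_prop : Continuous fun y : E => ⟪e, y⟫)).tendsto y

lemma mm_attained (hK : IsCompact K) (hw : Continuous w) (hfin : ∀ x, w x ≠ ⊤) (he : ‖e‖ = 1)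
    {x : E} {t1 : ℝ} (h : x + t1 • e ∈ K) :
    ∃ t0 : ℝ, x + t0 • e ∈ K ∧ mm K w e x = w (x + t0 • e) * ee ⟪e, x + t0 • e⟫ := by
  obtain ⟨t0, h0, hmax⟩ := (isCompact_line hK he x).exists_isMaxOn ⟨t1, h⟩
    (f := fun t : ℝ => w (x + t • e) * ee ⟪e, x + t • e⟫)
    (((continuous_ffu hw hfin e).comp (by fun_prop : Continuous fun t : ℝ => x + t • e)).continuousOn)
  refine ⟨t0, h0, le_antisymm (iSup_le fun t => ?_) ?_⟩
  · by_cases ht : x + t • e ∈ K
    · unfold ffk
      rw [indicator_of_mem ht]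
      exact hmax ht
    · unfold ffk
      rw [indicator_of_notMem ht]
      exact bot_le
  · refine le_trans ?_ (ffk_le_mm K w e x t0)
    have h0' : x + t0 • e ∈ K := h0
    unfold ffk
    rw [indicator_of_mem h0']

lemma mm_empty {x : E} (h : ∀ t : ℝ, x + t • e ∉ K) : mm K w e x = 0 := by
  refine le_antisymm (iSup_le fun t => ?_) bot_le
  unfold ffk
  rw [indicator_of_notMem (h t)]

/-! ### upper semicontinuity -/

lemma proj_add_line (x : E) (t : ℝ) :
    (ℝ ∙ e)ᗮ.starProjection (x + t • e) = (ℝ ∙ e)ᗮ.starProjection x := by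
  have h : t • e ∈ (ℝ ∙ e)ᗮᗮ := by
    rw [Submodule.orthogonal_orthogonal]
    exact Submodule.smul_mem _ _ (Submodule.mem_span_singleton_self e)
  rw [map_add, proj_eq_zero h, add_zero]

lemma eq_line_of_proj {x y : E} (h : (ℝ ∙ e)ᗮ.starProjection x = (ℝ ∙ e)ᗮ.starProjection y) :
    ∃ t : ℝ, y = x + t • e := by
  have h1 : y - x ∈ (ℝ ∙ e)ᗮᗮ := by
    rw [← Submodule.starProjection_apply_eq_zero_iff, map_sub, h, sub_self]
  obtain ⟨t, ht⟩ := exists_smul_of_mem h1
  exact ⟨t, by rw [ht]; abel⟩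

lemma usc_mm (hK : IsCompact K) (hw : Continuous w) (hfin : ∀ x, w x ≠ ⊤) (e : E) :
    UpperSemicontinuous (mm K w e) := by
  intro x a hxa
  obtain ⟨b, hb1, hb2⟩ := exists_between hxa
  set C : Set E := K ∩ {y | b ≤ w y * ee ⟪e, y⟫} with hC
  have hCc : IsCompact C :=
    hK.inter_right (isClosed_le continuous_const (continuous_ffu hw hfin e))
  have hcl : IsClosed ((ℝ ∙ e)ᗮ.starProjection '' C) :=
    (hCc.image (ContinuousLinearMap.continuous _)).isClosed
  have hx : (ℝ ∙ e)ᗮ.starProjection x ∉ (ℝ ∙ e)ᗮ.starProjection '' C := by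
    rintro ⟨y, hy, hyx⟩
    obtain ⟨t, ht⟩ := eq_line_of_proj hyx.symm
    have h1 := ffk_le_mm K w e x t
    rw [← ht] at h1
    unfold ffk at h1
    rw [indicator_of_mem hy.1] at h1
    exact absurd hb1 (not_lt.mpr (hy.2.trans h1))
  have hev : ∀ᶠ y in 𝓝 x, (ℝ ∙ e)ᗮ.starProjection y ∉ (ℝ ∙ e)ᗮ.starProjection '' C :=
    (hcl.isOpen_compl.preimage (ContinuousLinearMap.continuous (ℝ ∙ e)ᗮ.starProjection)).mem_nhds hx
  filter_upwards [hev] with y hy
  refine lt_of_le_of_lt (iSup_le fun t => ?_) hb2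
  by_cases ht : y + t • e ∈ K
  · by_contra hcon
    push Not at hcon
    apply hy
    refine ⟨y + t • e, ⟨ht, ?_⟩, proj_add_line y t⟩
    unfold ffk at hcon
    rw [indicator_of_mem ht] at hcon
    exact hcon.le
  · unfold ffk
    rw [indicator_of_notMem ht]
    exact bot_le

lemma isClosed_CLe (hK : IsCompact K) (he : ‖e‖ = 1) (L : ℝ) : IsClosed (CLe K e L) := by
  set C : Set E := K ∩ {y | y + L • e ∈ K} with hC
  have hCc : IsCompact C := hK.inter_right (hK.isClosed.preimage (by fun_prop))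
  have hcl : IsClosed ((ℝ ∙ e)ᗮ.starProjection '' C) :=
    (hCc.image (ContinuousLinearMap.continuous _)).isClosed
  have e1 : CLe K e L = (ℝ ∙ e)ᗮ.starProjection ⁻¹' ((ℝ ∙ e)ᗮ.starProjection '' C) := by
    ext x
    constructor
    · rintro ⟨t, h1, h2⟩
      refine ⟨x + t • e, ⟨h1, ?_⟩, proj_add_line x t⟩
      show x + t • e + L • e ∈ K
      rwa [add_assoc, ← add_smul]
    · rintro ⟨y, ⟨hy1, hy2⟩, hy⟩
      obtain ⟨t, rfl⟩ := eq_line_of_proj hy.symm
      refine ⟨t, hy1, ?_⟩
      have : x + t • e + L • e ∈ K := hy2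
      rwa [add_assoc, ← add_smul] at this
  rw [e1]
  exact hcl.preimage (ContinuousLinearMap.continuous _)

lemma GG_ee (he : ‖e‖ = 1) (x : E) (a : ℝ) :
    GG x * ee ⟪e, x + a • e⟫ = GG (x + a • e) * ee ⟪e, x⟫ := by
  unfold GG ee
  rw [← ENNReal.ofReal_mul (Real.exp_pos _).le, ← ENNReal.ofReal_mul (Real.exp_pos _).le,
    ← Real.exp_add, ← Real.exp_add]
  congr 2
  have h1 : ⟪e, x + a • e⟫ = ⟪e, x⟫ + a := by
    rw [inner_add_right, inner_smul_right, real_inner_self_eq_norm_sq, he]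
    ring
  have h2 : ‖x + a • e‖ ^ 2 = ‖x‖ ^ 2 + 2 * a * ⟪e, x⟫ + a ^ 2 := by
    rw [norm_add_sq_real, inner_smul_right, real_inner_comm, norm_smul, he]
    simp
    ring
  rw [h1, h2]
  ring

lemma mul_rpow_mix {a b c d : ℝ≥0∞} {s t : ℝ} (hs : 0 ≤ s) (ht : 0 ≤ t) :
    (a * b) ^ s * (c * d) ^ t = (a ^ s * c ^ t) * (b ^ s * d ^ t) := by
  rw [ENNReal.mul_rpow_of_nonneg _ _ hs, ENNReal.mul_rpow_of_nonneg _ _ ht]
  ring

/-- pointwise log-concavity of the line density -/
lemma ffk_lc (hKc : Convex ℝ K) (he : ‖e‖ = 1) (hlc : LogConc fun x => GG x * w x)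
    {x y : E} {a b s t : ℝ} (hs : 0 < s) (ht : 0 < t) (hst : s + t = 1)
    (hx : x + a • e ∈ K) (hy : y + b • e ∈ K) :
    (GG x * (w (x + a • e) * ee ⟪e, x + a • e⟫)) ^ s *
      (GG y * (w (y + b • e) * ee ⟪e, y + b • e⟫)) ^ t ≤
    GG (s • x + t • y) * mm K w e (s • x + t • y) := by
  have e1 : ∀ (x : E) (a : ℝ), GG x * (w (x + a • e) * ee ⟪e, x + a • e⟫) =
      (GG (x + a • e) * w (x + a • e)) * ee ⟪e, x⟫ := by
    intro x a
    calc GG x * (w (x + a • e) * ee ⟪e, x + a • e⟫)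
        = (GG x * ee ⟪e, x + a • e⟫) * w (x + a • e) := by ring
      _ = _ := by rw [GG_ee he]; ring
  rw [e1, e1, mul_rpow_mix hs.le ht.le]
  set z := s • x + t • y with hz
  have e2 : s • (x + a • e) + t • (y + b • e) = z + (s * a + t * b) • e := by
    rw [hz, smul_add, smul_add, smul_smul, smul_smul, add_smul]
    abel
  have h1 := hlc (x + a • e) (y + b • e) s t hs ht hst
  rw [e2] at h1
  have h2 := ee_lc ⟪e, x⟫ ⟪e, y⟫ s t hs ht hst
  have h3 : s * ⟪e, x⟫ + t * ⟪e, y⟫ = ⟪e, z⟫ := by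
    rw [hz, inner_add_right, inner_smul_right, inner_smul_right]
  have hzK : z + (s * a + t * b) • e ∈ K := by
    rw [← e2]
    exact hKc hx hy hs.le ht.le hst
  have h4 := ffk_le_mm K w e z (s * a + t * b)
  unfold ffk at h4
  rw [indicator_of_mem hzK] at h4
  calc _ ≤ (GG (z + (s * a + t * b) • e) * w (z + (s * a + t * b) • e)) * ee ⟪e, z⟫ := by
        refine mul_le_mul' h1 ?_
        rw [← h3]
        exact h2
    _ = GG z * (w (z + (s * a + t * b) • e) * ee ⟪e, z + (s * a + t * b) • e⟫) := (e1 z _).symm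
    _ ≤ _ := mul_le_mul' le_rfl h4

lemma CLe_mono (hKc : Convex ℝ K) {a b : ℝ} (ha : 0 ≤ a) (hab : a ≤ b) :
    CLe K e b ⊆ CLe K e a := by
  rintro x ⟨t, h1, h2⟩
  exact ⟨t, h1, mem_btw hKc h1 h2 (by linarith) (by linarith)⟩

lemma mm_bdd (hK : IsCompact K) (hw : Continuous w) (hfin : ∀ x, w x ≠ ⊤) (e : E) :
    ∃ M : ℝ≥0∞, M ≠ ⊤ ∧ ∀ x, mm K w e x ≤ M := by
  rcases K.eq_empty_or_nonempty with h | h
  · refine ⟨0, by simp, fun x => ?_⟩
    rw [mm_empty (fun t => by rw [h]; exact notMem_empty _)]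
  · obtain ⟨y, hy, hmax⟩ := hK.exists_isMaxOn h (continuous_ffu hw hfin e).continuousOn
    refine ⟨w y * ee ⟪e, y⟫, ENNReal.mul_ne_top (hfin y) (ee_ne_top _), fun x => ?_⟩
    refine iSup_le fun t => ?_
    by_cases ht : x + t • e ∈ K
    · unfold ffk
      rw [indicator_of_mem ht]
      exact hmax ht
    · unfold ffk
      rw [indicator_of_notMem ht]
      exact bot_le

lemma usc_indicator_closed {C : Set E} (hC : IsClosed C) {f : E → ℝ≥0∞}
    (hf : UpperSemicontinuous f) : UpperSemicontinuous (C.indicator f) := by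
  intro x a hxa
  by_cases hx : x ∈ C
  · rw [indicator_of_mem hx] at hxa
    filter_upwards [hf x a hxa] with y hy
    exact lt_of_le_of_lt (indicator_le_self' (fun _ _ => bot_le) y) hy
  · rw [indicator_of_notMem hx] at hxa
    filter_upwards [hC.isOpen_compl.mem_nhds hx] with y hy
    rwa [indicator_of_notMem hy]

/-- the regular triple of a compact convex body with a weight -/
theorem regW_mm (hK : IsCompact K) (hKc : Convex ℝ K) (he : ‖e‖ = 1) (hw : Continuous w)
    (hfin : ∀ x, w x ≠ ⊤) (hlc : LogConc fun x => GG x * w x) {Θ L : ℝ} (hΘ : 0 < Θ)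
    (hΘ1 : Θ < 1) (hL : 0 ≤ L) :
    RegW Θ (mm K w e) ((CLe K e (Θ * L)).indicator (mm K w e))
      ((CLe K e L).indicator (mm K w e)) := by
  have husc := usc_mm hK hw hfin e
  have h1Θ : 0 < 1 - Θ := by linarith
  exact
  { m0 := husc.measurable
    mT := husc.measurable.indicator (isClosed_CLe hK he _).measurableSet
    m1 := husc.measurable.indicator (isClosed_CLe hK he _).measurableSet
    le1 := fun x => indicator_le_indicator_of_subset
      (CLe_mono hKc (by positivity) (by nlinarith)) (fun _ => bot_le) x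
    leT := fun x => indicator_le_self' (fun _ _ => bot_le) x
    lc := by
      intro x y s t hs ht hst
      show (GG x * mm K w e x) ^ s * (GG y * mm K w e y) ^ t ≤ _
      by_cases hx : ∃ a : ℝ, x + a • e ∈ K
      · by_cases hy : ∃ b : ℝ, y + b • e ∈ K
        · obtain ⟨a, ha⟩ := hx
          obtain ⟨b, hb⟩ := hy
          obtain ⟨a, ha, hax⟩ := mm_attained hK hw hfin he ha
          obtain ⟨b, hb, hby⟩ := mm_attained hK hw hfin he hb
          rw [hax, hby]
          exact ffk_lc hKc he hlc hs ht hst ha hb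
        · push Not at hy
          rw [mm_empty hy, mul_zero, ENNReal.zero_rpow_of_pos ht, mul_zero]
          exact bot_le
      · push Not at hx
        rw [mm_empty hx, mul_zero, ENNReal.zero_rpow_of_pos hs, zero_mul]
        exact bot_le
    mix := by
      intro x y
      by_cases hx : ∃ a : ℝ, x + a • e ∈ K
      · by_cases hy : y ∈ CLe K e L
        · rw [indicator_of_mem hy]
          obtain ⟨a0, ha0⟩ := hx
          obtain ⟨b0, hb1, hb2⟩ := hy
          obtain ⟨a, ha, hax⟩ := mm_attained hK hw hfin he ha0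
          obtain ⟨b, hb, hby⟩ := mm_attained hK hw hfin he hb1
          have hz : (1 - Θ) • x + Θ • y ∈ CLe K e (Θ * L) := by
            refine ⟨(1 - Θ) * a0 + Θ * b0, ?_, ?_⟩
            · have := hKc ha0 hb1 h1Θ.le hΘ.le (by ring)
              convert this using 1
              rw [smul_add, smul_add, smul_smul, smul_smul, add_smul]
              abel
            · have := hKc ha0 hb2 h1Θ.le hΘ.le (by ring)
              convert this using 1
              rw [smul_add, smul_add, smul_smul, smul_smul,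
                show (1 - Θ) * a0 + Θ * b0 + Θ * L = (1 - Θ) * a0 + Θ * (b0 + L) by ring, add_smul]
              abel
          rw [indicator_of_mem hz, hax, hby]
          exact ffk_lc hKc he hlc h1Θ hΘ (by ring) ha hb
        · rw [indicator_of_notMem hy, mul_zero, ENNReal.zero_rpow_of_pos hΘ, mul_zero]
          exact bot_le
      · push Not at hx
        rw [mm_empty hx, mul_zero, ENNReal.zero_rpow_of_pos h1Θ, zero_mul]
        exact bot_le
    usc := usc_indicator_closed (isClosed_CLe hK he _) husc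
    bdd := mm_bdd hK hw hfin e }

/-! ### one line -/

/-- points of `K` within `r` of the complement along the line -/
def EdgeE (K : Set E) (e : E) (r : ℝ) : Set E := {x | x ∈ K ∧ ∃ t : ℝ, |t| ≤ r ∧ x + t • e ∉ K}

lemma edgeE_eq (hKc : Convex ℝ K) {r : ℝ} (hr : 0 ≤ r) :
    EdgeE K e r = K \ ({x | x + r • e ∈ K} ∩ {x | x + (-r) • e ∈ K}) := by
  ext x
  simp only [EdgeE, mem_setOf_eq, mem_diff, mem_inter_iff, not_and_or]
  constructor
  · rintro ⟨hx, t, ht, hxt⟩
    refine ⟨hx, ?_⟩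
    by_contra hcon
    push Not at hcon
    rw [abs_le] at ht
    exact hxt (mem_btw hKc hcon.2 hcon.1 ht.1 ht.2)
  · rintro ⟨hx, h | h⟩
    · exact ⟨hx, r, by rw [abs_of_nonneg hr], h⟩
    · exact ⟨hx, -r, by rw [abs_neg, abs_of_nonneg hr], h⟩

lemma measurableSet_edgeE (hK : IsClosed K) (hKc : Convex ℝ K) {r : ℝ} (hr : 0 ≤ r) :
    MeasurableSet (EdgeE K e r) := by
  rw [edgeE_eq hKc hr]
  exact hK.measurableSet.diff ((hK.preimage (by fun_prop)).measurableSet.inter
    (hK.preimage (by fun_prop)).measurableSet)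

theorem edge_le (hK : IsCompact K) (hKc : Convex ℝ K) (he : ‖e‖ = 1) (hw : Continuous w)
    {r : ℝ} (hr : 0 ≤ r) (y : E) :
    fib (ℝ ∙ e)ᗮ ((EdgeE K e r).indicator w) y ≤ kk * ENNReal.ofReal (2 * r) * mm K w e y := by
  rw [fib_unit' he (hw.measurable.indicator (measurableSet_edgeE hK.isClosed hKc hr)), mul_assoc]
  gcongr
  by_cases hy : ∃ t : ℝ, y + t • e ∈ K
  · obtain ⟨t1, ht1⟩ := hy
    obtain ⟨l, q, hl, hq, hlq⟩ := chordE hK he ht1
    set S : Set ℝ := Icc l (l + r) ∪ Icc (q - r) q with hS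
    have hSm : MeasurableSet S := measurableSet_Icc.union measurableSet_Icc
    have h1 : ∀ t : ℝ, (EdgeE K e r).indicator w (y + t • e) * ee ⟪e, y + t • e⟫ ≤
        S.indicator (fun _ => mm K w e y) t := by
      intro t
      by_cases ht : y + t • e ∈ EdgeE K e r
      · have htS : t ∈ S := by
          obtain ⟨hK1, u, hu, hu2⟩ := ht
          have hlt := hlq t hK1
          by_contra hcon
          simp only [hS, mem_union, mem_Icc, not_or, not_and_or, not_le] at hcon
          apply hu2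
          rw [add_assoc, ← add_smul]
          rw [abs_le] at hu
          have h3 : l + r < t := by
            rcases hcon.1 with h | h
            · exact absurd hlt.1 (not_le.mpr h)
            · exact h
          have h4 : t < q - r := by
            rcases hcon.2 with h | h
            · exact h
            · exact absurd hlt.2 (not_le.mpr h)
          exact mem_btw hKc hl hq (by linarith) (by linarith)
        rw [indicator_of_mem ht, indicator_of_mem htS]
        have h2 := ffk_le_mm K w e y t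
        unfold ffk at h2
        rwa [indicator_of_mem ht.1] at h2
      · rw [indicator_of_notMem ht, zero_mul]
        exact bot_le
    calc ∫⁻ t : ℝ, (EdgeE K e r).indicator w (y + t • e) * ee ⟪e, y + t • e⟫
        ≤ ∫⁻ t : ℝ, S.indicator (fun _ => mm K w e y) t := lintegral_mono h1
      _ = mm K w e y * volume S := lintegral_indicator_const hSm _
      _ ≤ mm K w e y * ENNReal.ofReal (2 * r) := by
          gcongr
          calc volume S ≤ volume (Icc l (l + r)) + volume (Icc (q - r) q) := measure_union_le _ _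
            _ = ENNReal.ofReal r + ENNReal.ofReal r := by
                rw [Real.volume_Icc, Real.volume_Icc]
                congr 2 <;> ring
            _ = ENNReal.ofReal (2 * r) := by
                rw [← ENNReal.ofReal_add hr hr]; congr 1; ring
      _ = _ := mul_comm _ _
  · push Not at hy
    have : ∀ t : ℝ, (EdgeE K e r).indicator w (y + t • e) * ee ⟪e, y + t • e⟫ = 0 := by
      intro t
      rw [indicator_of_notMem (fun h => hy t h.1), zero_mul]
    simp only [this, lintegral_zero]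
    exact bot_le

theorem mass_ge (hK : IsCompact K) (hKc : Convex ℝ K) (he : ‖e‖ = 1) (hw : Continuous w)
    (hfin : ∀ x, w x ≠ ⊤) {R b T : ℝ} (hR : 0 ≤ R) (hKR : ∀ x ∈ K, |⟪e, x⟫| ≤ R) (hb : 0 ≤ b)
    (hslope : ∀ x ∈ K, ∀ t : ℝ, x + t • e ∈ K →
      w x ≤ ENNReal.ofReal (Real.exp (b * |t|)) * w (x + t • e))
    (hT : 0 < T) (hT1 : T ≤ 1) {y : E} (hy : y ∈ CLe K e T) :
    kk * ENNReal.ofReal (T / (2 * (1 + R + b)) * Real.exp (-1)) * mm K w e y ≤
      fib (ℝ ∙ e)ᗮ (K.indicator w) y := by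
  rw [fib_unit' he (hw.measurable.indicator hK.measurableSet), mul_assoc]
  gcongr
  obtain ⟨t1, ht1, ht2⟩ := hy
  obtain ⟨l, q, hl, hq, hlq⟩ := chordE hK he ht1
  obtain ⟨t0, ht0, hmm⟩ := mm_attained hK hw hfin he ht1
  have hlen : T ≤ q - l := by
    have h1 := (hlq t1 ht1).1
    have h2 := (hlq _ ht2).2
    linarith
  set δ : ℝ := T / (2 * (1 + R + b)) with hδ
  have hden : 0 < 2 * (1 + R + b) := by positivity
  have hδ0 : 0 < δ := div_pos hT hden
  have hδT : δ ≤ T / 2 := by
    rw [hδ]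
    apply div_le_div_of_nonneg_left hT.le (by norm_num) (by linarith)
  have hδ1 : (1 + R + b) * δ ≤ 1 / 2 := by
    have : (1 + R + b) * δ = T / 2 := by
      rw [hδ]; field_simp
    rw [this]; linarith
  have h01 := hlq t0 ht0
  obtain ⟨a, ha1, ha2, ha3⟩ : ∃ a : ℝ, l ≤ a ∧ a + δ ≤ q ∧ ∀ t ∈ Icc a (a + δ), |t - t0| ≤ δ := by
    by_cases h : t0 + δ ≤ q
    · refine ⟨t0, h01.1, h, fun t ht => ?_⟩
      rw [abs_le]
      exact ⟨by linarith [ht.1], by linarith [ht.2]⟩
    · push Not at h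
      refine ⟨t0 - δ, by linarith, by linarith [h01.2], fun t ht => ?_⟩
      rw [abs_le]
      exact ⟨by linarith [ht.1], by linarith [ht.2]⟩
  have key : ∀ t ∈ Icc a (a + δ), ENNReal.ofReal (Real.exp (-1)) * mm K w e y ≤
      K.indicator w (y + t • e) * ee ⟪e, y + t • e⟫ := by
    intro t ht
    have htK : y + t • e ∈ K := mem_btw hKc hl hq (ha1.trans ht.1) (ht.2.trans ha2)
    rw [indicator_of_mem htK, hmm]
    have e1 : y + t • e = (y + t0 • e) + (t - t0) • e := by
      rw [add_assoc, ← add_smul, add_sub_cancel]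
    have h1 := hslope _ ht0 (t - t0) (by rw [← e1]; exact htK)
    rw [← e1] at h1
    have h2 : ⟪e, y + t • e⟫ = ⟪e, y + t0 • e⟫ + (t - t0) := by
      rw [e1, inner_add_right, inner_smul_right, real_inner_self_eq_norm_sq, he]
      ring
    have hs0 := hKR _ ht0
    have hτ := ha3 t ht
    set τ := t - t0 with hτd
    set s0 := ⟪e, y + t0 • e⟫ with hs0d
    have h3 : ee s0 ≤ ENNReal.ofReal (Real.exp (R * |τ| + τ ^ 2 / 2)) * ee (s0 + τ) := by
      unfold ee
      rw [← ENNReal.ofReal_mul (Real.exp_pos _).le, ← Real.exp_add]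
      refine ENNReal.ofReal_le_ofReal (Real.exp_le_exp.mpr ?_)
      have h5 : s0 * τ ≤ R * |τ| := by
        calc s0 * τ ≤ |s0 * τ| := le_abs_self _
          _ = |s0| * |τ| := abs_mul _ _
          _ ≤ R * |τ| := by gcongr
      nlinarith
    rw [h2]
    calc ENNReal.ofReal (Real.exp (-1)) * (w (y + t0 • e) * ee s0)
        ≤ ENNReal.ofReal (Real.exp (-1)) * ((ENNReal.ofReal (Real.exp (b * |τ|)) * w (y + t • e)) *
          (ENNReal.ofReal (Real.exp (R * |τ| + τ ^ 2 / 2)) * ee (s0 + τ))) := by gcongr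
      _ = (ENNReal.ofReal (Real.exp (-1)) * ENNReal.ofReal (Real.exp (b * |τ|)) *
          ENNReal.ofReal (Real.exp (R * |τ| + τ ^ 2 / 2))) * (w (y + t • e) * ee (s0 + τ)) := by ring
      _ ≤ 1 * (w (y + t • e) * ee (s0 + τ)) := by
          gcongr
          rw [← ENNReal.ofReal_mul (Real.exp_pos _).le, ← ENNReal.ofReal_mul (by positivity),
            ← Real.exp_add, ← Real.exp_add, ENNReal.ofReal_le_one, Real.exp_le_one_iff]
          have h6 : |τ| ≤ 1 := hτ.trans (by
            have : δ ≤ 1 / 2 := hδT.trans (by linarith)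
            linarith)
          have h7 : τ ^ 2 ≤ |τ| := by
            rw [← sq_abs]; nlinarith [abs_nonneg τ]
          have h8 : (1 + R + b) * |τ| ≤ 1 / 2 := (mul_le_mul_of_nonneg_left hτ (by positivity)).trans hδ1
          nlinarith [abs_nonneg τ]
      _ = _ := one_mul _
  calc ENNReal.ofReal (δ * Real.exp (-1)) * mm K w e y
      = (ENNReal.ofReal (Real.exp (-1)) * mm K w e y) * volume (Icc a (a + δ)) := by
        rw [Real.volume_Icc, add_sub_cancel_left, ENNReal.ofReal_mul hδ0.le]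
        ring
    _ = ∫⁻ t in Icc a (a + δ), ENNReal.ofReal (Real.exp (-1)) * mm K w e y := by
        rw [setLIntegral_const]
    _ ≤ ∫⁻ t in Icc a (a + δ), K.indicator w (y + t • e) * ee ⟪e, y + t • e⟫ :=
        setLIntegral_mono' measurableSet_Icc key
    _ ≤ ∫⁻ t : ℝ, K.indicator w (y + t • e) * ee ⟪e, y + t • e⟫ := setLIntegral_le_lintegral _ _

end Vale.Agent.P262.PerW
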