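import Mathlib
import Vale.Agent.P262.H493.PerA

/-!
# P262, block PERW, part B: the weighted perimeter theorem (A4)
-/

set_option linter.all false

open MeasureTheory Set Filter ProbabilityTheory
open scoped ENNReal NNReal Topology RealInnerProductSpace

namespace Vale.Agent.P262.PerW

open Vale.Agent.P262.H493 hiding fib
open Vale.Agent.P262.H395
open Vale.Agent.P262.H44
open Vale.Agent.P262.H502

variable {E : Type*} [NormedAddCommGroup E] [InnerProductSpace ℝ E] [FiniteDimensional ℝ E]
  [MeasurableSpace E] [BorelSpace E] {K : Set E} {w : E → ℝ≥0∞} {e : E}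

/-! ### Gaussian tails -/

lemma ee_mul_ge {l x : ℝ} (hl : 0 ≤ l) (hx : 0 ≤ x) : ee (x + l) ≤ ee l * ee x := by
  unfold ee
  rw [← ENNReal.ofReal_mul (Real.exp_pos _).le, ← Real.exp_add]
  refine ENNReal.ofReal_le_ofReal (Real.exp_le_exp.mpr ?_)
  nlinarith [mul_nonneg hl hx]

lemma ee_neg (x : ℝ) : ee (-x) = ee x := by
  unfold ee
  rw [neg_sq]

lemma gauss_tail_pos {l : ℝ} (hl : 0 ≤ l) : gaussianReal 0 1 (Ici l) ≤ ee l := by
  rw [gaussianReal_apply 0 one_ne_zero, ← lintegral_indicator measurableSet_Ici,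
    ← lintegral_add_right_eq_self _ l]
  calc ∫⁻ x : ℝ, (Ici l).indicator (gaussianPDF 0 1) (x + l)
      ≤ ∫⁻ x : ℝ, ee l * gaussianPDF 0 1 x := by
        refine lintegral_mono fun x => ?_
        by_cases hx : 0 ≤ x
        · rw [indicator_of_mem (by rw [mem_Ici]; linarith), gpdf_eq, gpdf_eq]
          calc kk * ee (x + l) ≤ kk * (ee l * ee x) := by gcongr; exact ee_mul_ge hl hx
            _ = ee l * (kk * ee x) := by ring
        · rw [indicator_of_notMem (by rw [mem_Ici]; linarith)]
          exact bot_le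
    _ = ee l := by
        rw [lintegral_const_mul _ (measurable_gaussianPDF 0 1), lintegral_gaussianPDF_eq_one 0 one_ne_zero,
          mul_one]

lemma gauss_tail_neg {l : ℝ} (hl : l ≤ 0) : gaussianReal 0 1 (Iic l) ≤ ee l := by
  rw [gaussianReal_apply 0 one_ne_zero, ← lintegral_indicator measurableSet_Iic,
    ← lintegral_add_right_eq_self _ l]
  calc ∫⁻ x : ℝ, (Iic l).indicator (gaussianPDF 0 1) (x + l)
      ≤ ∫⁻ x : ℝ, ee l * gaussianPDF 0 1 x := by
        refine lintegral_mono fun x => ?_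
        by_cases hx : x ≤ 0
        · rw [indicator_of_mem (by rw [mem_Iic]; linarith), gpdf_eq, gpdf_eq]
          have h := ee_mul_ge (l := -l) (x := -x) (by linarith) (by linarith)
          rw [← neg_add, ee_neg, ee_neg, ee_neg] at h
          calc kk * ee (x + l) ≤ kk * (ee l * ee x) := by gcongr
            _ = ee l * (kk * ee x) := by ring
        · rw [indicator_of_notMem (by rw [mem_Iic]; linarith)]
          exact bot_le
    _ = ee l := by
        rw [lintegral_const_mul _ (measurable_gaussianPDF 0 1), lintegral_gaussianPDF_eq_one 0 one_ne_zero,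
          mul_one]

/-- Gaussian mass of a chord against the supremum of the density on long chords -/
theorem line_long (hK : IsCompact K) (hKc : Convex ℝ K) (he : ‖e‖ = 1) {L : ℝ} (hL : 0 ≤ L)
    (y : E) :
    fib (ℝ ∙ e)ᗮ (K.indicator 1) y ≤
      kk * ENNReal.ofReal L + (CLe K e L).indicator (mm K 1 e) y := by
  have hm : MeasurableSet {t : ℝ | y + (t - ⟪e, y⟫) • e ∈ K} :=
    (hK.isClosed.preimage (by fun_prop)).measurableSet
  have h0 : fib (ℝ ∙ e)ᗮ (K.indicator 1) y = gaussianReal 0 1 {t : ℝ | y + (t - ⟪e, y⟫) • e ∈ K} := by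
    rw [fib_unit he (measurable_one.indicator hK.measurableSet), ← lintegral_indicator_one hm]
    refine lintegral_congr fun t => ?_
    by_cases h : y + (t - ⟪e, y⟫) • e ∈ K
    · rw [indicator_of_mem h, indicator_of_mem (by exact h)]; rfl
    · rw [indicator_of_notMem h, indicator_of_notMem (by exact h)]
  rw [h0]
  by_cases hne : ∃ t : ℝ, y + t • e ∈ K
  · obtain ⟨t1, ht1⟩ := hne
    obtain ⟨l, q, hl, hq, hlq⟩ := chordE hK he ht1
    have hsub : {t : ℝ | y + (t - ⟪e, y⟫) • e ∈ K} ⊆ Icc (l + ⟪e, y⟫) (q + ⟪e, y⟫) := by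
      intro t ht
      have := hlq _ ht
      exact ⟨by linarith [this.1], by linarith [this.2]⟩
    have hle : l ≤ q := (hlq l hl).2
    by_cases hy : y ∈ CLe K e L
    · rw [indicator_of_mem hy]
      refine le_trans ?_ le_add_self
      have hin : ∀ t : ℝ, ⟪e, y + t • e⟫ = ⟪e, y⟫ + t := by
        intro t
        rw [inner_add_right, inner_smul_right, real_inner_self_eq_norm_sq, he]
        ring
      have hval : ∀ t : ℝ, y + t • e ∈ K → ee (⟪e, y⟫ + t) ≤ mm K 1 e y := by
        intro t ht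
        have := ffk_le_mm K 1 e y t
        unfold ffk at this
        rw [indicator_of_mem ht, hin] at this
        simpa using this
      rcases lt_or_ge 0 (l + ⟪e, y⟫) with h1 | h1
      · calc gaussianReal 0 1 {t : ℝ | y + (t - ⟪e, y⟫) • e ∈ K}
            ≤ gaussianReal 0 1 (Ici (l + ⟪e, y⟫)) := measure_mono fun t ht => (hsub ht).1
          _ ≤ ee (l + ⟪e, y⟫) := gauss_tail_pos h1.le
          _ ≤ _ := by rw [add_comm]; exact hval l hl
      · rcases lt_or_ge (q + ⟪e, y⟫) 0 with h2 | h2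
        · calc gaussianReal 0 1 {t : ℝ | y + (t - ⟪e, y⟫) • e ∈ K}
              ≤ gaussianReal 0 1 (Iic (q + ⟪e, y⟫)) := measure_mono fun t ht => (hsub ht).2
            _ ≤ ee (q + ⟪e, y⟫) := gauss_tail_neg h2.le
            _ ≤ _ := by rw [add_comm]; exact hval q hq
        · have h3 := hval (-⟪e, y⟫) (mem_btw hKc hl hq (by linarith) (by linarith))
          have h4 : ee (⟪e, y⟫ + -⟪e, y⟫) = 1 := by
            rw [add_neg_cancel]; unfold ee; simp
          rw [h4] at h3
          exact prob_le_one.trans h3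
    · have hlen : q - l < L := by
        by_contra hcon
        push Not at hcon
        exact hy ⟨l, hl, mem_btw hKc hl hq (by linarith) (by linarith)⟩
      refine le_trans ?_ le_self_add
      calc gaussianReal 0 1 {t : ℝ | y + (t - ⟪e, y⟫) • e ∈ K}
          ≤ gaussianReal 0 1 (Icc (l + ⟪e, y⟫) (q + ⟪e, y⟫)) := measure_mono hsub
        _ ≤ kk * 1 * volume (Icc (l + ⟪e, y⟫) (q + ⟪e, y⟫)) :=
            gauss_le (fun x _ => ee_le_one x) measurableSet_Icc
        _ ≤ kk * ENNReal.ofReal L := by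
            rw [mul_one, Real.volume_Icc]
            gcongr
            linarith
  · push Not at hne
    have : {t : ℝ | y + (t - ⟪e, y⟫) • e ∈ K} = ∅ := by
      ext t
      simp only [mem_setOf_eq, mem_empty_iff_false, iff_false]
      exact hne _
    rw [this, measure_empty]
    exact bot_le

theorem fib_long (hK : IsCompact K) (hKc : Convex ℝ K) (he : ‖e‖ = 1) {L : ℝ} (hL : 0 ≤ L)
    {W : Submodule ℝ E} (hW : W ≤ (ℝ ∙ e)ᗮ) (x : E) :
    fib W (K.indicator 1) x ≤
      kk * ENNReal.ofReal L + fib W ((CLe K e L).indicator (mm K 1 e)) x := by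
  have hone : ∀ x : E, (1 : E → ℝ≥0∞) x ≠ ⊤ := fun x => by simp
  have m1 : Measurable ((CLe K e L).indicator (mm K 1 e)) :=
    (usc_mm hK continuous_const hone e).measurable.indicator (isClosed_CLe hK he _).measurableSet
  have hInv : Inv (ℝ ∙ e)ᗮ ((CLe K e L).indicator (mm K 1 e)) := by
    intro y u hu
    by_cases hy : y ∈ CLe K e L
    · rw [indicator_of_mem hy, indicator_of_mem ((invS_CLe K e L y u hu).mpr hy)]
      exact inv_mm K 1 e y u hu
    · rw [indicator_of_notMem hy, indicator_of_notMem (fun h => hy ((invS_CLe K e L y u hu).mp h))]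
  have e1 : fib W (fun _ : E => kk * ENNReal.ofReal L) x = kk * ENNReal.ofReal L := fib_const W _ x
  rw [← e1, ← fib_add measurable_const]
  have m2 : Measurable fun y => kk * ENNReal.ofReal L + (CLe K e L).indicator (mm K 1 e) y :=
    measurable_const.add m1
  refine tower_le hW (measurable_one.indicator hK.measurableSet) m2 (fun y => ?_) x
  rw [fib_add measurable_const, fib_const, fib_eq_self hInv]
  exact line_long hK hKc he hL y

/-- the label `x` of `W` is fit: healthy, and the weight is nearly constant on its fibre -/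
def Fit (K : Set E) (w : E → ℝ≥0∞) (e : E) (W : Submodule ℝ E) (x : E) : Prop :=
  ENNReal.ofReal (3 / 5) ≤ fib W (K.indicator 1) x ∧
  ∃ om : ℝ≥0∞, (∀ z, om ≤ w (Vale.Agent.P262.H395.mix W x z)) ∧
    fib W (mm univ w e) x ≤ ENNReal.ofReal (103 / 100) * om

lemma kk_le : kk ≤ ENNReal.ofReal (2 / 5) := by
  unfold kk
  refine ENNReal.ofReal_le_ofReal ?_
  have := sqrt_two_pi_ge
  rw [inv_le_comm₀ (by linarith) (by norm_num)]
  linarith

lemma mix_add_line {W : Submodule ℝ E} (hW : W ≤ (ℝ ∙ e)ᗮ) (x z : E) (t : ℝ) :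
    Vale.Agent.P262.H395.mix W x z + t • e = Vale.Agent.P262.H395.mix W x (z + t • e) := by
  have h : t • e ∈ Wᗮ := by
    refine Submodule.orthogonal_le hW ?_
    rw [Submodule.orthogonal_orthogonal]
    exact Submodule.smul_mem _ _ (Submodule.mem_span_singleton_self e)
  unfold Vale.Agent.P262.H395.mix
  rw [map_add, proj_eq_zero h, add_zero]
  abel

theorem fit_long (hK : IsCompact K) (hKc : Convex ℝ K) (he : ‖e‖ = 1)
    {W : Submodule ℝ E} (hW : W ≤ (ℝ ∙ e)ᗮ) {x : E} (h : Fit K w e W x) :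
    ENNReal.ofReal (1 / 2) * fib W (mm K w e) x ≤
      fib W ((CLe K e (1 / 5)).indicator (mm K w e)) x := by
  obtain ⟨h1, om, hom, hflat⟩ := h
  have hone : ∀ x : E, (1 : E → ℝ≥0∞) x ≠ ⊤ := fun x => by simp
  have m1 : Measurable ((CLe K e (1 / 5)).indicator (mm K 1 e)) :=
    (usc_mm hK continuous_const hone e).measurable.indicator (isClosed_CLe hK he _).measurableSet
  have h2 := fib_long hK hKc he (L := 1 / 5) (by norm_num) hW x
  set H := fib W ((CLe K e (1 / 5)).indicator (mm K 1 e)) x with hH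
  have h3 : ENNReal.ofReal (13 / 25) ≤ H := by
    have h4 : ENNReal.ofReal (3 / 5) ≤ ENNReal.ofReal (2 / 25) + H := by
      refine (h1.trans h2).trans ?_
      gcongr
      calc kk * ENNReal.ofReal (1 / 5) ≤ ENNReal.ofReal (2 / 5) * ENNReal.ofReal (1 / 5) := by
            gcongr; exact kk_le
        _ = ENNReal.ofReal (2 / 25) := by
            rw [← ENNReal.ofReal_mul (by norm_num)]; norm_num
    have h5 : ENNReal.ofReal (3 / 5) = ENNReal.ofReal (2 / 25) + ENNReal.ofReal (13 / 25) := by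
      rw [← ENNReal.ofReal_add (by norm_num) (by norm_num)]; norm_num
    rw [h5] at h4
    exact (ENNReal.add_le_add_iff_left ENNReal.ofReal_ne_top).mp h4
  have h6 : om * H ≤ fib W ((CLe K e (1 / 5)).indicator (mm K w e)) x := by
    rw [hH, ← fib_mul (inv_const W om) m1]
    unfold fib
    refine lintegral_mono fun z => ?_
    set y := Vale.Agent.P262.H395.mix W x z with hy
    show om * (CLe K e (1 / 5)).indicator (mm K 1 e) y ≤
      (CLe K e (1 / 5)).indicator (mm K w e) y
    by_cases hyC : y ∈ CLe K e (1 / 5)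
    · rw [indicator_of_mem hyC, indicator_of_mem hyC]
      unfold mm
      rw [ENNReal.mul_iSup]
      refine iSup_mono fun t => ?_
      unfold ffk
      by_cases ht : y + t • e ∈ K
      · rw [indicator_of_mem ht, indicator_of_mem ht, Pi.one_apply, one_mul]
        gcongr
        rw [hy, mix_add_line hW]
        exact hom _
      · rw [indicator_of_notMem ht, mul_zero]
        exact bot_le
    · rw [indicator_of_notMem hyC, mul_zero]
      exact bot_le
  have h7 : fib W (mm K w e) x ≤ ENNReal.ofReal (103 / 100) * om := by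
    refine le_trans (fib_mono (fun y => ?_) x) hflat
    refine iSup_mono fun t => ?_
    unfold ffk
    rw [indicator_univ]
    exact indicator_le_self' (fun _ _ => bot_le) _
  calc ENNReal.ofReal (1 / 2) * fib W (mm K w e) x
      ≤ ENNReal.ofReal (1 / 2) * (ENNReal.ofReal (103 / 100) * om) := by gcongr
    _ = ENNReal.ofReal (103 / 200) * om := by
        rw [← mul_assoc, ← ENNReal.ofReal_mul (by norm_num)]; norm_num
    _ ≤ ENNReal.ofReal (13 / 25) * om :=
        mul_le_mul' (ENNReal.ofReal_le_ofReal (by norm_num)) le_rfl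
    _ ≤ H * om := by gcongr
    _ = om * H := mul_comm _ _
    _ ≤ _ := h6

/-- all stopped labels are fit -/
def FitT (K : Set E) (w : E → ℝ≥0∞) (e : E) : STree E → Prop
  | .leaf => True
  | .node W D cls sub => (∀ x ∈ D, Fit K w e W x) ∧ ∀ n, FitT K w e (sub n)

lemma deep_of_fit (hK : IsCompact K) (hKc : Convex ℝ K) (he : ‖e‖ = 1) : ∀ (T : STree E),
    T.Below (ℝ ∙ e)ᗮ → FitT K w e T →
    T.Deep (mm K w e) ((CLe K e (1 / 5)).indicator (mm K w e)) := by
  intro T
  induction T with
  | leaf => intro _ _; trivial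
  | node W D cls sub ih =>
    intro hB hF
    exact ⟨fun x hx => fit_long hK hKc he hB.1 (hF.1 x hx), fun n => ih n (hB.2 n) (hF.2 n)⟩

lemma kk_ge : ENNReal.ofReal (1 / 3) ≤ kk := by
  unfold kk
  refine ENNReal.ofReal_le_ofReal ?_
  have h1 : Real.sqrt (2 * Real.pi) ≤ 3 := by
    rw [Real.sqrt_le_left (by norm_num)]
    nlinarith [Real.pi_lt_d2]
  have h2 : 0 < Real.sqrt (2 * Real.pi) := by positivity
  rw [one_div]
  exact inv_anti₀ h2 h1

lemma exp_neg_one_ge : (1 / 3 : ℝ) ≤ Real.exp (-1) := by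
  have := Real.exp_one_lt_d9
  rw [Real.exp_neg, one_div]
  exact inv_anti₀ (Real.exp_pos _) (by linarith)

lemma ind_add_line {A : Set E} (hA : InvS (ℝ ∙ e)ᗮ A) (f : E → ℝ≥0∞) (y : E) :
    fib (ℝ ∙ e)ᗮ (A.indicator f) y = A.indicator (fun y => fib (ℝ ∙ e)ᗮ f y) y := by
  by_cases hy : y ∈ A
  · rw [indicator_of_mem hy]
    exact fib_ind_univ f fun z => (hA.mix y z).mpr hy
  · rw [indicator_of_notMem hy]
    exact fib_ind_empty f fun z hz => hy ((hA.mix y z).mp hz)

/-- **Weighted perimeter, supremum form**: block (A4) -/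
theorem perw_tree (hK : IsCompact K) (hKc : Convex ℝ K) (he : ‖e‖ = 1) (hw : Continuous w)
    (hfin : ∀ x, w x ≠ ⊤) (hlc : LogConc fun x => GG x * w x) {R b : ℝ} (hR : 0 ≤ R)
    (hKR : ∀ x ∈ K, |⟪e, x⟫| ≤ R) (hb : 0 ≤ b)
    (hslope : ∀ x ∈ K, ∀ t : ℝ, x + t • e ∈ K →
      w x ≤ ENNReal.ofReal (Real.exp (b * |t|)) * w (x + t • e))
    {W0 : Submodule ℝ E} (hW : W0 ≤ (ℝ ∙ e)ᗮ) {T : STree E} (hV : T.Valid W0)
    (hB : T.Below (ℝ ∙ e)ᗮ) (hF : FitT K w e T) (x0 : E) (hroot : Fit K w e W0 x0) :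
    fib W0 (T.reg.indicator (mm K w e)) x0 ≤
      ENNReal.ofReal (200000 * (1 + R + b)) * fib W0 (T.reg.indicator (K.indicator w)) x0 := by
  have hreg := regW_mm hK hKc he hw hfin hlc (Θ := 1 / 704) (L := 1 / 5) (by norm_num)
    (by norm_num) (by norm_num)
  have hrt : ENNReal.ofReal (1 / 4) * fib W0 (mm K w e) x0 ≤
      fib W0 ((CLe K e (1 / 5)).indicator (mm K w e)) x0 := by
    refine le_trans ?_ (fit_long hK hKc he hW hroot)
    gcongr
    norm_num
  have key := hreg.star_tree (by norm_num) le_rfl hV (deep_of_fit hK hKc he T hB hF) x0 hrt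
  have hm := STree.measurableSet_reg T hV
  have hi := STree.inv_reg T hV hB
  unfold IneqF at key
  set A0 := fib W0 (T.reg.indicator (mm K w e)) x0 with hA0
  set AT := fib W0 (T.reg.indicator ((CLe K e (1 / 704 * (1 / 5))).indicator (mm K w e))) x0 with hAT
  set M := fib W0 (T.reg.indicator (K.indicator w)) x0 with hM
  have h1 : A0 ≤ 2 * AT := by
    have e1 : ENNReal.ofReal (704 * (1 / 704)) = 1 := by norm_num
    rw [e1, one_mul, one_mul, ← two_mul] at key
    exact le_self_add.trans key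
  set c1 : ℝ := (1 / 704 * (1 / 5)) / (2 * (1 + R + b)) * Real.exp (-1) with hc1
  have hden : 0 < 1 + R + b := by positivity
  have hc1' : 0 < c1 := by positivity
  have h2 : kk * ENNReal.ofReal c1 * AT ≤ M := by
    have mAT : Measurable (T.reg.indicator ((CLe K e (1 / 704 * (1 / 5))).indicator (mm K w e))) :=
      hreg.mT.indicator hm
    rw [hAT, ← fib_mul (inv_const W0 _) mAT]
    have m3 : Measurable fun y => kk * ENNReal.ofReal c1 *
        T.reg.indicator ((CLe K e (1 / 704 * (1 / 5))).indicator (mm K w e)) y :=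
      mAT.const_mul _
    refine tower_le hW m3 ((hw.measurable.indicator hK.measurableSet).indicator hm) (fun y => ?_) x0
    rw [fib_mul (inv_const _ _) mAT, ind_add_line hi, ind_add_line hi]
    by_cases hy : y ∈ T.reg
    · rw [indicator_of_mem hy, indicator_of_mem hy, ind_add_line (invS_CLe K e _)]
      by_cases hyC : y ∈ CLe K e (1 / 704 * (1 / 5))
      · rw [indicator_of_mem hyC, fib_eq_self (inv_mm K w e)]
        exact mass_ge hK hKc he hw hfin hR hKR hb hslope (by norm_num) (by norm_num) hyC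
      · rw [indicator_of_notMem hyC, mul_zero]
        exact bot_le
    · rw [indicator_of_notMem hy, mul_zero]
      exact bot_le
  have h3 : (1 : ℝ≥0∞) ≤ ENNReal.ofReal (100000 * (1 + R + b)) * (kk * ENNReal.ofReal c1) := by
    calc (1 : ℝ≥0∞) = ENNReal.ofReal 1 := by simp
      _ ≤ ENNReal.ofReal (100000 * (1 + R + b) * (1 / 3 * c1)) := by
          refine ENNReal.ofReal_le_ofReal ?_
          have h4 := exp_neg_one_ge
          have h5 : 100000 * (1 + R + b) * (1 / 3 * c1) = 100000 / (3 * 7040) * Real.exp (-1) := by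
            rw [hc1]
            field_simp
            ring
          rw [h5]
          nlinarith
      _ = ENNReal.ofReal (100000 * (1 + R + b)) * (ENNReal.ofReal (1 / 3) * ENNReal.ofReal c1) := by
          rw [ENNReal.ofReal_mul (by positivity), ENNReal.ofReal_mul (by norm_num : (0:ℝ) ≤ 1 / 3)]
      _ ≤ _ := by
          gcongr
          exact kk_ge
  calc A0 ≤ 2 * AT := h1
    _ = 2 * (1 * AT) := by rw [one_mul]
    _ ≤ 2 * ((ENNReal.ofReal (100000 * (1 + R + b)) * (kk * ENNReal.ofReal c1)) * AT) := by gcongr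
    _ = ENNReal.ofReal 2 * ENNReal.ofReal (100000 * (1 + R + b)) *
        (kk * ENNReal.ofReal c1 * AT) := by
        rw [show (ENNReal.ofReal 2) = 2 by simp]
        ring
    _ ≤ ENNReal.ofReal 2 * ENNReal.ofReal (100000 * (1 + R + b)) * M := by gcongr
    _ = ENNReal.ofReal (200000 * (1 + R + b)) * M := by
        rw [← ENNReal.ofReal_mul (by norm_num)]
        congr 2
        ring

/-- **Weighted perimeter, throughput form** -/
theorem perw_edge_tree (hK : IsCompact K) (hKc : Convex ℝ K) (he : ‖e‖ = 1) (hw : Continuous w)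
    (hfin : ∀ x, w x ≠ ⊤) (hlc : LogConc fun x => GG x * w x) {R b : ℝ} (hR : 0 ≤ R)
    (hKR : ∀ x ∈ K, |⟪e, x⟫| ≤ R) (hb : 0 ≤ b)
    (hslope : ∀ x ∈ K, ∀ t : ℝ, x + t • e ∈ K →
      w x ≤ ENNReal.ofReal (Real.exp (b * |t|)) * w (x + t • e))
    {W0 : Submodule ℝ E} (hW : W0 ≤ (ℝ ∙ e)ᗮ) {T : STree E} (hV : T.Valid W0)
    (hB : T.Below (ℝ ∙ e)ᗮ) (hF : FitT K w e T) (x0 : E) (hroot : Fit K w e W0 x0)
    {r : ℝ} (hr : 0 ≤ r) :
    fib W0 (T.reg.indicator ((EdgeE K e r).indicator w)) x0 ≤
      ENNReal.ofReal (200000 * (1 + R + b) * r) *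
        fib W0 (T.reg.indicator (K.indicator w)) x0 := by
  have hm := STree.measurableSet_reg T hV
  have hi := STree.inv_reg T hV hB
  have mE := measurableSet_edgeE (e := e) hK.isClosed hKc hr
  have mmm := (usc_mm hK hw hfin e).measurable
  have hkr : kk * ENNReal.ofReal (2 * r) ≤ ENNReal.ofReal r := by
    calc kk * ENNReal.ofReal (2 * r) ≤ ENNReal.ofReal (2 / 5) * ENNReal.ofReal (2 * r) := by
          gcongr; exact kk_le
      _ = ENNReal.ofReal (2 / 5 * (2 * r)) :=
          (ENNReal.ofReal_mul (by norm_num : (0 : ℝ) ≤ 2 / 5)).symm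
      _ ≤ ENNReal.ofReal r := ENNReal.ofReal_le_ofReal (by linarith)
  have h1 : fib W0 (T.reg.indicator ((EdgeE K e r).indicator w)) x0 ≤
      ENNReal.ofReal r * fib W0 (T.reg.indicator (mm K w e)) x0 := by
    refine tower_le_mul hW ((hw.measurable.indicator mE).indicator hm) (mmm.indicator hm)
      (fun y => ?_) x0
    rw [ind_add_line hi, ind_add_line hi]
    by_cases hy : y ∈ T.reg
    · rw [indicator_of_mem hy, indicator_of_mem hy, fib_eq_self (inv_mm K w e)]
      exact (edge_le hK hKc he hw hr y).trans (mul_le_mul' hkr le_rfl)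
    · rw [indicator_of_notMem hy]
      exact bot_le
  calc _ ≤ ENNReal.ofReal r * fib W0 (T.reg.indicator (mm K w e)) x0 := h1
    _ ≤ ENNReal.ofReal r * (ENNReal.ofReal (200000 * (1 + R + b)) *
          fib W0 (T.reg.indicator (K.indicator w)) x0) := by
        gcongr
        exact perw_tree hK hKc he hw hfin hlc hR hKR hb hslope hW hV hB hF x0 hroot
    _ = _ := by
        rw [← mul_assoc, ← ENNReal.ofReal_mul hr]
        congr 2
        ring

/-! ### fixed flags -/

/-- the tree of a fixed flag -/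
def chain : (m : ℕ) → (Fin m → Submodule ℝ E) → (Fin m → Set E) → STree E
  | 0, _, _ => .leaf
  | m + 1, W, D => .node (W 0) (D 0) (fun _ => 0)
      (fun _ => chain m (fun i => W i.succ) (fun i => D i.succ))

lemma mem_reg_chain : ∀ (m : ℕ) (W : Fin m → Submodule ℝ E) (D : Fin m → Set E) (x : E),
    x ∈ (chain m W D).reg ↔ ∀ i, x ∉ D i := by
  intro m
  induction m with
  | zero => intro W D x; simp [chain, STree.reg]
  | succ m ih =>
    intro W D x
    have h1 : x ∈ (chain (m + 1) W D).reg ↔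
        x ∉ D 0 ∧ x ∈ (chain m (fun i => W i.succ) (fun i => D i.succ)).reg := Iff.rfl
    rw [h1, ih, Fin.forall_fin_succ]

lemma valid_chain : ∀ (m : ℕ) (W : Fin m → Submodule ℝ E) (D : Fin m → Set E)
    (W0 : Submodule ℝ E), Monotone W → (∀ i, W0 ≤ W i) → (∀ i, MeasurableSet (D i)) →
    (∀ i, InvS (W i) (D i)) → (chain m W D).Valid W0 := by
  intro m
  induction m with
  | zero => intro W D W0 _ _ _ _; trivial
  | succ m ih =>
    intro W D W0 hmono h0 hD hi
    refine ⟨h0 0, hD 0, hi 0, measurable_const, fun _ _ _ => rfl, fun n => ?_⟩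
    exact ih _ _ _ (fun i j hij => hmono (Fin.succ_le_succ_iff.mpr hij))
      (fun i => hmono (Fin.zero_le _)) (fun i => hD _) (fun i => hi _)

lemma below_chain : ∀ (m : ℕ) (W : Fin m → Submodule ℝ E) (D : Fin m → Set E)
    {H : Submodule ℝ E}, (∀ i, W i ≤ H) → (chain m W D).Below H := by
  intro m
  induction m with
  | zero => intro W D H _; trivial
  | succ m ih =>
    intro W D H h
    exact ⟨h 0, fun n => ih _ _ fun i => h _⟩

lemma fitT_chain : ∀ (m : ℕ) (W : Fin m → Submodule ℝ E) (D : Fin m → Set E),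
    (∀ i, ∀ x ∈ D i, Fit K w e (W i) x) → FitT K w e (chain m W D) := by
  intro m
  induction m with
  | zero => intro W D _; trivial
  | succ m ih =>
    intro W D h
    exact ⟨h 0, fun n => ih _ _ fun i => h _⟩

/-- the points which are nowhere stopped -/
def regC {m : ℕ} (D : Fin m → Set E) : Set E := {x | ∀ i, x ∉ D i}

lemma regC_eq {m : ℕ} (W : Fin m → Submodule ℝ E) (D : Fin m → Set E) :
    (chain m W D).reg = regC D := by
  ext x
  exact mem_reg_chain m W D x

lemma regC_first {m : ℕ} (D : Fin m → Set E) :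
    regC (fun i => D i \ ⋃ l : Fin m, ⋃ _ : l < i, D l) = regC D := by
  ext x
  simp only [regC, mem_setOf_eq, mem_diff, mem_iUnion, not_and, not_not, exists_prop]
  constructor
  · intro h
    by_contra hcon
    push Not at hcon
    classical
    obtain ⟨i, hi, hmin⟩ : ∃ i, x ∈ D i ∧ ∀ l, l < i → x ∉ D l := by
      obtain ⟨i, hi⟩ := hcon
      induction' hn : i.val using Nat.strong_induction_on with n ih generalizing i
      by_cases h2 : ∃ l, l < i ∧ x ∈ D l
      · obtain ⟨l, hl, hl2⟩ := h2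
        exact ih l.val (by rw [← hn]; exact hl) l hl2 rfl
      · push Not at h2
        exact ⟨i, hi, h2⟩
    obtain ⟨l, hl, hl2⟩ := h i hi
    exact hmin l hl hl2
  · intro h i hi
    exact absurd hi (h i)

/-- **PERW (A4) for a fixed flag**: the weighted supremum over the `e`-lines meeting `K` against
the weighted mass of `K`, in the complement of the stopped cylinders; only labels which are not
stopped before have to be fit. -/
theorem perw_flag (hK : IsCompact K) (hKc : Convex ℝ K) (he : ‖e‖ = 1) (hw : Continuous w)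
    (hfin : ∀ x, w x ≠ ⊤) (hlc : LogConc fun x => GG x * w x) {R b : ℝ} (hR : 0 ≤ R)
    (hKR : ∀ x ∈ K, |⟪e, x⟫| ≤ R) (hb : 0 ≤ b)
    (hslope : ∀ x ∈ K, ∀ t : ℝ, x + t • e ∈ K →
      w x ≤ ENNReal.ofReal (Real.exp (b * |t|)) * w (x + t • e))
    {W0 : Submodule ℝ E} (hW0 : W0 ≤ (ℝ ∙ e)ᗮ) {m : ℕ} {W : Fin m → Submodule ℝ E}
    {D : Fin m → Set E} (hmono : Monotone W) (h0 : ∀ i, W0 ≤ W i) (hWe : ∀ i, W i ≤ (ℝ ∙ e)ᗮ)
    (hD : ∀ i, MeasurableSet (D i)) (hDi : ∀ i, InvS (W i) (D i))
    (hF : ∀ i, ∀ x ∈ D i, (∀ l, l < i → x ∉ D l) → Fit K w e (W i) x)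
    (x0 : E) (hroot : Fit K w e W0 x0) :
    fib W0 ((regC D).indicator (mm K w e)) x0 ≤
      ENNReal.ofReal (200000 * (1 + R + b)) * fib W0 ((regC D).indicator (K.indicator w)) x0 ∧
    ∀ r : ℝ, 0 ≤ r → fib W0 ((regC D).indicator ((EdgeE K e r).indicator w)) x0 ≤
      ENNReal.ofReal (200000 * (1 + R + b) * r) *
        fib W0 ((regC D).indicator (K.indicator w)) x0 := by
  set D' : Fin m → Set E := fun i => D i \ ⋃ l : Fin m, ⋃ _ : l < i, D l with hD'
  have hDm : ∀ i, MeasurableSet (D' i) := fun i =>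
    (hD i).diff (MeasurableSet.iUnion fun l => MeasurableSet.iUnion fun _ => hD l)
  have hDi' : ∀ i, InvS (W i) (D' i) := by
    intro i x u hu
    simp only [hD', mem_diff, mem_iUnion, exists_prop]
    rw [hDi i x u hu]
    refine and_congr_right fun _ => not_congr (exists_congr fun l => ?_)
    constructor
    · rintro ⟨hl, h2⟩
      exact ⟨hl, ((hDi l).mono (hmono hl.le) x u hu).mp h2⟩
    · rintro ⟨hl, h2⟩
      exact ⟨hl, ((hDi l).mono (hmono hl.le) x u hu).mpr h2⟩
  have hfit : ∀ i, ∀ x ∈ D' i, Fit K w e (W i) x := by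
    intro i x hx
    refine hF i x hx.1 fun l hl hxl => hx.2 ?_
    exact mem_iUnion.mpr ⟨l, mem_iUnion.mpr ⟨hl, hxl⟩⟩
  have hr : (chain m W D').reg = regC D := by rw [regC_eq, hD', regC_first]
  have hV := valid_chain m W D' W0 hmono h0 hDm hDi'
  have hB := below_chain m W D' hWe
  have hT := fitT_chain m W D' hfit
  refine ⟨?_, fun r hr0 => ?_⟩
  · have := perw_tree hK hKc he hw hfin hlc hR hKR hb hslope hW0 hV hB hT x0 hroot
    rwa [hr] at this
  · have := perw_edge_tree hK hKc he hw hfin hlc hR hKR hb hslope hW0 hV hB hT x0 hroot hr0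
    rwa [hr] at this

/-- flatness from a pointwise bound along lines and the fibre average of the weight -/
lemma fit_of (hline : ∀ x : E, ∀ s : ℝ, w (x + s • e) * ee ⟪e, x + s • e⟫ ≤ w x)
    {W : Submodule ℝ E} {x : E} (h : ENNReal.ofReal (3 / 5) ≤ fib W (K.indicator 1) x)
    {om : ℝ≥0∞} (hom : ∀ z, om ≤ w (Vale.Agent.P262.H395.mix W x z))
    (hav : fib W w x ≤ ENNReal.ofReal (103 / 100) * om) : Fit K w e W x := by
  refine ⟨h, om, hom, le_trans (fib_mono (fun y => iSup_le fun t => ?_) x) hav⟩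
  unfold ffk
  rw [indicator_univ]
  exact hline y t

/-- the line functional dominates the density: the function `G` of the threshold lemma -/
lemma le_mm {x : E} (hx : x ∈ K) : ee ⟪e, x⟫ * w x ≤ mm K w e x := by
  have := ffk_le_mm' K w e x
  unfold ffk at this
  rwa [indicator_of_mem hx, mul_comm] at this

lemma pdf_le_mm {x : E} (hx : x ∈ K) : gaussianPDF 0 1 ⟪e, x⟫ * w x ≤ kk * mm K w e x := by
  rw [gpdf_eq]
  calc kk * ee ⟪e, x⟫ * w x = kk * (ee ⟪e, x⟫ * w x) := mul_assoc _ _ _
    _ ≤ _ := by gcongr; exact le_mm hx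

end Vale.Agent.P262.PerW
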