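import Mathlib
import Vale.Agent.P262.H493.PerB
import Vale.Agent.P262.H924.Box3

/-!
# P262, block (A4) for the box caps: the weighted perimeter theorem in the language of the flag
-/

set_option linter.all false

open MeasureTheory Set Filter ProbabilityTheory
open scoped ENNReal NNReal Topology RealInnerProductSpace

namespace Vale.Agent.P262.PerW

open Vale.Agent.P262.H493 hiding fib
open Vale.Agent.P262.H395
open Vale.Agent.P262.H44
open Vale.Agent.P262.H502
open Vale.Agent.P262.H118 (L ONB L_mono)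
open Vale.Agent.P262.H924 (cap capR Zk)

variable {E : Type*} [NormedAddCommGroup E] [InnerProductSpace ℝ E] [FiniteDimensional ℝ E]
  [MeasurableSpace E] [BorelSpace E] {K C : Set E} {w : E → ℝ≥0∞} {e : E}
  {f : ℕ → E} {h A0 kap b0 : ℝ} {d : ℕ}

lemma le_Hp_of_perp {W : Submodule ℝ E} (he : e ∈ Wᗮ) : W ≤ (ℝ ∙ e)ᗮ := by
  rw [Submodule.le_orthogonal_iff_le_orthogonal, Submodule.span_singleton_le_iff_mem]
  exact he

lemma L_le_Hp (hf : ONB f d) {l k : ℕ} (hlk : l ≤ k) (hk : k < d) : L f l ≤ (ℝ ∙ f k)ᗮ :=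
  (L_mono f hlk).trans (le_Hp_of_perp (hf.mem_perp hk))

lemma continuous_cap (j : ℕ) : Continuous (cap A0 kap f h j) :=
  ENNReal.continuous_ofReal.comp (Vale.Agent.P262.H924.continuous_capR j)

/-- healthy labels are fit for the box caps -/
theorem box_fit (hf : ONB f d) (hA : 0 ≤ A0) (hkap : 0 ≤ kap) (hh : 0 ≤ h)
    (hη : 6 * d * Real.exp (-h ^ 2 / 2) ≤ 3 / 100) {l i : ℕ} (hli : l ≤ i) (hi : i ≤ d)
    (hcase : (∃ k, k < d ∧ e = f k) ∨ e ∈ (L f i)ᗮ) {x : E}
    (hx : ENNReal.ofReal (3 / 5) ≤ fib (L f l) (K.indicator 1) x) :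
    Fit K (cap A0 kap f h i) e (L f l) x := by
  refine fit_of (om := ENNReal.ofReal (kap ^ (i - l)) * cap A0 kap f h l x) ?_ hx ?_ ?_
  · intro y s
    have e1 : ee ⟪e, y + s • e⟫ = ENNReal.ofReal (Real.exp (-(⟪e, y + s • e⟫ ^ 2 / 2))) := by
      unfold ee
      rw [neg_div]
    rw [e1]
    rcases hcase with ⟨k, hk, rfl⟩ | he
    · exact Vale.Agent.P262.H924.cap_line_flag hf hh hA hkap hi hk y s
    · exact Vale.Agent.P262.H924.cap_line_perp hA hkap he y s
  · intro z
    exact Vale.Agent.P262.H924.cap_mix_ge hf hA hkap hli hi x z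
  · refine (Vale.Agent.P262.H924.fib_cap_flat hf hA hkap hh hη (by norm_num) hli hi x).trans ?_
    gcongr
    norm_num

lemma mm_inter (hC : InvS (ℝ ∙ e)ᗮ C) (x : E) :
    mm (K ∩ C) w e x = C.indicator (mm K w e) x := by
  have hline : ∀ t : ℝ, x + t • e ∈ C ↔ x ∈ C := fun t => hC x _ (by
    rw [Submodule.orthogonal_orthogonal]
    exact Submodule.smul_mem _ _ (Submodule.mem_span_singleton_self e))
  by_cases hx : x ∈ C
  · rw [indicator_of_mem hx]
    unfold mm ffk
    congr 1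
    funext t
    have ht : x + t • e ∈ C := (hline t).mpr hx
    by_cases hK : x + t • e ∈ K
    · rw [indicator_of_mem (show x + t • e ∈ K ∩ C from ⟨hK, ht⟩), indicator_of_mem hK]
    · rw [indicator_of_notMem (fun h => hK h.1), indicator_of_notMem hK]
  · rw [indicator_of_notMem hx]
    exact mm_empty fun t ht => hx ((hline t).mp ht.2)

/-- points which are not stopped at the levels `l0 ≤ l < j` -/
def regN (D : ℕ → Set E) (l0 j : ℕ) : Set E := {x | ∀ l, l0 ≤ l → l < j → x ∉ D l}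

lemma regN_eq (D : ℕ → Set E) (l0 j : ℕ) :
    regC (fun t : Fin (j - l0) => D (l0 + t)) = regN D l0 j := by
  ext x
  simp only [regC, regN, mem_setOf_eq]
  constructor
  · intro h l h1 h2
    have := h ⟨l - l0, by omega⟩
    simpa [Nat.add_sub_cancel' h1] using this
  · intro h t
    exact h _ (by omega) (by omega)

/-- **(A4) for the box caps.** `C` is a closed convex cylinder (the labels which are not killed),
`D l` the stopped labels of level `l`, `l0 ≤ l < j`, which have to be healthy when they are not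
stopped before; `i ≥ j - 1` is the level of the cap, `e` a direction orthogonal to the label spaces
of all stops. -/
theorem box_perw (hf : ONB f d) (hA : 0 ≤ A0) (hkap : 0 ≤ kap) (hh : 0 ≤ h)
    (hη : 6 * d * Real.exp (-h ^ 2 / 2) ≤ 3 / 100) (hK : IsCompact K) (hKc : Convex ℝ K) {R : ℝ}
    (hR : 0 ≤ R) (hKR : K ⊆ Metric.closedBall 0 R) {i : ℕ} (hi : i ≤ d) (he : ‖e‖ = 1)
    (hcase : (∃ k, k < d ∧ e = f k) ∨ e ∈ (L f i)ᗮ) {l0 j : ℕ} (hji : j ≤ i + 1) (hl0 : l0 ≤ i)
    (he0 : e ∈ (L f l0)ᗮ) (hej : ∀ l, l < j → e ∈ (L f l)ᗮ) (hC : IsClosed C)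
    (hCc : Convex ℝ C) (hCi : InvS (ℝ ∙ e)ᗮ C) {D : ℕ → Set E}
    (hD : ∀ l, l0 ≤ l → l < j → MeasurableSet (D l))
    (hDi : ∀ l, l0 ≤ l → l < j → InvS (L f l) (D l))
    (hhealth : ∀ l, l0 ≤ l → l < j → ∀ x ∈ D l, (∀ l', l0 ≤ l' → l' < l → x ∉ D l') →
      ENNReal.ofReal (3 / 5) ≤ fib (L f l) ((K ∩ C).indicator 1) x)
    (x0 : E) (hroot : ENNReal.ofReal (3 / 5) ≤ fib (L f l0) ((K ∩ C).indicator 1) x0) :
    fib (L f l0) ((regN D l0 j ∩ C).indicator (mm K (cap A0 kap f h i) e)) x0 ≤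
      ENNReal.ofReal (200000 * (1 + 2 * R)) *
        fib (L f l0) ((regN D l0 j ∩ C).indicator (K.indicator (cap A0 kap f h i))) x0 ∧
    ∀ r : ℝ, 0 ≤ r →
      fib (L f l0) ((regN D l0 j ∩ C).indicator ((EdgeE K e r).indicator
        (cap A0 kap f h i))) x0 ≤
      ENNReal.ofReal (200000 * (1 + 2 * R) * r) *
        fib (L f l0) ((regN D l0 j ∩ C).indicator (K.indicator (cap A0 kap f h i))) x0 := by
  have hlc : LogConc fun x => GG x * cap A0 kap f h i x := by
    have := Vale.Agent.P262.H924.logConc_cap (A0 := A0) (kap := kap) hf hi hh hA hkap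
    have e1 : (fun x : E => GG x * cap A0 kap f h i x) = fun x : E =>
        ENNReal.ofReal (Real.exp (-(‖x‖ ^ 2 / 2))) * cap A0 kap f h i x := by
      funext x
      unfold GG
      rw [neg_div]
    rw [e1]
    exact this
  have hKR' : ∀ x ∈ K, |⟪e, x⟫| ≤ R := by
    intro x hx
    have h1 := abs_real_inner_le_norm e x
    have h2 := hKR hx
    rw [mem_closedBall_zero_iff] at h2
    rw [he, one_mul] at h1
    exact h1.trans h2
  have hslope : ∀ x ∈ K ∩ C, ∀ t : ℝ, x + t • e ∈ K ∩ C →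
      cap A0 kap f h i x ≤ ENNReal.ofReal (Real.exp (R / 2 * |t|)) *
        cap A0 kap f h i (x + t • e) := by
    intro x hx t hxt
    have h1 := hKR hx.1
    have h2 := hKR hxt.1
    rw [mem_closedBall_zero_iff] at h1 h2
    have e1 : x + t • e + (-t) • e = x := by rw [neg_smul, add_neg_cancel_right]
    have h3 := Vale.Agent.P262.H924.cap_add_le (A0 := A0) (kap := kap) (h := h) hf hA hkap hi hh
      (R := R) (x := x + t • e) (e := e) h2 (t := -t) (by rw [e1]; exact h1) he
    rwa [e1, abs_neg] at h3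
  have key := perw_flag (K := K ∩ C) (w := cap A0 kap f h i) (e := e)
    (hK.inter_right hC) (hKc.inter hCc) he (continuous_cap i)
    (fun x => ENNReal.ofReal_ne_top) hlc hR (fun x hx => hKR' x hx.1)
    (b := R / 2) (by positivity) hslope (W0 := L f l0) (le_Hp_of_perp he0)
    (m := j - l0) (W := fun t => L f (l0 + t)) (D := fun t => D (l0 + t))
    (fun a b hab => L_mono f (by have : (a : ℕ) ≤ b := hab; omega))
    (fun t => L_mono f (by omega)) (fun t => le_Hp_of_perp (hej _ (by omega)))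
    (fun t => hD _ (by omega) (by omega)) (fun t => hDi _ (by omega) (by omega))
    (fun t x hx hxl => box_fit hf hA hkap hh hη (by omega) hi hcase
      (hhealth _ (by omega) (by omega) x hx fun l' h1 h2 => by
        have h3 := hxl ⟨l' - l0, by omega⟩ (by
          show l' - l0 < (t : ℕ)
          omega)
        simpa [Nat.add_sub_cancel' h1] using h3))
    x0 (box_fit hf hA hkap hh hη hl0 hi hcase hroot)
  rw [regN_eq] at key
  have e1 : (regN D l0 j).indicator (mm (K ∩ C) (cap A0 kap f h i) e) =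
      (regN D l0 j ∩ C).indicator (mm K (cap A0 kap f h i) e) := by
    rw [← indicator_indicator]
    congr 1
    funext x
    exact mm_inter hCi x
  have e2 : (regN D l0 j).indicator ((K ∩ C).indicator (cap A0 kap f h i)) =
      (regN D l0 j ∩ C).indicator (K.indicator (cap A0 kap f h i)) := by
    rw [indicator_indicator, indicator_indicator]
    congr 1
    rw [inter_assoc, inter_comm C K]
  have e3 : ∀ r : ℝ, (regN D l0 j).indicator ((EdgeE (K ∩ C) e r).indicator (cap A0 kap f h i)) =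
      (regN D l0 j ∩ C).indicator ((EdgeE K e r).indicator (cap A0 kap f h i)) := by
    intro r
    rw [indicator_indicator, indicator_indicator]
    congr 1
    rw [inter_assoc]
    congr 1
    ext x
    have hline : ∀ t : ℝ, x + t • e ∈ C ↔ x ∈ C := fun t => hCi x _ (by
      rw [Submodule.orthogonal_orthogonal]
      exact Submodule.smul_mem _ _ (Submodule.mem_span_singleton_self e))
    simp only [EdgeE, mem_inter_iff, mem_setOf_eq, hline]
    constructor
    · rintro ⟨⟨h1, h2⟩, t, ht, h3⟩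
      exact ⟨h2, h1, t, ht, fun h4 => h3 ⟨h4, h2⟩⟩
    · rintro ⟨h2, h1, t, ht, h3⟩
      exact ⟨⟨h1, h2⟩, t, ht, fun h4 => h3 h4.1⟩
  rw [e1, e2] at key
  have hle : 200000 * (1 + R + R / 2) ≤ 200000 * (1 + 2 * R) := by linarith
  refine ⟨key.1.trans (mul_le_mul' (ENNReal.ofReal_le_ofReal hle) le_rfl), fun r hr => ?_⟩
  have h2 := key.2 r hr
  rw [e3] at h2
  exact h2.trans (mul_le_mul' (ENNReal.ofReal_le_ofReal
    (mul_le_mul_of_nonneg_right hle hr)) le_rfl)

/-- integral form with the indicator `Om` -/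
theorem box_perw_int (hf : ONB f d) (hA : 0 ≤ A0) (hkap : 0 ≤ kap) (hh : 0 ≤ h)
    (hη : 6 * d * Real.exp (-h ^ 2 / 2) ≤ 3 / 100) (hK : IsCompact K) (hKc : Convex ℝ K) {R : ℝ}
    (hR : 0 ≤ R) (hKR : K ⊆ Metric.closedBall 0 R) {i : ℕ} (hi : i ≤ d) (he : ‖e‖ = 1)
    (hcase : (∃ k, k < d ∧ e = f k) ∨ e ∈ (L f i)ᗮ) {j : ℕ} (hji : j ≤ i + 1)
    (hej : ∀ l, l < j → e ∈ (L f l)ᗮ) (hC : IsClosed C)
    (hCc : Convex ℝ C) (hCi : InvS (ℝ ∙ e)ᗮ C) {D : ℕ → Set E}
    (hD : ∀ l, l < j → MeasurableSet (D l)) (hDi : ∀ l, l < j → InvS (L f l) (D l))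
    (hhealth : ∀ l, l < j → ∀ x ∈ D l, (∀ l', l' < l → x ∉ D l') →
      ENNReal.ofReal (3 / 5) ≤ fib (L f l) ((K ∩ C).indicator 1) x)
    (hroot : ENNReal.ofReal (3 / 5) ≤ ∫⁻ x, (K ∩ C).indicator 1 x ∂stdGaussian E) :
    ∫⁻ x, (regN D 0 j ∩ C).indicator 1 x * mm K (cap A0 kap f h i) e x ∂stdGaussian E ≤
      ENNReal.ofReal (200000 * (1 + 2 * R)) *
        ∫⁻ x, (regN D 0 j ∩ C).indicator 1 x * (cap A0 kap f h i x * K.indicator 1 x)
          ∂stdGaussian E := by
  have hL0 : L f 0 = ⊥ := rfl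
  have key := (box_perw hf hA hkap hh hη hK hKc hR hKR hi he hcase (l0 := 0) hji (Nat.zero_le _)
    (by rw [hL0]; simp) hej hC hCc hCi (fun l _ => hD l) (fun l _ => hDi l)
    (fun l _ hl x hx h2 => hhealth l hl x hx fun l' h3 => h2 l' (Nat.zero_le _) h3) 0
    (by rw [hL0, fib_bot]; exact hroot)).1
  rw [hL0, fib_bot, fib_bot] at key
  have e1 : ∀ x : E, (regN D 0 j ∩ C).indicator 1 x * mm K (cap A0 kap f h i) e x =
      (regN D 0 j ∩ C).indicator (mm K (cap A0 kap f h i) e) x := by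
    intro x
    by_cases hx : x ∈ regN D 0 j ∩ C
    · rw [indicator_of_mem hx, indicator_of_mem hx]; simp
    · rw [indicator_of_notMem hx, indicator_of_notMem hx, zero_mul]
  have e2 : ∀ x : E, (regN D 0 j ∩ C).indicator 1 x *
      (cap A0 kap f h i x * K.indicator 1 x) =
      (regN D 0 j ∩ C).indicator (K.indicator (cap A0 kap f h i)) x := by
    intro x
    by_cases hx : x ∈ regN D 0 j ∩ C
    · rw [indicator_of_mem hx, indicator_of_mem hx]
      by_cases hxK : x ∈ K
      · rw [indicator_of_mem hxK, indicator_of_mem hxK]; simp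
      · rw [indicator_of_notMem hxK, indicator_of_notMem hxK]; simp
    · rw [indicator_of_notMem hx, indicator_of_notMem hx, zero_mul]
  simp only [e1, e2]
  exact key

end Vale.Agent.P262.PerW
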